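import Vale.Agent.P365.MathlibUsed
import Vale.Agent.P365L.Defs

set_option linter.all false

section

/-!
# P365L: one-variable facts on the standard Cauchy law.
-/

namespace P365L

open MeasureTheory ProbabilityTheory Complex
open scoped ENNReal NNReal Real

/-- the standard Cauchy law -/
noncomputable abbrev nu : Measure ℝ := cauchyMeasure 0 1

/-- the multiplier `δ/(1+δ g)` with `δ = γ (t + i)` -/
noncomputable def tz (γ : ℝ) (g : ℂ) (t : ℝ) : ℂ :=
  (γ * ((t : ℂ) + I)) / (1 + γ * ((t : ℂ) + I) * g)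

/-! ### auxiliary facts -/

theorem cau_im_pos {γ : ℝ} (hγ : 0 < γ) {g : ℂ} (hg : γ * ‖g‖ ^ 2 < g.im) : 0 < g.im :=
  lt_of_le_of_lt (by positivity) hg

theorem cau_ne_zero {γ : ℝ} (hγ : 0 < γ) {g : ℂ} (hg : γ * ‖g‖ ^ 2 < g.im) : g ≠ 0 := by
  rintro rfl
  have := cau_im_pos hγ hg
  simp at this

/-- the pole of `tz` -/
noncomputable def cau_p (γ : ℝ) (g : ℂ) : ℂ := -I - (γ * g)⁻¹

theorem cau_p_im {γ : ℝ} (hγ : 0 < γ) {g : ℂ} (hg : g ≠ 0) :
    (cau_p γ g).im = -1 + g.im / (γ * ‖g‖ ^ 2) := by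
  have h1 : ‖g‖ ^ 2 ≠ 0 := pow_ne_zero 2 (norm_ne_zero_iff.2 hg)
  have h2 : normSq g = ‖g‖ ^ 2 := (Complex.sq_norm g).symm
  simp only [cau_p, mul_inv, sub_im, neg_im, I_im, mul_im, inv_re, ofReal_re, normSq_ofReal, inv_im, h2, ofReal_im]
  field_simp
  ring

theorem cau_p_pos {γ : ℝ} (hγ : 0 < γ) {g : ℂ} (hg : γ * ‖g‖ ^ 2 < g.im) :
    0 < (cau_p γ g).im := by
  have hg0 := cau_ne_zero hγ hg
  have h1 : 0 < γ * ‖g‖ ^ 2 := mul_pos hγ (pow_pos (norm_pos_iff.2 hg0) 2)
  rw [cau_p_im hγ hg0]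
  have : 1 < g.im / (γ * ‖g‖ ^ 2) := by rwa [one_lt_div h1]
  linarith only [this]

theorem cau_den {γ : ℝ} (hγ : 0 < γ) {g : ℂ} (hg : g ≠ 0) (t : ℝ) :
    1 + γ * ((t : ℂ) + I) * g = γ * g * (t - cau_p γ g) := by
  have h1 : (γ : ℂ) ≠ 0 := Complex.ofReal_ne_zero.2 hγ.ne'
  unfold cau_p
  field_simp
  ring

theorem cau_sub_ne {p : ℂ} (hp : 0 < p.im) (t : ℝ) : (t : ℂ) - p ≠ 0 := by
  intro h
  have := congrArg Complex.im h
  simp at this
  linarith

theorem cau_im_le {p : ℂ} (hp : 0 < p.im) (t : ℝ) : p.im ≤ ‖(t : ℂ) - p‖ := by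
  have h := Complex.abs_im_le_norm ((t : ℂ) - p)
  simp only [Complex.sub_im, Complex.ofReal_im, zero_sub, abs_neg, abs_of_pos hp] at h
  exact h

theorem den_ne_zero {γ : ℝ} (hγ : 0 < γ) {g : ℂ} (hg : γ * ‖g‖ ^ 2 < g.im) (t : ℝ) :
    1 + γ * ((t : ℂ) + I) * g ≠ 0 := by
  have hg0 := cau_ne_zero hγ hg
  rw [cau_den hγ hg0]
  exact mul_ne_zero (mul_ne_zero (Complex.ofReal_ne_zero.2 hγ.ne') hg0)
    (cau_sub_ne (cau_p_pos hγ hg) t)

theorem measurable_tz (γ : ℝ) (g : ℂ) : Measurable (tz γ g) := by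
  unfold tz
  (clear * -; fun_prop)

theorem le_norm_tz {γ : ℝ} (hγ : 0 < γ) {g : ℂ} (hg : γ * ‖g‖ ^ 2 < g.im) (t : ℝ) :
    γ / 2 ≤ ‖tz γ g t‖ := by
  have hg0 := cau_ne_zero hγ hg
  have hgn : 0 < ‖g‖ := norm_pos_iff.2 hg0
  have h1 : γ * ‖g‖ ≤ 1 := by
    have h2 : g.im ≤ ‖g‖ := (le_abs_self _).trans (Complex.abs_im_le_norm g)
    have h3 : γ * ‖g‖ * ‖g‖ ≤ 1 * ‖g‖ := by linarith
    exact le_of_mul_le_mul_right h3 hgn
  have hδ : 1 ≤ ‖(t : ℂ) + I‖ := by
    have h := Complex.abs_im_le_norm ((t : ℂ) + I)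
    simpa only [ge_iff_le, add_im, ofReal_im, I_im, zero_add, abs_one] using h
  have hden : 0 < ‖1 + γ * ((t : ℂ) + I) * g‖ := norm_pos_iff.2 (den_ne_zero hγ hg t)
  unfold tz
  rw [norm_div, le_div_iff₀ hden, norm_mul, Complex.norm_real, Real.norm_of_nonneg hγ.le]
  have h4 : ‖1 + γ * ((t : ℂ) + I) * g‖ ≤ 1 + γ * ‖(t : ℂ) + I‖ * ‖g‖ := by
    refine (norm_add_le _ _).trans ?_
    rw [norm_one, norm_mul, norm_mul, Complex.norm_real, Real.norm_of_nonneg hγ.le]
  have h5 : γ * ‖(t : ℂ) + I‖ * ‖g‖ ≤ ‖(t : ℂ) + I‖ := by nlinarith only [h1, hδ]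
  nlinarith only [hγ, hδ, h4, h5]

theorem bounded_tz {γ : ℝ} (hγ : 0 < γ) {g : ℂ} (hg : γ * ‖g‖ ^ 2 < g.im) :
    ∃ C : ℝ, ∀ t, ‖tz γ g t‖ ≤ C := by
  have hg0 := cau_ne_zero hγ hg
  have hp := cau_p_pos hγ hg
  set p := cau_p γ g with hpdef
  refine ⟨‖g‖⁻¹ * (1 + ‖p + I‖ / p.im), fun t => ?_⟩
  have h1 : tz γ g t = g⁻¹ * (1 + (p + I) / (t - p)) := by
    have h2 : (γ : ℂ) ≠ 0 := Complex.ofReal_ne_zero.2 hγ.ne'
    have h3 := cau_sub_ne hp t
    unfold tz
    rw [cau_den hγ hg0, ← hpdef]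
    field_simp
    ring
  rw [h1, norm_mul, norm_inv]
  refine mul_le_mul_of_nonneg_left ((norm_add_le _ _).trans ?_) (by positivity)
  rw [norm_one, norm_div]
  gcongr
  exact cau_im_le hp t

theorem cau_integral (f : ℝ → ℂ) :
    ∫ t, f t ∂nu = ∫ t, ((π⁻¹ * (t ^ 2 + 1)⁻¹ : ℝ) : ℂ) * f t := by
  have h1 : nu = volume.withDensity (cauchyPDF 0 1) :=
    cauchyMeasure_of_scale_ne_zero 0 one_ne_zero
  rw [h1, integral_withDensity_eq_integral_toReal_smul (measurable_cauchyPDF 0 1)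
    (Filter.Eventually.of_forall fun x => ENNReal.ofReal_lt_top)]
  refine integral_congr_ae (Filter.Eventually.of_forall fun t => ?_)
  simp only [cauchyPDF, ENNReal.toReal_ofReal (cauchyPDF_pos 0 one_ne_zero t).le]
  rw [Complex.real_smul]
  congr 2
  simp only [cauchyPDFReal, NNReal.coe_one, mul_one, sub_zero, one_pow]

theorem cau_sq_norm (p : ℂ) (t : ℝ) : ‖(t : ℂ) - p‖ ^ 2 = (t - p.re) ^ 2 + p.im ^ 2 := by
  rw [Complex.sq_norm, Complex.normSq_apply]
  simp only [sub_re, ofReal_re, sub_im, ofReal_im, zero_sub, mul_neg, neg_mul, neg_neg]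
  ring

theorem cau_pdf {p : ℂ} (hp : 0 < p.im) (t : ℝ) :
    (‖(t : ℂ) - p‖ ^ 2)⁻¹ = (π / p.im) * cauchyPDFReal p.re (Real.toNNReal p.im) t := by
  have h1 : (t - p.re) ^ 2 + p.im ^ 2 ≠ 0 := by positivity
  rw [cau_sq_norm, cauchyPDFReal_def, Real.coe_toNNReal _ hp.le]
  field_simp

theorem cau_integrable_sq {p : ℂ} (hp : 0 < p.im) :
    Integrable fun t : ℝ => (‖(t : ℂ) - p‖ ^ 2)⁻¹ := by
  simp only [cau_pdf hp]
  exact (integrable_cauchyPDFReal p.re).const_mul _

theorem cau_integral_sq {p : ℂ} (hp : 0 < p.im) :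
    ∫ t : ℝ, (‖(t : ℂ) - p‖ ^ 2)⁻¹ = π / p.im := by
  simp only [cau_pdf hp]
  rw [integral_const_mul, integral_cauchyPDFReal_eq_one _ (Real.toNNReal_pos.2 hp).ne', mul_one]

theorem cau_integrable_mul {p q : ℂ} (hp : 0 < p.im) (hq : 0 < q.im) :
    Integrable fun t : ℝ => (((t : ℂ) - q) * ((t : ℂ) - p))⁻¹ := by
  refine Integrable.mono' ((cau_integrable_sq hp).add (cau_integrable_sq hq)) ?_ ?_
  · exact (by fun_prop : Measurable fun t : ℝ => (((t : ℂ) - q) * ((t : ℂ) - p))⁻¹).aestronglyMeasurable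
  · refine Filter.Eventually.of_forall fun t => ?_
    have h1 : 0 < ‖(t : ℂ) - q‖ := norm_pos_iff.2 (cau_sub_ne hq t)
    have h2 : 0 < ‖(t : ℂ) - p‖ := norm_pos_iff.2 (cau_sub_ne hp t)
    rw [norm_inv, norm_mul, Pi.add_apply]
    have h3 : (‖(t : ℂ) - q‖ * ‖(t : ℂ) - p‖)⁻¹ = ‖(t : ℂ) - q‖⁻¹ * ‖(t : ℂ) - p‖⁻¹ := mul_inv _ _
    rw [h3, ← inv_pow, ← inv_pow]
    nlinarith only []

theorem cau_tendsto_inv (p : ℂ) {l : Filter ℝ} (hl : Filter.Tendsto (fun t : ℝ => |t|) l Filter.atTop) :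
    Filter.Tendsto (fun t : ℝ => ((t : ℂ) - p)⁻¹) l (nhds 0) := by
  rw [tendsto_zero_iff_norm_tendsto_zero]
  simp only [norm_inv]
  refine Filter.Tendsto.inv_tendsto_atTop ?_
  refine Filter.tendsto_atTop_mono (f := fun t : ℝ => |t| + -‖p‖) (fun t => ?_)
    (Filter.tendsto_atTop_add_const_right _ _ hl)
  have h1 : |t| = ‖(t : ℂ)‖ := by rw [Complex.norm_real, Real.norm_eq_abs]
  have h2 := norm_sub_norm_le (t : ℂ) p
  rw [h1]
  linarith

theorem cau_slit {p q : ℂ} (hp : 0 < p.im) (hq : 0 < q.im) (t : ℝ) :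
    ((t : ℂ) - q) / ((t : ℂ) - p) ∈ slitPlane := by
  by_contra h
  rw [Complex.mem_slitPlane_iff, not_or, not_lt, not_not] at h
  obtain ⟨h1, h2⟩ := h
  have h3 : ((t : ℂ) - q) = ((((t : ℂ) - q) / ((t : ℂ) - p)).re : ℂ) * ((t : ℂ) - p) := by
    have h4 : ((((t : ℂ) - q) / ((t : ℂ) - p)).re : ℂ) = ((t : ℂ) - q) / ((t : ℂ) - p) :=
      Complex.ext (by simp) (by simp [h2])
    rw [h4, div_mul_cancel₀ _ (cau_sub_ne hp t)]
  have h5 := congrArg Complex.im h3
  rw [Complex.im_ofReal_mul] at h5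
  simp only [Complex.sub_im, Complex.ofReal_im, zero_sub] at h5
  nlinarith only [hq, h5, hp, h1]

theorem cau_integral_mul {p q : ℂ} (hp : 0 < p.im) (hq : 0 < q.im) :
    ∫ t : ℝ, (((t : ℂ) - q) * ((t : ℂ) - p))⁻¹ = 0 := by
  have hid : ∀ t : ℝ, HasDerivAt (fun t : ℝ => (t : ℂ)) 1 t := fun t => Complex.ofRealCLM.hasDerivAt
  by_cases hpq : p = q
  · subst hpq
    have hder : ∀ t : ℝ, HasDerivAt (fun t : ℝ => -((t : ℂ) - p)⁻¹)
        ((((t : ℂ) - p) * ((t : ℂ) - p))⁻¹) t := by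
      intro t
      refine (((hid t).sub_const p).inv (cau_sub_ne hp t)).neg.congr_deriv ?_
      rw [← sq, neg_div, neg_neg, one_div]
    have := integral_of_hasDerivAt_of_tendsto hder (cau_integrable_mul hp hp)
      (cau_tendsto_inv p Filter.tendsto_abs_atBot_atTop).neg
      (cau_tendsto_inv p Filter.tendsto_abs_atTop_atTop).neg
    simpa only [mul_inv_rev, neg_zero, sub_self] using this
  · have hne : q - p ≠ 0 := sub_ne_zero.2 (Ne.symm hpq)
    have hder : ∀ t : ℝ, HasDerivAt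
        (fun t : ℝ => (q - p)⁻¹ * Complex.log (((t : ℂ) - q) / ((t : ℂ) - p)))
        ((((t : ℂ) - q) * ((t : ℂ) - p))⁻¹) t := by
      intro t
      refine (((((hid t).sub_const q).div ((hid t).sub_const p)
        (cau_sub_ne hp t)).clog_real (cau_slit hp hq t)).const_mul (q - p)⁻¹).congr_deriv ?_
      have h1 := cau_sub_ne hp t
      have h2 := cau_sub_ne hq t
      simp only [Pi.div_apply]
      field_simp
      ring
    have hlim : ∀ l : Filter ℝ, Filter.Tendsto (fun t : ℝ => |t|) l Filter.atTop →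
        Filter.Tendsto (fun t : ℝ => (q - p)⁻¹ * Complex.log (((t : ℂ) - q) / ((t : ℂ) - p))) l
          (nhds 0) := by
      intro l hl
      have h1 : Filter.Tendsto (fun t : ℝ => ((t : ℂ) - q) / ((t : ℂ) - p)) l (nhds 1) := by
        have h2 : (fun t : ℝ => ((t : ℂ) - q) / ((t : ℂ) - p)) =
            fun t : ℝ => 1 + (p - q) * ((t : ℂ) - p)⁻¹ := by
          funext t
          have h3 := cau_sub_ne hp t
          field_simp
          ring
        rw [h2]
        have h4 := ((cau_tendsto_inv p hl).const_mul (p - q)).const_add 1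
        simpa only [mul_zero, add_zero] using h4
      have h5 := ((continuousAt_clog one_mem_slitPlane).tendsto.comp h1).const_mul (q - p)⁻¹
      simpa only [Function.comp_apply, log_one, mul_zero] using h5
    have := integral_of_hasDerivAt_of_tendsto hder (cau_integrable_mul hp hq)
      (hlim _ Filter.tendsto_abs_atBot_atTop) (hlim _ Filter.tendsto_abs_atTop_atTop)
    simpa only [mul_inv_rev, sub_self] using this

theorem integral_tz {γ : ℝ} (hγ : 0 < γ) {g : ℂ} (hg : γ * ‖g‖ ^ 2 < g.im) :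
    ∫ t, tz γ g t ∂nu = 0 := by
  have hg0 := cau_ne_zero hγ hg
  have hp := cau_p_pos hγ hg
  have h2 : (γ : ℂ) ≠ 0 := Complex.ofReal_ne_zero.2 hγ.ne'
  have hI : 0 < I.im := by simp
  rw [cau_integral]
  have h1 : ∀ t : ℝ, ((π⁻¹ * (t ^ 2 + 1)⁻¹ : ℝ) : ℂ) * tz γ g t =
      (π * g)⁻¹ * (((t : ℂ) - I) * ((t : ℂ) - cau_p γ g))⁻¹ := by
    intro t
    have h3 := cau_sub_ne hp t
    have h4 := cau_sub_ne hI t
    have h5 : (t : ℂ) + I ≠ 0 := by
      intro h
      have := congrArg Complex.im h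
      simp at this
    have h6 : ((t : ℂ) ^ 2 + 1) = ((t : ℂ) - I) * ((t : ℂ) + I) := by
      have := Complex.I_sq
      linear_combination this
    have h7 : (π : ℂ) ≠ 0 := Complex.ofReal_ne_zero.2 Real.pi_ne_zero
    unfold tz
    rw [cau_den hγ hg0]
    push_cast
    rw [h6]
    field_simp
  simp only [h1]
  rw [integral_const_mul, cau_integral_mul hp hI, mul_zero]

theorem integral_den_inv_sq {γ : ℝ} (hγ : 0 < γ) {g h : ℂ}
    (hg : γ * ‖g‖ ^ 2 < g.im) (hgh : γ * ‖g‖ ^ 2 + γ * ‖h‖ ^ 2 ≤ g.im) :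
    ‖h‖ ^ 2 * ∫ t, ‖(1 + γ * ((t : ℂ) + I) * g)⁻¹‖ ^ 2 ∂nu ≤ 1 / γ ^ 2 := by
  have hg0 := cau_ne_zero hγ hg
  have hp := cau_p_pos hγ hg
  have hgn : 0 < ‖g‖ := norm_pos_iff.2 hg0
  have e1 : ∀ t : ℝ, ‖(1 + γ * ((t : ℂ) + I) * g)⁻¹‖ ^ 2 =
      (γ ^ 2 * ‖g‖ ^ 2)⁻¹ * (‖(t : ℂ) - cau_p γ g‖ ^ 2)⁻¹ := by
    intro t
    rw [cau_den hγ hg0, norm_inv, norm_mul, norm_mul, Complex.norm_real,
      Real.norm_of_nonneg hγ.le, inv_pow, mul_pow, mul_pow, mul_inv]
  simp only [e1]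
  have h1 : nu = volume.withDensity (cauchyPDF 0 1) :=
    cauchyMeasure_of_scale_ne_zero 0 one_ne_zero
  have e2 : ∫ t, (γ ^ 2 * ‖g‖ ^ 2)⁻¹ * (‖(t : ℂ) - cau_p γ g‖ ^ 2)⁻¹ ∂nu ≤
      (γ ^ 2 * ‖g‖ ^ 2)⁻¹ * ((cau_p γ g).im)⁻¹ := by
    rw [integral_const_mul]
    refine mul_le_mul_of_nonneg_left ?_ (by positivity)
    rw [h1, integral_withDensity_eq_integral_toReal_smul (measurable_cauchyPDF 0 1)
      (Filter.Eventually.of_forall fun x => ENNReal.ofReal_lt_top)]
    have h2 : ∫ t : ℝ, π⁻¹ * (‖(t : ℂ) - cau_p γ g‖ ^ 2)⁻¹ = ((cau_p γ g).im)⁻¹ := by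
      rw [integral_const_mul, cau_integral_sq hp]
      field_simp
    rw [← h2]
    have hle : ∀ t : ℝ, (cauchyPDF 0 1 t).toReal • (‖(t : ℂ) - cau_p γ g‖ ^ 2)⁻¹ ≤
        π⁻¹ * (‖(t : ℂ) - cau_p γ g‖ ^ 2)⁻¹ := by
      intro t
      rw [cauchyPDF, ENNReal.toReal_ofReal (cauchyPDF_pos 0 one_ne_zero t).le, smul_eq_mul]
      refine mul_le_mul_of_nonneg_right ?_ (by (clear * -; positivity))
      rw [cauchyPDFReal_def]
      simp only [NNReal.coe_one, mul_one, sub_zero, one_pow]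
      exact mul_le_of_le_one_right (by positivity) (inv_le_one_of_one_le₀ (by nlinarith only []))
    refine integral_mono_of_nonneg (Filter.Eventually.of_forall fun t => ?_)
      ((cau_integrable_sq hp).const_mul _) (Filter.Eventually.of_forall hle)
    exact smul_nonneg ENNReal.toReal_nonneg (by (clear * -; positivity))
  refine (mul_le_mul_of_nonneg_left e2 (by (clear * -; positivity))).trans ?_
  rw [cau_p_im hγ hg0] at hp ⊢
  have h3 : 0 < γ * ‖g‖ ^ 2 := by positivity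
  have h4 : -1 + g.im / (γ * ‖g‖ ^ 2) = (g.im - γ * ‖g‖ ^ 2) / (γ * ‖g‖ ^ 2) := by
    field_simp
    ring
  have h5 : 0 < g.im - γ * ‖g‖ ^ 2 := by linarith only [hg]
  rw [h4]
  have h6 : ‖h‖ ^ 2 * ((γ ^ 2 * ‖g‖ ^ 2)⁻¹ * ((g.im - γ * ‖g‖ ^ 2) / (γ * ‖g‖ ^ 2))⁻¹) =
      (‖h‖ ^ 2 / γ) / (g.im - γ * ‖g‖ ^ 2) := by
    field_simp
  rw [h6, div_le_div_iff₀ h5 (by positivity)]
  have h7 : ‖h‖ ^ 2 / γ * γ ^ 2 = γ * ‖h‖ ^ 2 := by (clear * - hγ; field_simp)
  rw [h7]
  linarith only [hgh]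

/-- the Cauchy density is at most `1/π ≤ 1/2` -/
theorem nu_Icc_le (a b : ℝ) (hab : a ≤ b) : nu (Set.Icc a b) ≤ ENNReal.ofReal (b - a) := by
  have h1 : nu = volume.withDensity (cauchyPDF 0 1) :=
    cauchyMeasure_of_scale_ne_zero 0 one_ne_zero
  rw [h1, withDensity_apply _ measurableSet_Icc, ← Real.volume_Icc]
  calc ∫⁻ x in Set.Icc a b, cauchyPDF 0 1 x ≤ ∫⁻ _x in Set.Icc a b, 1 := by
        refine lintegral_mono fun t => ?_
        rw [cauchyPDF, ENNReal.ofReal_le_one, cauchyPDFReal_def]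
        simp only [NNReal.coe_one, mul_one, sub_zero, one_pow]
        have h2 : π⁻¹ ≤ 1 := inv_le_one_of_one_le₀ (by linarith only [Real.pi_gt_three])
        have h3 : (t ^ 2 + 1)⁻¹ ≤ 1 := inv_le_one_of_one_le₀ (by nlinarith only [])
        exact mul_le_one₀ h2 (by positivity) h3
    _ = volume (Set.Icc a b) := by simp only [lintegral_const, MeasurableSet.univ, Measure.restrict_apply, Set.univ_inter, Real.volume_Icc, one_mul]

theorem nu_tail (ε : ℝ) (hε : 0 < ε) : ∃ T : ℝ, 0 < T ∧ nu {t | T < |t|} ≤ ENNReal.ofReal ε := by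
  have h1 : Filter.Tendsto (fun n : ℕ => nu {t | (n : ℝ) < |t|}) Filter.atTop
      (nhds (nu (⋂ n : ℕ, {t : ℝ | (n : ℝ) < |t|}))) := by
    refine tendsto_measure_iInter_atTop (fun n => ?_) ?_ ⟨0, measure_ne_top _ _⟩
    · exact (measurableSet_lt measurable_const (by fun_prop)).nullMeasurableSet
    · intro m n hmn t ht
      have h3 : (n : ℝ) < |t| := ht
      exact lt_of_le_of_lt (Nat.cast_le.2 hmn) h3
  have h2 : (⋂ n : ℕ, {t : ℝ | (n : ℝ) < |t|}) = ∅ := by
    rw [Set.eq_empty_iff_forall_notMem]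
    intro t ht
    obtain ⟨n, hn⟩ := exists_nat_gt |t|
    have := Set.mem_iInter.1 ht n
    exact absurd hn (not_lt.2 (le_of_lt this))
  rw [h2, measure_empty] at h1
  have h3 := (h1.eventually_le_const (ENNReal.ofReal_pos.2 hε)).and (Filter.eventually_gt_atTop 0)
  obtain ⟨n, hn, hn0⟩ := h3.exists
  exact ⟨n, by exact_mod_cast hn0, hn⟩

/-- Lebesgue measure and the Cauchy law have the same null sets -/
theorem volume_ac_nu : (volume : Measure ℝ) ≪ nu := by
  have h1 : nu = volume.withDensity (cauchyPDF 0 1) :=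
    cauchyMeasure_of_scale_ne_zero 0 one_ne_zero
  rw [h1]
  refine withDensity_absolutelyContinuous' (by (clear * -; fun_prop)) (Filter.Eventually.of_forall fun t => ?_)
  exact (ENNReal.ofReal_pos.2 (cauchyPDF_pos 0 one_ne_zero t)).ne'

end P365L
end

section

/-!
# P365L: Green's matrices of finite dissipative symmetric operators.
-/

namespace P365L

open Matrix Complex

variable {ι : Type*} [Fintype ι] [DecidableEq ι]

/-- the matrix `A + diag W` -/
noncomputable def Kmat (A : Matrix ι ι ℝ) (W : ι → ℂ) : Matrix ι ι ℂ :=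
  A.map (fun r => (r : ℂ)) + Matrix.diagonal W

/-- the Green matrix `(A + diag W)⁻¹` -/
noncomputable def Gr (A : Matrix ι ι ℝ) (W : ι → ℂ) : Matrix ι ι ℂ := (Kmat A W)⁻¹

variable {A : Matrix ι ι ℝ} {W : ι → ℂ}

theorem Kmat_mulVec (u : ι → ℂ) (x : ι) :
    (Kmat A W).mulVec u x = ∑ y, (A x y : ℂ) * u y + W x * u x := by
  rw [Kmat, Matrix.add_mulVec, Pi.add_apply, Matrix.mulVec_diagonal]
  rfl

omit [Fintype ι] [DecidableEq ι] in
/-- the quadratic form of a real symmetric matrix is real, on every finite set -/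
theorem im_symm_sum (hA : A.IsSymm) (S : Finset ι) (u : ι → ℂ) :
    (∑ x ∈ S, ∑ y ∈ S, (starRingEnd ℂ) (u x) * ((A x y : ℂ) * u y)).im = 0 := by
  rw [← Complex.conj_eq_iff_im, map_sum]
  simp only [map_sum, map_mul, Complex.conj_conj, Complex.conj_ofReal]
  rw [Finset.sum_comm]
  refine Finset.sum_congr rfl fun x _ => Finset.sum_congr rfl fun y _ => ?_
  rw [hA.apply]
  ring

theorem conj_mul_W (w a : ℂ) : ((starRingEnd ℂ) a * (w * a)).im = w.im * ‖a‖ ^ 2 := by
  have h : (starRingEnd ℂ) a * (w * a) = w * ((‖a‖ ^ 2 : ℝ) : ℂ) := by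
    rw [← Complex.normSq_eq_norm_sq, Complex.normSq_eq_conj_mul_self]
    ring
  rw [h, Complex.im_mul_ofReal]

theorem im_quadratic (hA : A.IsSymm) (u : ι → ℂ) :
    (∑ x, (starRingEnd ℂ) (u x) * (Kmat A W).mulVec u x).im = ∑ x, (W x).im * ‖u x‖ ^ 2 := by
  have h : ∑ x, (starRingEnd ℂ) (u x) * (Kmat A W).mulVec u x =
      ∑ x, ∑ y, (starRingEnd ℂ) (u x) * ((A x y : ℂ) * u y) +
        ∑ x, (starRingEnd ℂ) (u x) * (W x * u x) := by
    rw [← Finset.sum_add_distrib]
    refine Finset.sum_congr rfl fun x _ => ?_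
    rw [Kmat_mulVec, mul_add, Finset.mul_sum]
  rw [h, Complex.add_im, im_symm_sum hA Finset.univ u, zero_add, Complex.im_sum]
  exact Finset.sum_congr rfl fun x _ => conj_mul_W _ _

theorem det_ne_zero (hA : A.IsSymm) (hW : ∀ x, (W x).im < 0) : (Kmat A W).det ≠ 0 := by
  intro h0
  obtain ⟨u, hu, hKu⟩ := Matrix.exists_mulVec_eq_zero_iff.2 h0
  apply hu
  have h1 := im_quadratic (W := W) hA u
  rw [hKu] at h1
  have h2 : ∑ x, (W x).im * ‖u x‖ ^ 2 = 0 := by
    rw [← h1]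
    simp only [Pi.zero_apply, mul_zero, Finset.sum_const_zero, zero_im]
  have h3 : ∀ x ∈ (Finset.univ : Finset ι), (W x).im * ‖u x‖ ^ 2 ≤ 0 := fun x _ =>
    mul_nonpos_of_nonpos_of_nonneg (hW x).le (sq_nonneg _)
  have h4 := (Finset.sum_eq_zero_iff_of_nonpos h3).1 h2
  funext x
  have h5 := h4 x (Finset.mem_univ x)
  have h6 : ‖u x‖ ^ 2 = 0 := (mul_eq_zero.1 h5).resolve_left (hW x).ne
  simpa using h6

omit [Fintype ι] in
theorem Kmat_symm (hA : A.IsSymm) : (Kmat A W)ᵀ = Kmat A W := by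
  ext x y
  rw [Matrix.transpose_apply, Kmat, Matrix.add_apply, Matrix.add_apply, Matrix.map_apply,
    Matrix.map_apply, hA.apply]
  by_cases h : x = y
  · subst h
    rfl
  · rw [Matrix.diagonal_apply_ne _ h, Matrix.diagonal_apply_ne _ (Ne.symm h)]

theorem Gr_symm (hA : A.IsSymm) (x y : ι) : Gr A W x y = Gr A W y x := by
  have h := Matrix.transpose_nonsing_inv (Kmat A W)
  rw [Kmat_symm hA] at h
  calc Gr A W x y = (Gr A W)ᵀ y x := rfl
    _ = Gr A W y x := by rw [Gr, h]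

/-- the columns of the Green matrix -/
theorem Kmat_mulVec_Gr (hA : A.IsSymm) (hW : ∀ x, (W x).im < 0) (x y : ι) :
    (Kmat A W).mulVec (fun z => Gr A W z x) y = if y = x then 1 else 0 := by
  have h : Kmat A W * Gr A W = 1 :=
    Matrix.mul_nonsing_inv _ (isUnit_iff_ne_zero.2 (det_ne_zero hA hW))
  have h1 := congrFun (congrFun h y) x
  rw [Matrix.one_apply] at h1
  exact h1

/-- flux identity -/
theorem Gr_flux (hA : A.IsSymm) (hW : ∀ x, (W x).im < 0) (x : ι) :
    (Gr A W x x).im = ∑ y, (-(W y).im) * ‖Gr A W y x‖ ^ 2 := by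
  have h : (∑ y, (starRingEnd ℂ) (Gr A W y x) *
      (Kmat A W).mulVec (fun z => Gr A W z x) y).im = ∑ y, (W y).im * ‖Gr A W y x‖ ^ 2 :=
    im_quadratic (W := W) hA (fun z => Gr A W z x)
  have h1 : ∑ y, (starRingEnd ℂ) (Gr A W y x) * (Kmat A W).mulVec (fun z => Gr A W z x) y =
      (starRingEnd ℂ) (Gr A W x x) := by
    rw [Finset.sum_eq_single x]
    · rw [Kmat_mulVec_Gr hA hW, if_pos rfl, mul_one]
    · intro y _ hy
      rw [Kmat_mulVec_Gr hA hW, if_neg hy, mul_zero]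
    · intro hx
      exact absurd (Finset.mem_univ x) hx
  rw [h1, Complex.conj_im] at h
  rw [← neg_eq_iff_eq_neg.2 h.symm, ← Finset.sum_neg_distrib]
  refine Finset.sum_congr rfl fun y _ => ?_
  ring

/-- column norm bound -/
theorem Gr_column_le (hA : A.IsSymm) {η : ℝ} (hη : 0 < η) (hW : ∀ x, (W x).im ≤ -η) (x : ι) :
    ∑ y, ‖Gr A W y x‖ ^ 2 ≤ 1 / η ^ 2 := by
  have hW' : ∀ x, (W x).im < 0 := fun x => (hW x).trans_lt (neg_lt_zero.2 hη)
  have h1 := Gr_flux hA hW' x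
  have h2 : η * ∑ y, ‖Gr A W y x‖ ^ 2 ≤ (Gr A W x x).im := by
    rw [h1, Finset.mul_sum]
    refine Finset.sum_le_sum fun y _ => ?_
    exact mul_le_mul_of_nonneg_right (by linarith [hW y]) (sq_nonneg _)
  have h3 : (Gr A W x x).im ≤ ‖Gr A W x x‖ := (le_abs_self _).trans (Complex.abs_im_le_norm _)
  have h4 : ‖Gr A W x x‖ ^ 2 ≤ ∑ y, ‖Gr A W y x‖ ^ 2 :=
    Finset.single_le_sum (f := fun y => ‖Gr A W y x‖ ^ 2) (fun y _ => sq_nonneg _)
      (Finset.mem_univ x)
  have hs0 : 0 ≤ ∑ y, ‖Gr A W y x‖ ^ 2 := Finset.sum_nonneg fun y _ => sq_nonneg _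
  generalize ∑ y, ‖Gr A W y x‖ ^ 2 = s at h2 h4 hs0 ⊢
  rw [le_div_iff₀ (by positivity)]
  have h5 : η * s ≤ ‖Gr A W x x‖ := h2.trans h3
  have h6 : (η * s) ^ 2 ≤ s := (pow_le_pow_left₀ (by positivity) h5 2).trans h4
  rcases hs0.eq_or_lt with h7 | h7
  · rw [← h7]
    norm_num
  · have h8 : (s * η ^ 2) * s ≤ 1 * s := by linarith
    exact le_of_mul_le_mul_right h8 h7

theorem norm_Gr_le (hA : A.IsSymm) {η : ℝ} (hη : 0 < η) (hW : ∀ x, (W x).im ≤ -η) (x y : ι) :
    ‖Gr A W x y‖ ≤ 1 / η := by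
  have h1 := Gr_column_le hA hη hW y
  have h2 : ‖Gr A W x y‖ ^ 2 ≤ ∑ z, ‖Gr A W z y‖ ^ 2 :=
    Finset.single_le_sum (f := fun z => ‖Gr A W z y‖ ^ 2) (fun z _ => sq_nonneg _)
      (Finset.mem_univ x)
  have h3 : ‖Gr A W x y‖ ^ 2 ≤ (1 / η) ^ 2 := by
    rw [one_div, inv_pow, ← one_div]
    exact h2.trans h1
  exact le_of_sq_le_sq h3 (by positivity)

omit [Fintype ι] in
theorem Kmat_update (z : ι) (δ : ℂ) : Kmat A (Function.update W z (W z + δ)) =
    Kmat A W + Matrix.single z z δ := by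
  ext x y
  rw [Kmat, Kmat, Matrix.add_apply, Matrix.add_apply, Matrix.add_apply]
  by_cases h : x = y
  · subst h
    rw [Matrix.diagonal_apply_eq, Matrix.diagonal_apply_eq]
    by_cases hz : x = z
    · subst hz
      rw [Function.update_self, Matrix.single_apply_same]
      ring
    · rw [Function.update_of_ne hz, Matrix.single_apply_of_ne _ _ _ _ _ (by tauto), add_zero]
  · rw [Matrix.diagonal_apply_ne _ h, Matrix.diagonal_apply_ne _ h,
      Matrix.single_apply_of_ne _ _ _ _ _ (by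
        rintro ⟨h1, h2⟩
        exact h (h1.symm.trans h2))]
    ring

/-- rank one update -/
theorem Gr_update (hA : A.IsSymm) (hW : ∀ x, (W x).im < 0) (z : ι) (δ : ℂ)
    (hδ : (W z + δ).im < 0) :
    1 + δ * Gr A W z z ≠ 0 ∧ ∀ x y, Gr A (Function.update W z (W z + δ)) x y =
      Gr A W x y - Gr A W x z * Gr A W z y * (δ / (1 + δ * Gr A W z z)) := by
  have hW' : ∀ x, (Function.update W z (W z + δ) x).im < 0 := by
    intro x
    by_cases hx : x = z
    · subst hx
      rwa [Function.update_self]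
    · rw [Function.update_of_ne hx]
      exact hW x
  have hdet := det_ne_zero hA hW
  have hdet' := det_ne_zero hA hW'
  have hKG : Kmat A W * Gr A W = 1 := Matrix.mul_nonsing_inv _ (isUnit_iff_ne_zero.2 hdet)
  have hne : 1 + δ * Gr A W z z ≠ 0 := by
    intro h0
    apply hdet'
    rw [← Matrix.exists_mulVec_eq_zero_iff]
    refine ⟨fun x => Gr A W x z, ?_, ?_⟩
    · intro h1
      have h2 := Kmat_mulVec_Gr hA hW z z
      rw [h1, Matrix.mulVec_zero, if_pos rfl] at h2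
      exact zero_ne_one h2
    · funext x
      rw [Kmat_update, Matrix.add_mulVec, Pi.add_apply, Kmat_mulVec_Gr hA hW, Matrix.single_mulVec,
        Pi.zero_apply]
      by_cases hx : x = z
      · subst hx
        rw [if_pos rfl, Function.update_self]
        exact h0
      · rw [if_neg hx, Function.update_of_ne hx, Pi.zero_apply, add_zero]
  refine ⟨hne, ?_⟩
  set c := δ / (1 + δ * Gr A W z z) with hc
  have hcc : δ - c - δ * Gr A W z z * c = 0 := by
    rw [hc]
    field_simp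
    ring
  have hinv : Kmat A (Function.update W z (W z + δ)) *
      (Gr A W - Matrix.of fun x y => Gr A W x z * Gr A W z y * c) = 1 := by
    have e1 : Kmat A W * (Matrix.of fun x y => Gr A W x z * Gr A W z y * c) =
        Matrix.of fun x y => (if x = z then (1 : ℂ) else 0) * Gr A W z y * c := by
      ext x y
      rw [Matrix.of_apply, ← Kmat_mulVec_Gr hA hW z x, Matrix.mul_apply, Matrix.mulVec,
        dotProduct, Finset.sum_mul, Finset.sum_mul]
      refine Finset.sum_congr rfl fun w _ => ?_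
      rw [Matrix.of_apply]
      ring
    rw [Kmat_update, Matrix.add_mul, Matrix.mul_sub, Matrix.mul_sub, hKG, e1]
    ext x y
    rw [Matrix.add_apply, Matrix.sub_apply, Matrix.sub_apply, Matrix.of_apply]
    by_cases hx : x = z
    · subst hx
      rw [Matrix.single_mul_apply_same, Matrix.single_mul_apply_same, Matrix.of_apply, if_pos rfl]
      linear_combination (Gr A W x y) * hcc
    · rw [Matrix.single_mul_apply_of_ne (h := hx), Matrix.single_mul_apply_of_ne (h := hx),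
        if_neg hx]
      ring
  intro x y
  rw [Gr, Matrix.inv_eq_right_inv hinv, Matrix.sub_apply, Matrix.of_apply]

/-- energy estimate in a strongly dissipative region `S` -/
theorem Gr_exterior (hA : A.IsSymm) (hW : ∀ x, (W x).im < 0) {γ : ℝ} (hγ : 0 < γ) (o : ι)
    (S : Finset ι) (ho : o ∉ S) (hS : ∀ x ∈ S, (W x).im ≤ -γ) :
    ∑ w ∈ S, ‖Gr A W w o‖ ^ 2 ≤
      (1 / γ ^ 2) * ∑ w ∈ S, ‖∑ y ∈ Sᶜ, (A w y : ℂ) * Gr A W y o‖ ^ 2 := by
  obtain ⟨u, hu⟩ : ∃ u : ι → ℂ, u = fun w => Gr A W w o := ⟨_, rfl⟩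
  obtain ⟨f, hf⟩ : ∃ f : ι → ℂ, f = fun w => ∑ y ∈ Sᶜ, (A w y : ℂ) * u y := ⟨_, rfl⟩
  have e0 : ∀ w ∈ S, ∑ y ∈ S, (A w y : ℂ) * u y + f w + W w * u w = 0 := by
    intro w hw
    have h1 := Kmat_mulVec_Gr hA hW o w
    rw [← hu, Kmat_mulVec, if_neg (by rintro rfl; exact ho hw)] at h1
    rw [hf]
    simp only []
    rw [Finset.sum_add_sum_compl]
    exact h1
  have e1 : (∑ w ∈ S, (starRingEnd ℂ) (u w) * f w).im = ∑ w ∈ S, (-(W w).im) * ‖u w‖ ^ 2 := by
    have h2 : ∑ w ∈ S, ∑ y ∈ S, (starRingEnd ℂ) (u w) * ((A w y : ℂ) * u y) +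
        ∑ w ∈ S, (starRingEnd ℂ) (u w) * f w + ∑ w ∈ S, (starRingEnd ℂ) (u w) * (W w * u w) =
        0 := by
      rw [← Finset.sum_add_distrib, ← Finset.sum_add_distrib]
      refine Finset.sum_eq_zero fun w hw => ?_
      rw [← Finset.mul_sum, ← mul_add, ← mul_add, e0 w hw, mul_zero]
    have h3 := congrArg Complex.im h2
    rw [Complex.add_im, Complex.add_im, im_symm_sum hA S u, zero_add, Complex.zero_im,
      Complex.im_sum S (fun w => (starRingEnd ℂ) (u w) * (W w * u w)),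
      Finset.sum_congr rfl fun w _ => conj_mul_W (W w) (u w)] at h3
    rw [Finset.sum_congr rfl fun w _ => (neg_mul (W w).im (‖u w‖ ^ 2)), Finset.sum_neg_distrib]
    linarith only [h3]
  set a := ∑ w ∈ S, ‖u w‖ ^ 2 with ha
  set b := ∑ w ∈ S, ‖f w‖ ^ 2 with hb
  have ha0 : 0 ≤ a := Finset.sum_nonneg fun y _ => sq_nonneg _
  have hb0 : 0 ≤ b := Finset.sum_nonneg fun y _ => sq_nonneg _
  have e2 : γ * a ≤ (∑ w ∈ S, (starRingEnd ℂ) (u w) * f w).im := by
    rw [e1, ha, Finset.mul_sum]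
    exact Finset.sum_le_sum fun w hw =>
      mul_le_mul_of_nonneg_right (by linarith [hS w hw]) (sq_nonneg _)
  have e3 : (∑ w ∈ S, (starRingEnd ℂ) (u w) * f w).im ≤ ∑ w ∈ S, ‖u w‖ * ‖f w‖ := by
    refine ((le_abs_self _).trans (Complex.abs_im_le_norm _)).trans ((norm_sum_le _ _).trans ?_)
    exact (Finset.sum_congr rfl fun w _ => by rw [norm_mul, RCLike.norm_conj]).le
  have e4 : (∑ w ∈ S, ‖u w‖ * ‖f w‖) ^ 2 ≤ a * b :=
    Finset.sum_mul_sq_le_sq_mul_sq S _ _
  have e5 : (γ * a) ^ 2 ≤ a * b :=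
    (pow_le_pow_left₀ (by (clear * - hγ; positivity)) (e2.trans e3) 2).trans e4
  have hgoal : a ≤ 1 / γ ^ 2 * b := by
    rw [one_div, inv_mul_eq_div, le_div_iff₀ (by positivity)]
    rcases ha0.eq_or_lt with h7 | h7
    · rw [← h7, zero_mul]
      exact hb0
    · have h8 : (a * γ ^ 2) * a ≤ b * a := by linarith
      exact le_of_mul_le_mul_right h8 h7
  rw [ha, hb, hu, hf, hu] at hgoal
  exact hgoal

theorem measurable_det {Ω : Type*} [MeasurableSpace Ω] (M : Ω → Matrix ι ι ℂ)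
    (hM : ∀ x y, Measurable fun ω => M ω x y) : Measurable fun ω => (M ω).det := by
  simp only [Matrix.det_apply]
  refine Finset.measurable_sum _ fun σ _ => Measurable.const_smul ?_ _
  exact Finset.measurable_prod _ fun i _ => hM _ _

/-- the Green matrix depends measurably on its potential -/
theorem measurable_Gr {Ω : Type*} [MeasurableSpace Ω] (V : Ω → ι → ℂ)
    (hV : ∀ x, Measurable fun ω => V ω x) (x y : ι) : Measurable fun ω => Gr A (V ω) x y := by
  have hK : ∀ x y, Measurable fun ω => Kmat A (V ω) x y := by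
    intro x y
    unfold Kmat
    simp only [Matrix.add_apply]
    refine Measurable.add measurable_const ?_
    by_cases h : x = y
    · subst h
      simp only [Matrix.diagonal_apply_eq]
      exact hV x
    · simp only [Matrix.diagonal_apply_ne _ h]
      exact measurable_const
  unfold Gr
  simp only [Matrix.inv_def, Matrix.smul_apply, Ring.inverse_eq_inv', smul_eq_mul,
    Matrix.adjugate_apply]
  refine (measurable_det _ hK).inv.mul (measurable_det _ fun i j => ?_)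
  by_cases h : i = y
  · subst h
    simp only [Matrix.updateRow_self]
    exact measurable_const
  · simp only [Matrix.updateRow_ne h]
    exact hK i j

end P365L
end

section

/-!
# P365L: averaging over independent Cauchy potentials in finite volume.
-/

namespace P365L

open MeasureTheory ProbabilityTheory Complex
open scoped ENNReal NNReal Real

variable {ι : Type*} [Fintype ι] [DecidableEq ι]

/-- product of standard Cauchy laws -/
noncomputable abbrev mu (ι : Type*) [Fintype ι] : Measure (ι → ℝ) := Measure.pi fun _ : ι => nu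

/-- the potential (minus `ζ`): real Cauchy potential on `T`, absorber `-iγ` off `T` -/
noncomputable def Wt (γ : ℝ) (U : ι → ℝ) (ζ : ℂ) (T : Finset ι) (c : ι → ℝ) (x : ι) : ℂ :=
  (U x : ℂ) + γ * (if x ∈ T then (c x : ℂ) else -I) - ζ

/-- Green matrix with the potentials on `T` revealed -/
noncomputable def GT (A : Matrix ι ι ℝ) (γ : ℝ) (U : ι → ℝ) (ζ : ℂ) (T : Finset ι) (c : ι → ℝ) :
    Matrix ι ι ℂ := Gr A (Wt γ U ζ T c)

variable {A : Matrix ι ι ℝ} {γ : ℝ} {U : ι → ℝ} {ζ : ℂ}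

omit [Fintype ι] in
theorem Wt_im (T : Finset ι) (c : ι → ℝ) (x : ι) :
    (Wt γ U ζ T c x).im = (if x ∈ T then 0 else -γ) - ζ.im := by
  unfold Wt
  split_ifs <;> simp

omit [Fintype ι] in
theorem Wt_im_neg (hγ : 0 < γ) (hζ : 0 < ζ.im) (T : Finset ι) (c : ι → ℝ) (x : ι) :
    (Wt γ U ζ T c x).im < 0 := by
  rw [Wt_im]
  split_ifs <;> linarith

omit [Fintype ι] in
theorem Wt_im_le (hγ : 0 < γ) (T : Finset ι) (c : ι → ℝ) (x : ι) :
    (Wt γ U ζ T c x).im ≤ -ζ.im := by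
  rw [Wt_im]
  split_ifs <;> linarith

omit [Fintype ι] in
theorem Wt_im_abs (T : Finset ι) (c : ι → ℝ) {x : ι} (hx : x ∉ T) :
    (Wt γ U ζ T c x).im = -(γ + ζ.im) := by
  rw [Wt_im, if_neg hx]
  ring

omit [Fintype ι] in
theorem Wt_im_mem (T : Finset ι) (c : ι → ℝ) {x : ι} (hx : x ∈ T) :
    (Wt γ U ζ T c x).im = -ζ.im := by
  rw [Wt_im, if_pos hx]
  ring

theorem norm_GT_le (hA : A.IsSymm) (hγ : 0 < γ) (hζ : 0 < ζ.im) (T : Finset ι) (c : ι → ℝ)
    (x y : ι) : ‖GT A γ U ζ T c x y‖ ≤ 1 / ζ.im :=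
  norm_Gr_le hA hζ (fun x => Wt_im_le hγ T c x) x y

theorem measurable_GT (T : Finset ι) (x y : ι) : Measurable fun c => GT A γ U ζ T c x y := by
  refine measurable_Gr (fun c => Wt γ U ζ T c) (fun z => ?_) x y
  unfold Wt
  by_cases hz : z ∈ T
  · simp only [if_pos hz]
    exact ((Complex.measurable_ofReal.comp (measurable_pi_apply z)).const_mul _).const_add _
      |>.sub_const _
  · simp only [if_neg hz]
    exact measurable_const

/-- diagonal entries at absorbers satisfy the hypothesis of the Cauchy lemmas -/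
theorem GT_diag (hA : A.IsSymm) (hγ : 0 < γ) (hζ : 0 < ζ.im) (T : Finset ι) (c : ι → ℝ) {x : ι}
    (hx : x ∉ T) : γ * ‖GT A γ U ζ T c x x‖ ^ 2 < (GT A γ U ζ T c x x).im := by
  have hW := fun y => Wt_im_neg (U := U) hγ hζ T c y
  have h1 := Gr_flux hA hW x
  have h2 : ∀ y, ζ.im * ‖GT A γ U ζ T c y x‖ ^ 2 ≤
      (-(Wt γ U ζ T c y).im) * ‖Gr A (Wt γ U ζ T c) y x‖ ^ 2 := fun y =>
    mul_le_mul_of_nonneg_right (by linarith only [Wt_im_le (U := U) (ζ := ζ) hγ T c y]) (sq_nonneg _)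
  have h3 : (-(Wt γ U ζ T c x).im) * ‖Gr A (Wt γ U ζ T c) x x‖ ^ 2 ≤
      (GT A γ U ζ T c x x).im := by
    rw [GT, h1]
    exact Finset.single_le_sum (f := fun y => (-(Wt γ U ζ T c y).im) *
      ‖Gr A (Wt γ U ζ T c) y x‖ ^ 2) (fun y _ => mul_nonneg (by linarith [hW y]) (sq_nonneg _))
      (Finset.mem_univ x)
  rw [Wt_im_abs T c hx, neg_neg] at h3
  change (γ + ζ.im) * ‖GT A γ U ζ T c x x‖ ^ 2 ≤ _ at h3
  rcases (sq_nonneg ‖GT A γ U ζ T c x x‖).eq_or_lt with h0 | h0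
  · -- the column vanishes
    exfalso
    have hG0 : GT A γ U ζ T c x x = 0 := by
      have := pow_eq_zero_iff (two_ne_zero) |>.mp h0.symm
      exact norm_eq_zero.mp this
    have hz : ∑ y, (-(Wt γ U ζ T c y).im) * ‖Gr A (Wt γ U ζ T c) y x‖ ^ 2 = 0 := by
      rw [← h1]
      change (GT A γ U ζ T c x x).im = 0
      rw [hG0, Complex.zero_im]
    have hz' := (Finset.sum_eq_zero_iff_of_nonneg fun y _ =>
      mul_nonneg (by linarith [hW y]) (sq_nonneg _)).mp hz
    have hcol : (fun z => Gr A (Wt γ U ζ T c) z x) = 0 := by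
      funext y
      have h4 := hz' y (Finset.mem_univ y)
      have h5 : ‖Gr A (Wt γ U ζ T c) y x‖ ^ 2 = 0 :=
        (mul_eq_zero.mp h4).resolve_left (by linarith [hW y])
      exact norm_eq_zero.mp (pow_eq_zero_iff (two_ne_zero) |>.mp h5)
    have h6 := Kmat_mulVec_Gr hA hW x x
    rw [hcol, Matrix.mulVec_zero, if_pos rfl] at h6
    exact zero_ne_one h6
  · nlinarith only [h3, hζ, h0]

/-- two absorbers -/
theorem GT_diag_two (hA : A.IsSymm) (hγ : 0 < γ) (hζ : 0 < ζ.im) (T : Finset ι) (c : ι → ℝ)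
    {x o : ι} (hx : x ∉ T) (ho : o ∉ T) (hxo : x ≠ o) :
    γ * ‖GT A γ U ζ T c x x‖ ^ 2 + γ * ‖GT A γ U ζ T c o x‖ ^ 2 ≤ (GT A γ U ζ T c x x).im := by
  have hW := fun y => Wt_im_neg (U := U) hγ hζ T c y
  have h1 := Gr_flux hA hW x
  have h2 : ∑ y ∈ ({x, o} : Finset ι), (-(Wt γ U ζ T c y).im) * ‖Gr A (Wt γ U ζ T c) y x‖ ^ 2 ≤
      (GT A γ U ζ T c x x).im := by
    rw [GT, h1]
    exact Finset.sum_le_sum_of_subset_of_nonneg (Finset.subset_univ _) fun y _ _ =>
      mul_nonneg (by linarith [hW y]) (sq_nonneg _)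
  rw [Finset.sum_pair hxo, Wt_im_abs T c hx, Wt_im_abs T c ho, neg_neg] at h2
  change (γ + ζ.im) * ‖GT A γ U ζ T c x x‖ ^ 2 + (γ + ζ.im) * ‖GT A γ U ζ T c o x‖ ^ 2 ≤ _ at h2
  nlinarith only [h2, hζ]

omit [Fintype ι] in
theorem Wt_congr (T : Finset ι) (c : ι → ℝ) {x : ι} (hx : x ∉ T) (t : ℝ) :
    Wt γ U ζ T (Function.update c x t) = Wt γ U ζ T c := by
  funext y
  unfold Wt
  by_cases hy : y ∈ T
  · rw [if_pos hy, if_pos hy, Function.update_of_ne (by rintro rfl; exact hx hy)]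
  · rw [if_neg hy, if_neg hy]

theorem GT_congr (T : Finset ι) (c : ι → ℝ) {x : ι} (hx : x ∉ T) (t : ℝ) :
    GT A γ U ζ T (Function.update c x t) = GT A γ U ζ T c := by
  rw [GT, Wt_congr T c hx, GT]

omit [Fintype ι] in
theorem Wt_insert (T : Finset ι) (c : ι → ℝ) {x : ι} (hx : x ∉ T) (t : ℝ) :
    Wt γ U ζ (insert x T) (Function.update c x t) =
      Function.update (Wt γ U ζ T c) x (Wt γ U ζ T c x + γ * ((t : ℂ) + I)) := by
  funext y
  by_cases hy : y = x
  · subst hy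
    rw [Function.update_self]
    unfold Wt
    rw [if_pos (Finset.mem_insert_self _ _), if_neg hx, Function.update_self]
    ring
  · rw [Function.update_of_ne hy]
    unfold Wt
    by_cases hyT : y ∈ T
    · rw [if_pos (Finset.mem_insert_of_mem hyT), if_pos hyT, Function.update_of_ne hy]
    · rw [if_neg (fun h => (Finset.mem_insert.mp h).elim hy hyT), if_neg hyT]

theorem GT_insert (hA : A.IsSymm) (hγ : 0 < γ) (hζ : 0 < ζ.im) (T : Finset ι) (c : ι → ℝ)
    {x : ι} (hx : x ∉ T) (t : ℝ) (a b : ι) :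
    GT A γ U ζ (insert x T) (Function.update c x t) a b =
      GT A γ U ζ T c a b - GT A γ U ζ T c a x * GT A γ U ζ T c x b *
        tz γ (GT A γ U ζ T c x x) t := by
  have hδ : (Wt γ U ζ T c x + γ * ((t : ℂ) + I)).im < 0 := by
    rw [Complex.add_im, Wt_im_abs T c hx]
    simp only [Complex.mul_im, Complex.ofReal_re, Complex.add_im, Complex.ofReal_im, Complex.I_im,
      zero_add, mul_one, zero_mul, add_zero]
    linarith
  have h := (Gr_update hA (fun y => Wt_im_neg (U := U) hγ hζ T c y) x (γ * ((t : ℂ) + I)) hδ).2 a b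
  rw [← Wt_insert T c hx t] at h
  exact h

/-- resampling one coordinate preserves the product measure -/
theorem measurePreserving_resample (x : ι) :
    MeasurePreserving (fun p : (ι → ℝ) × ℝ => Function.update p.1 x p.2)
      ((mu ι).prod nu) (mu ι) := by
  have hm : Measurable (fun p : (ι → ℝ) × ℝ => Function.update p.1 x p.2) := by
    refine measurable_pi_lambda _ fun i => ?_
    by_cases hi : i = x
    · subst hi
      simp only [Function.update_self]
      exact measurable_snd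
    · simp only [Function.update_of_ne hi]
      exact (measurable_pi_apply i).comp measurable_fst
  refine ⟨hm, ?_⟩
  symm
  refine Measure.pi_eq fun s hs => ?_
  rw [Measure.map_apply hm (MeasurableSet.univ_pi hs)]
  have h1 : (fun p : (ι → ℝ) × ℝ => Function.update p.1 x p.2) ⁻¹' Set.univ.pi s =
      (Set.univ.pi (Function.update s x Set.univ)) ×ˢ (s x) := by
    ext ⟨c, t⟩
    simp only [Set.mem_preimage, Set.mem_univ_pi, Set.mem_prod]
    constructor
    · intro h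
      refine ⟨fun i => ?_, ?_⟩
      · by_cases hi : i = x
        · subst hi
          rw [Function.update_self]
          exact Set.mem_univ _
        · have := h i
          rw [Function.update_of_ne hi] at this
          rwa [Function.update_of_ne hi]
      · have := h x
        rwa [Function.update_self] at this
    · rintro ⟨h, ht⟩ i
      by_cases hi : i = x
      · subst hi
        rwa [Function.update_self]
      · have := h i
        rw [Function.update_of_ne hi] at this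
        rwa [Function.update_of_ne hi]
  rw [h1, Measure.prod_prod, Measure.pi_pi, ← Finset.mul_prod_erase _ _ (Finset.mem_univ x),
    ← Finset.mul_prod_erase Finset.univ (fun i => nu (s i)) (Finset.mem_univ x),
    Function.update_self, measure_univ, one_mul, mul_comm]
  congr 1
  refine Finset.prod_congr rfl fun i hi => ?_
  rw [Function.update_of_ne (Finset.ne_of_mem_erase hi)]

theorem integral_resample {E : Type*} [NormedAddCommGroup E] [NormedSpace ℝ E] [CompleteSpace E]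
    (x : ι) (f : (ι → ℝ) → E) (hf : Integrable f (mu ι)) :
    ∫ c, f c ∂(mu ι) = ∫ c, ∫ t, f (Function.update c x t) ∂nu ∂(mu ι) := by
  have hmp := measurePreserving_resample (ι := ι) x
  have hf' : Integrable (fun p : (ι → ℝ) × ℝ => f (Function.update p.1 x p.2))
      ((mu ι).prod nu) := by
    have h := hmp.integrable_comp_of_integrable hf
    exact h
  rw [← integral_prod _ hf']
  conv_lhs => rw [← hmp.map_eq]
  refine integral_map hmp.aemeasurable ?_
  rw [hmp.map_eq]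
  exact hf.aestronglyMeasurable

end P365L
end

section

/-!
# P365L: martingale inequalities for the Green function in finite volume.
-/

namespace P365L

open MeasureTheory ProbabilityTheory Complex
open scoped ENNReal NNReal Real

variable {ι : Type*} [Fintype ι] [DecidableEq ι]
variable {A : Matrix ι ι ℝ} {γ : ℝ} {U : ι → ℝ} {ζ : ℂ}

/-! ### one-variable lemmas -/

theorem integrable_tz {γ : ℝ} (hγ : 0 < γ) {g : ℂ} (hg : γ * ‖g‖ ^ 2 < g.im) :
    Integrable (tz γ g) nu := by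
  obtain ⟨C, hC⟩ := bounded_tz hγ hg
  exact Integrable.of_bound (measurable_tz γ g).aestronglyMeasurable C
    (Filter.Eventually.of_forall hC)

theorem integral_re_mul_tz {γ : ℝ} (hγ : 0 < γ) {g : ℂ} (hg : γ * ‖g‖ ^ 2 < g.im) (w : ℂ) :
    ∫ t, (w * tz γ g t).re ∂nu = 0 := by
  have h1 : ∫ t, w * tz γ g t ∂nu = 0 := by
    rw [integral_const_mul, integral_tz hγ hg, mul_zero]
  have h2 := (integral_re (𝕜 := ℂ) (μ := nu) (f := fun t => w * tz γ g t)
    ((integrable_tz hγ hg).const_mul w))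
  simp only [RCLike.re_to_complex] at h2
  rw [h2, h1]
  simp

theorem integrable_re_mul_tz {γ : ℝ} (hγ : 0 < γ) {g : ℂ} (hg : γ * ‖g‖ ^ 2 < g.im) (w : ℂ) :
    Integrable (fun t => (w * tz γ g t).re) nu :=
  ((integrable_tz hγ hg).const_mul w).re

theorem norm_sub_sq_ge (a b : ℂ) :
    ‖a - b‖ ^ 2 = ‖a‖ ^ 2 - 2 * ((starRingEnd ℂ) a * b).re + ‖b‖ ^ 2 := by
  have h : ∀ z : ℂ, ‖z‖ ^ 2 = z.re * z.re + z.im * z.im := by
    intro z
    rw [← Complex.normSq_eq_norm_sq, Complex.normSq_apply]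
  rw [h, h, h]
  simp only [Complex.sub_re, Complex.sub_im, Complex.mul_re, Complex.conj_re, Complex.conj_im]
  ring

theorem integrable_norm_pow_sub_mul_tz {γ : ℝ} (hγ : 0 < γ) {g : ℂ} (hg : γ * ‖g‖ ^ 2 < g.im)
    (a b : ℂ) (k : ℕ) : Integrable (fun t => ‖a - b * tz γ g t‖ ^ k) nu := by
  obtain ⟨C, hC⟩ := bounded_tz hγ hg
  have hm : Measurable fun t => ‖a - b * tz γ g t‖ ^ k := by
    have := measurable_tz γ g
    fun_prop
  refine Integrable.of_bound hm.aestronglyMeasurable ((‖a‖ + ‖b‖ * C) ^ k)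
    (Filter.Eventually.of_forall fun t => ?_)
  rw [norm_pow, norm_norm]
  refine pow_le_pow_left₀ (norm_nonneg _) ?_ k
  refine (norm_sub_le _ _).trans ?_
  rw [norm_mul]
  have := mul_le_mul_of_nonneg_left (hC t) (norm_nonneg b)
  linarith

theorem integral_norm_sq_sub_ge {γ : ℝ} (hγ : 0 < γ) {g : ℂ} (hg : γ * ‖g‖ ^ 2 < g.im)
    (a b : ℂ) :
    ‖a‖ ^ 2 + ‖b‖ ^ 2 * (γ ^ 2 / 4) ≤ ∫ t, ‖a - b * tz γ g t‖ ^ 2 ∂nu := by
  have h0 : ∫ t, (‖a‖ ^ 2 + ‖b‖ ^ 2 * (γ ^ 2 / 4) -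
      2 * (((starRingEnd ℂ) a * b) * tz γ g t).re) ∂nu = ‖a‖ ^ 2 + ‖b‖ ^ 2 * (γ ^ 2 / 4) := by
    rw [integral_sub (integrable_const _) ((integrable_re_mul_tz hγ hg _).const_mul 2),
      integral_const_mul, integral_re_mul_tz hγ hg]
    simp
  rw [← h0]
  refine integral_mono ((integrable_const _).sub ((integrable_re_mul_tz hγ hg _).const_mul 2))
    (integrable_norm_pow_sub_mul_tz hγ hg a b 2) fun t => ?_
  show ‖a‖ ^ 2 + ‖b‖ ^ 2 * (γ ^ 2 / 4) - 2 * (((starRingEnd ℂ) a * b) * tz γ g t).re ≤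
    ‖a - b * tz γ g t‖ ^ 2
  rw [norm_sub_sq_ge, ← mul_assoc, norm_mul]
  have h1 := le_norm_tz hγ hg t
  have h2 : (γ / 2) ^ 2 ≤ ‖tz γ g t‖ ^ 2 := pow_le_pow_left₀ (by positivity) h1 2
  have h3 := mul_le_mul_of_nonneg_left h2 (sq_nonneg ‖b‖)
  rw [mul_pow]
  linarith

theorem integral_norm_fourth_sub_ge {γ : ℝ} (hγ : 0 < γ) {g : ℂ} (hg : γ * ‖g‖ ^ 2 < g.im)
    (a b : ℂ) :
    ‖a‖ ^ 4 ≤ ∫ t, ‖a - b * tz γ g t‖ ^ 4 ∂nu := by
  have h0 : ∫ t, (‖a‖ ^ 4 -
      (4 * ‖a‖ ^ 2) * (((starRingEnd ℂ) a * b) * tz γ g t).re) ∂nu = ‖a‖ ^ 4 := by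
    rw [integral_sub (integrable_const _) ((integrable_re_mul_tz hγ hg _).const_mul _),
      integral_const_mul, integral_re_mul_tz hγ hg]
    simp
  rw [← h0]
  refine integral_mono ((integrable_const _).sub ((integrable_re_mul_tz hγ hg _).const_mul _))
    (integrable_norm_pow_sub_mul_tz hγ hg a b 4) fun t => ?_
  show ‖a‖ ^ 4 - (4 * ‖a‖ ^ 2) * (((starRingEnd ℂ) a * b) * tz γ g t).re ≤
    ‖a - b * tz γ g t‖ ^ 4
  have h1 := norm_sub_sq_ge a (b * tz γ g t)
  rw [← mul_assoc] at h1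
  have h2 : ‖a - b * tz γ g t‖ ^ 4 = (‖a - b * tz γ g t‖ ^ 2) ^ 2 := by ring
  rw [h2]
  set s := ‖a - b * tz γ g t‖ ^ 2
  set r := (((starRingEnd ℂ) a * b) * tz γ g t).re
  have h3 : ‖a‖ ^ 2 - 2 * r ≤ s := by
    rw [h1]
    have := sq_nonneg ‖b * tz γ g t‖
    linarith only [this]
  have h4 : (0 : ℝ) ≤ ‖a‖ ^ 2 := sq_nonneg _
  have h5 : ‖a‖ ^ 4 = (‖a‖ ^ 2) ^ 2 := by ring
  rw [h5]
  set q := ‖a‖ ^ 2
  nlinarith only [h3, h4, sq_nonneg (s - q)]

/-! ### integrability of Green function entries -/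

theorem integrable_GT (hA : A.IsSymm) (hγ : 0 < γ) (hζ : 0 < ζ.im) (T : Finset ι) (a b : ι) :
    Integrable (fun c => GT A γ U ζ T c a b) (mu ι) :=
  Integrable.of_bound (measurable_GT T a b).aestronglyMeasurable (1 / ζ.im)
    (Filter.Eventually.of_forall fun c => norm_GT_le hA hγ hζ T c a b)

theorem integrable_norm_GT_pow (hA : A.IsSymm) (hγ : 0 < γ) (hζ : 0 < ζ.im) (T : Finset ι)
    (a b : ι) (k : ℕ) :
    Integrable (fun c => ‖GT A γ U ζ T c a b‖ ^ k) (mu ι) := by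
  have hm : Measurable fun c => ‖GT A γ U ζ T c a b‖ ^ k :=
    ((measurable_GT T a b).norm).pow_const k
  refine Integrable.of_bound hm.aestronglyMeasurable ((1 / ζ.im) ^ k)
    (Filter.Eventually.of_forall fun c => ?_)
  rw [norm_pow, norm_norm]
  exact pow_le_pow_left₀ (norm_nonneg _) (norm_GT_le hA hγ hζ T c a b) k

theorem GT_symm (hA : A.IsSymm) (T : Finset ι) (c : ι → ℝ) (a b : ι) :
    GT A γ U ζ T c a b = GT A γ U ζ T c b a := Gr_symm hA a b

/-- the inner integral over the resampled coordinate is integrable -/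
theorem integrable_inner {f : (ι → ℝ) → ℝ} (x : ι) (hf : Integrable f (mu ι)) :
    Integrable (fun c => ∫ t, f (Function.update c x t) ∂nu) (mu ι) := by
  have h1 : Integrable (fun p : (ι → ℝ) × ℝ => f (Function.update p.1 x p.2))
      ((mu ι).prod nu) :=
    (measurePreserving_resample x).integrable_comp_of_integrable hf
  exact h1.integral_prod_left

/-- second moment of the diagonal entry: one more revealed site -/
theorem sq_insert (hA : A.IsSymm) (hγ : 0 < γ) (hζ : 0 < ζ.im) (T : Finset ι)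
    {x : ι} (hx : x ∉ T) (o : ι) :
    ∫ c, ‖GT A γ U ζ T c o o‖ ^ 2 ∂(mu ι) + (γ ^ 2 / 4) * ∫ c, ‖GT A γ U ζ T c o x‖ ^ 4 ∂(mu ι)
      ≤ ∫ c, ‖GT A γ U ζ (insert x T) c o o‖ ^ 2 ∂(mu ι) := by
  have hi2 := integrable_norm_GT_pow (U := U) hA hγ hζ T o o 2
  have hi4 := integrable_norm_GT_pow (U := U) hA hγ hζ T o x 4
  have hi := integrable_norm_GT_pow (U := U) hA hγ hζ (insert x T) o o 2
  rw [integral_resample x _ hi, ← integral_const_mul, ← integral_add hi2 (hi4.const_mul _)]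
  refine integral_mono (hi2.add (hi4.const_mul _)) (integrable_inner x hi) fun c => ?_
  show ‖GT A γ U ζ T c o o‖ ^ 2 + (γ ^ 2 / 4) * ‖GT A γ U ζ T c o x‖ ^ 4 ≤
    ∫ t, ‖GT A γ U ζ (insert x T) (Function.update c x t) o o‖ ^ 2 ∂nu
  have h1 : ∀ t, GT A γ U ζ (insert x T) (Function.update c x t) o o =
      GT A γ U ζ T c o o - (GT A γ U ζ T c o x * GT A γ U ζ T c o x) *
        tz γ (GT A γ U ζ T c x x) t := by
    intro t
    rw [GT_insert hA hγ hζ T c hx t o o, GT_symm hA T c x o]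
  simp only [h1]
  refine le_trans (le_of_eq ?_) (integral_norm_sq_sub_ge hγ (GT_diag hA hγ hζ T c hx) _ _)
  rw [norm_mul]
  ring

theorem mean_insert (hA : A.IsSymm) (hγ : 0 < γ) (hζ : 0 < ζ.im) (T : Finset ι) {x : ι}
    (hx : x ∉ T) (a b : ι) :
    ∫ c, GT A γ U ζ T c a b ∂(mu ι) = ∫ c, GT A γ U ζ (insert x T) c a b ∂(mu ι) := by
  rw [integral_resample x _ (integrable_GT hA hγ hζ (insert x T) a b)]
  refine integral_congr_ae (Filter.Eventually.of_forall fun c => ?_)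
  show GT A γ U ζ T c a b = ∫ t, GT A γ U ζ (insert x T) (Function.update c x t) a b ∂nu
  simp only [GT_insert hA hγ hζ T c hx]
  have hg := GT_diag (U := U) hA hγ hζ T c hx
  rw [integral_sub (integrable_const _) ((integrable_tz hγ hg).const_mul _), integral_const_mul,
    integral_tz hγ hg]
  simp

theorem fourth_insert (hA : A.IsSymm) (hγ : 0 < γ) (hζ : 0 < ζ.im) (T : Finset ι) {x : ι}
    (hx : x ∉ T) (a b : ι) :
    ∫ c, ‖GT A γ U ζ T c a b‖ ^ 4 ∂(mu ι) ≤
      ∫ c, ‖GT A γ U ζ (insert x T) c a b‖ ^ 4 ∂(mu ι) := by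
  have hi4 := integrable_norm_GT_pow (U := U) hA hγ hζ T a b 4
  have hi := integrable_norm_GT_pow (U := U) hA hγ hζ (insert x T) a b 4
  rw [integral_resample x _ hi]
  refine integral_mono hi4 (integrable_inner x hi) fun c => ?_
  show ‖GT A γ U ζ T c a b‖ ^ 4 ≤
    ∫ t, ‖GT A γ U ζ (insert x T) (Function.update c x t) a b‖ ^ 4 ∂nu
  simp only [GT_insert hA hγ hζ T c hx]
  exact integral_norm_fourth_sub_ge hγ (GT_diag hA hγ hζ T c hx) _ _

/-- the mean is unchanged by revealing sites -/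
theorem mean_eq (hA : A.IsSymm) (hγ : 0 < γ) (hζ : 0 < ζ.im) (T T' : Finset ι) (hT : T ⊆ T')
    (a b : ι) : ∫ c, GT A γ U ζ T c a b ∂(mu ι) = ∫ c, GT A γ U ζ T' c a b ∂(mu ι) := by
  have key : ∀ S : Finset ι, Disjoint T S →
      ∫ c, GT A γ U ζ T c a b ∂(mu ι) = ∫ c, GT A γ U ζ (T ∪ S) c a b ∂(mu ι) := by
    intro S
    induction S using Finset.induction_on with
    | empty => intro _; rw [Finset.union_empty]
    | insert y S hy ih =>
      intro hd
      rw [Finset.disjoint_insert_right] at hd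
      rw [ih hd.2, Finset.union_insert]
      refine mean_insert hA hγ hζ (T ∪ S) ?_ a b
      rw [Finset.mem_union, not_or]
      exact ⟨hd.1, hy⟩
  have h := key (T' \ T) Finset.disjoint_sdiff
  rwa [Finset.union_sdiff_of_subset hT] at h

/-- the fourth moments increase (martingale + Jensen) -/
theorem fourth_mono (hA : A.IsSymm) (hγ : 0 < γ) (hζ : 0 < ζ.im) (T T' : Finset ι) (hT : T ⊆ T')
    (a b : ι) :
    ∫ c, ‖GT A γ U ζ T c a b‖ ^ 4 ∂(mu ι) ≤ ∫ c, ‖GT A γ U ζ T' c a b‖ ^ 4 ∂(mu ι) := by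
  have key : ∀ S : Finset ι, Disjoint T S →
      ∫ c, ‖GT A γ U ζ T c a b‖ ^ 4 ∂(mu ι) ≤
        ∫ c, ‖GT A γ U ζ (T ∪ S) c a b‖ ^ 4 ∂(mu ι) := by
    intro S
    induction S using Finset.induction_on with
    | empty => intro _; rw [Finset.union_empty]
    | insert y S hy ih =>
      intro hd
      rw [Finset.disjoint_insert_right] at hd
      refine (ih hd.2).trans ?_
      rw [Finset.union_insert]
      refine fourth_insert hA hγ hζ (T ∪ S) ?_ a b
      rw [Finset.mem_union, not_or]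
      exact ⟨hd.1, hy⟩
  have h := key (T' \ T) Finset.disjoint_sdiff
  rwa [Finset.union_sdiff_of_subset hT] at h

/-- revealing a whole set `S` -/
theorem sq_union (hA : A.IsSymm) (hγ : 0 < γ) (hζ : 0 < ζ.im) (T S : Finset ι)
    (hTS : Disjoint T S) (o : ι) :
    ∫ c, ‖GT A γ U ζ T c o o‖ ^ 2 ∂(mu ι) +
        (γ ^ 2 / 4) * ∑ x ∈ S, ∫ c, ‖GT A γ U ζ T c o x‖ ^ 4 ∂(mu ι)
      ≤ ∫ c, ‖GT A γ U ζ (T ∪ S) c o o‖ ^ 2 ∂(mu ι) := by
  induction S using Finset.induction_on with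
  | empty => simp
  | insert y S hy ih =>
    rw [Finset.disjoint_insert_right] at hTS
    have hy' : y ∉ T ∪ S := by
      rw [Finset.mem_union, not_or]
      exact ⟨hTS.1, hy⟩
    have h1 := ih hTS.2
    have h2 := sq_insert (U := U) hA hγ hζ (T ∪ S) hy' o
    have h3 := fourth_mono (U := U) hA hγ hζ T (T ∪ S) Finset.subset_union_left o y
    rw [Finset.union_insert, Finset.sum_insert hy]
    have h4 := mul_le_mul_of_nonneg_left h3 (by positivity : (0 : ℝ) ≤ γ ^ 2 / 4)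
    rw [mul_add]
    linarith

/-- second moment at revealed sites -/
theorem inner_second_moment (hA : A.IsSymm) (hγ : 0 < γ) (hζ : 0 < ζ.im) (T : Finset ι)
    {o x : ι} (ho : o ∉ T) (hx : x ∈ T) :
    ∫ c, ‖GT A γ U ζ T c o x‖ ^ 2 ∂(mu ι) ≤ 1 / γ ^ 2 := by
  obtain ⟨T0, hx0, rfl⟩ : ∃ T0 : Finset ι, x ∉ T0 ∧ insert x T0 = T :=
    ⟨T.erase x, Finset.notMem_erase x T, Finset.insert_erase hx⟩
  have ho0 : o ∉ T0 := fun h => ho (Finset.mem_insert_of_mem h)
  have hxo : x ≠ o := fun h => ho (h ▸ Finset.mem_insert_self x T0)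
  have hi := integrable_norm_GT_pow (U := U) hA hγ hζ (insert x T0) o x 2
  rw [integral_resample x _ hi]
  have hc : ∫ _c : ι → ℝ, (1 / γ ^ 2 : ℝ) ∂(mu ι) = 1 / γ ^ 2 := by simp
  rw [← hc]
  refine integral_mono (integrable_inner x hi) (integrable_const _) fun c => ?_
  show ∫ t, ‖GT A γ U ζ (insert x T0) (Function.update c x t) o x‖ ^ 2 ∂nu ≤ 1 / γ ^ 2
  have hg := GT_diag (U := U) hA hγ hζ T0 c hx0
  have h1 : ∀ t, ‖GT A γ U ζ (insert x T0) (Function.update c x t) o x‖ ^ 2 =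
      ‖GT A γ U ζ T0 c o x‖ ^ 2 *
        ‖(1 + γ * ((t : ℂ) + I) * GT A γ U ζ T0 c x x)⁻¹‖ ^ 2 := by
    intro t
    have hd := den_ne_zero hγ hg t
    rw [GT_insert hA hγ hζ T0 c hx0 t o x, ← mul_pow, ← norm_mul]
    congr 2
    unfold tz
    generalize GT A γ U ζ T0 c x x = g at hd ⊢
    generalize GT A γ U ζ T0 c o x = h
    have h2 : γ * ((t : ℂ) + I) * g / (1 + γ * ((t : ℂ) + I) * g) =
        1 - (1 + γ * ((t : ℂ) + I) * g)⁻¹ := by
      rw [eq_sub_iff_add_eq, div_eq_mul_inv, ← add_one_mul, add_comm _ (1 : ℂ),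
        mul_inv_cancel₀ hd]
    calc h - h * g * (γ * ((t : ℂ) + I) / (1 + γ * ((t : ℂ) + I) * g))
        = h - h * (γ * ((t : ℂ) + I) * g / (1 + γ * ((t : ℂ) + I) * g)) := by ring
      _ = h * (1 + γ * ((t : ℂ) + I) * g)⁻¹ := by rw [h2]; ring
  simp only [h1]
  rw [integral_const_mul]
  exact integral_den_inv_sq hγ hg (GT_diag_two hA hγ hζ T0 c hx0 ho0 hxo)

end P365L
end

section

/-!
# P365L: the two-dimensional shell estimate in finite volume.
-/

namespace P365L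

open MeasureTheory ProbabilityTheory Complex
open scoped ENNReal NNReal Real

/-- A finite piece of a planar graph: adjacency `A` (entries 0/1), radius `ρ`, root `o`. -/
structure Planar {ι : Type*} [Fintype ι] [DecidableEq ι] (A : Matrix ι ι ℝ) (ρ : ι → ℕ) (o : ι) :
    Prop where
  symm : A.IsSymm
  zero_one : ∀ x y, A x y = 0 ∨ A x y = 1
  root : ∀ x, ρ x = 0 ↔ x = o
  lip : ∀ x y, A x y ≠ 0 → ρ x ≤ ρ y + 1
  deg : ∀ x, ∑ y, A x y ≤ 4
  card : ∀ r, (Finset.univ.filter fun x => ρ x = r).card ≤ 4 * r + 2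

variable {ι : Type*} [Fintype ι] [DecidableEq ι]

/-- sites of radius in `[1, r]` -/
def inner (ρ : ι → ℕ) (r : ℕ) : Finset ι := Finset.univ.filter fun x => 0 < ρ x ∧ ρ x ≤ r

/-- sites of radius `> r` -/
def outer (ρ : ι → ℕ) (r : ℕ) : Finset ι := Finset.univ.filter fun x => r < ρ x

/-- sites of radius `r` -/
def shell (ρ : ι → ℕ) (r : ℕ) : Finset ι := Finset.univ.filter fun x => ρ x = r

/-- the partial sums of the (divergent) series `∑ 1/|S_{r+1}|` -/
noncomputable def HH (R : ℕ) : ℝ := ∑ r ∈ Finset.range R, (1 : ℝ) / (4 * r + 6)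

/-- the constant -/
noncomputable def C1 (γ : ℝ) : ℝ := (1 + 16 / γ ^ 2) ^ 2 * (4 / γ ^ 4)

variable {A : Matrix ι ι ℝ} {ρ : ι → ℕ} {o : ι} {γ : ℝ} {U : ι → ℝ} {ζ : ℂ}

/-- the flux absorbed outside the ball of radius `r` -/
noncomputable def flux (A : Matrix ι ι ℝ) (ρ : ι → ℕ) (o : ι) (γ : ℝ) (U : ι → ℝ) (ζ : ℂ) (r : ℕ)
    (c : ι → ℝ) : ℝ := ∑ w ∈ outer ρ r, ‖GT A γ U ζ (inner ρ r) c o w‖ ^ 2

theorem tendsto_HH : Filter.Tendsto HH Filter.atTop Filter.atTop := by
  have h1 : Filter.Tendsto (fun n : ℕ => (1 / 6 : ℝ) * ∑ i ∈ Finset.range n, (1 / ((i : ℝ) + 1)))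
      Filter.atTop Filter.atTop :=
    Filter.Tendsto.const_mul_atTop (by norm_num) Real.tendsto_sum_range_one_div_nat_succ_atTop
  refine Filter.tendsto_atTop_mono (fun n => ?_) h1
  unfold HH
  rw [Finset.mul_sum]
  refine Finset.sum_le_sum fun i _ => ?_
  have hi : (0 : ℝ) ≤ (i : ℝ) := Nat.cast_nonneg i
  rw [div_mul_div_comm, one_mul]
  exact one_div_le_one_div_of_le (by linarith) (by linarith only [])

theorem card_inner_le (h : Planar A ρ o) (R : ℕ) : (inner ρ R).card ≤ (4 * R + 2) * R := by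
  have hsub : inner ρ R ⊆ (Finset.Icc 1 R).biUnion fun r => Finset.univ.filter fun x => ρ x = r := by
    intro x hx
    simp only [inner, Finset.mem_filter, Finset.mem_univ, true_and] at hx
    simp only [Finset.mem_biUnion, Finset.mem_Icc, Finset.mem_filter, Finset.mem_univ, true_and]
    exact ⟨ρ x, ⟨hx.1, hx.2⟩, rfl⟩
  calc (inner ρ R).card
      ≤ ((Finset.Icc 1 R).biUnion fun r => Finset.univ.filter fun x => ρ x = r).card :=
        Finset.card_le_card hsub
    _ ≤ ∑ r ∈ Finset.Icc 1 R, (Finset.univ.filter fun x => ρ x = r).card :=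
        Finset.card_biUnion_le
    _ ≤ ∑ r ∈ Finset.Icc 1 R, (4 * R + 2) := by
        refine Finset.sum_le_sum fun r hr => (h.card r).trans ?_
        have := (Finset.mem_Icc.1 hr).2
        omega
    _ = (4 * R + 2) * R := by
        rw [Finset.sum_const, Nat.card_Icc, Nat.add_sub_cancel, smul_eq_mul, mul_comm]

theorem rho_root (h : Planar A ρ o) : ρ o = 0 := (h.root o).2 rfl

theorem A_nonneg (h : Planar A ρ o) (x y : ι) : 0 ≤ A x y := by
  rcases h.zero_one x y with h0 | h1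
  · rw [h0]
  · rw [h1]; exact zero_le_one

theorem root_notMem_inner (h : Planar A ρ o) (r : ℕ) : o ∉ inner ρ r := by
  simp only [inner, Finset.mem_filter, Finset.mem_univ, rho_root h, lt_self_iff_false, zero_le, and_true, and_false, not_false_eq_true]

theorem root_notMem_outer (h : Planar A ρ o) (r : ℕ) : o ∉ outer ρ r := by
  simp only [outer, Finset.mem_filter, Finset.mem_univ, rho_root h, not_lt_zero, and_false, not_false_eq_true]

omit [DecidableEq ι] in
theorem outer_disj_inner {x : ι} {r : ℕ} (hx : x ∈ outer ρ r) : x ∉ inner ρ r := by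
  simp only [outer, Finset.mem_filter, Finset.mem_univ, true_and] at hx
  simp only [inner, Finset.mem_filter, Finset.mem_univ, true_and, not_and, not_le]
  intro _
  exact hx

theorem outer_eq (r : ℕ) : outer ρ r = shell ρ (r + 1) ∪ outer ρ (r + 1) := by
  ext x
  simp only [outer, shell, Finset.mem_filter, Finset.mem_univ, true_and, Finset.mem_union]
  omega

omit [DecidableEq ι] in
theorem disjoint_shell_outer (r : ℕ) : Disjoint (shell ρ (r + 1)) (outer ρ (r + 1)) := by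
  rw [Finset.disjoint_left]
  intro x hx hx'
  simp only [shell, outer, Finset.mem_filter, Finset.mem_univ, true_and] at hx hx'
  omega

/-- Cauchy-Schwarz at one site: at most four neighbours -/
theorem nbr_sq_le (h : Planar A ρ o) (F : ι → ℂ) (r : ℕ) {w : ι} (hw : w ∈ outer ρ (r + 1)) :
    ‖∑ y ∈ (outer ρ (r + 1))ᶜ, (A w y : ℂ) * F y‖ ^ 2 ≤
      4 * ∑ y ∈ shell ρ (r + 1), A w y * ‖F y‖ ^ 2 := by
  have hsub : shell ρ (r + 1) ⊆ (outer ρ (r + 1))ᶜ := by
    intro y hy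
    rw [Finset.mem_compl]
    exact Finset.disjoint_left.1 (disjoint_shell_outer r) hy
  have h1 : ∑ y ∈ (outer ρ (r + 1))ᶜ, (A w y : ℂ) * F y =
      ∑ y ∈ shell ρ (r + 1), (A w y : ℂ) * F y := by
    symm
    refine Finset.sum_subset hsub ?_
    intro y hy hy'
    by_cases hA : A w y = 0
    · rw [hA]; simp
    · exfalso
      have hl := h.lip w y hA
      simp only [outer, Finset.mem_filter, Finset.mem_univ, true_and, Finset.mem_compl,
        not_lt] at hy hw
      simp only [shell, Finset.mem_filter, Finset.mem_univ, true_and] at hy'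
      omega
  rw [h1]
  have h2 : ‖∑ y ∈ shell ρ (r + 1), (A w y : ℂ) * F y‖ ≤
      ∑ y ∈ shell ρ (r + 1), A w y * ‖F y‖ := by
    refine (norm_sum_le _ _).trans (Finset.sum_le_sum fun y _ => ?_)
    rw [norm_mul, Complex.norm_real, Real.norm_of_nonneg (A_nonneg h w y)]
  have h3 : (∑ y ∈ shell ρ (r + 1), A w y * ‖F y‖) ^ 2 ≤
      (∑ y ∈ shell ρ (r + 1), A w y) * ∑ y ∈ shell ρ (r + 1), A w y * ‖F y‖ ^ 2 := by
    refine Finset.sum_sq_le_sum_mul_sum_of_sq_le_mul _ (fun y _ => A_nonneg h w y)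
      (fun y _ => mul_nonneg (A_nonneg h w y) (sq_nonneg _)) (fun y _ => le_of_eq ?_)
    ring
  have h4 : ∑ y ∈ shell ρ (r + 1), A w y ≤ 4 :=
    (Finset.sum_le_sum_of_subset_of_nonneg (Finset.subset_univ _)
      (fun y _ _ => A_nonneg h w y)).trans (h.deg w)
  have h5 : 0 ≤ ∑ y ∈ shell ρ (r + 1), A w y * ‖F y‖ ^ 2 :=
    Finset.sum_nonneg fun y _ => mul_nonneg (A_nonneg h w y) (sq_nonneg _)
  calc ‖∑ y ∈ shell ρ (r + 1), (A w y : ℂ) * F y‖ ^ 2
      ≤ (∑ y ∈ shell ρ (r + 1), A w y * ‖F y‖) ^ 2 :=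
        pow_le_pow_left₀ (norm_nonneg _) h2 2
    _ ≤ _ := h3
    _ ≤ 4 * ∑ y ∈ shell ρ (r + 1), A w y * ‖F y‖ ^ 2 :=
        mul_le_mul_of_nonneg_right h4 h5

/-- the exterior estimate: the flux is controlled by the first shell -/
theorem flux_le_shell (h : Planar A ρ o) (hγ : 0 < γ) (hζ : 0 < ζ.im) (r : ℕ) (c : ι → ℝ) :
    flux A ρ o γ U ζ r c ≤
      (1 + 16 / γ ^ 2) * ∑ w ∈ shell ρ (r + 1), ‖GT A γ U ζ (inner ρ r) c o w‖ ^ 2 := by
  have hsym : ∀ w, GT A γ U ζ (inner ρ r) c o w = Gr A (Wt γ U ζ (inner ρ r) c) w o :=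
    fun w => Gr_symm h.symm o w
  unfold flux
  simp only [hsym]
  set W := Wt γ U ζ (inner ρ r) c with hW
  have hext := Gr_exterior (A := A) (W := W) h.symm (fun x => Wt_im_neg hγ hζ _ c x) hγ o
    (outer ρ (r + 1)) (root_notMem_outer h (r + 1)) (by
      intro x hx
      have hx' : x ∈ outer ρ r := by
        rw [outer_eq]; exact Finset.mem_union_right _ hx
      rw [hW, Wt_im_abs _ c (outer_disj_inner hx')]
      linarith)
  have hsum : ∑ w ∈ outer ρ (r + 1), ‖∑ y ∈ (outer ρ (r + 1))ᶜ, (A w y : ℂ) * Gr A W y o‖ ^ 2 ≤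
      16 * ∑ w ∈ shell ρ (r + 1), ‖Gr A W w o‖ ^ 2 := by
    calc ∑ w ∈ outer ρ (r + 1), ‖∑ y ∈ (outer ρ (r + 1))ᶜ, (A w y : ℂ) * Gr A W y o‖ ^ 2
        ≤ ∑ w ∈ outer ρ (r + 1), 4 * ∑ y ∈ shell ρ (r + 1), A w y * ‖Gr A W y o‖ ^ 2 :=
          Finset.sum_le_sum fun w hw => nbr_sq_le h (fun y => Gr A W y o) r hw
      _ = 4 * ∑ y ∈ shell ρ (r + 1), (∑ w ∈ outer ρ (r + 1), A w y) * ‖Gr A W y o‖ ^ 2 := by
          rw [← Finset.mul_sum, Finset.sum_comm]
          congr 1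
          refine Finset.sum_congr rfl fun y _ => ?_
          rw [Finset.sum_mul]
      _ ≤ 4 * ∑ y ∈ shell ρ (r + 1), 4 * ‖Gr A W y o‖ ^ 2 := by
          refine mul_le_mul_of_nonneg_left (Finset.sum_le_sum fun y _ => ?_) (by norm_num)
          refine mul_le_mul_of_nonneg_right ?_ (sq_nonneg _)
          have e : ∑ w ∈ outer ρ (r + 1), A w y = ∑ w ∈ outer ρ (r + 1), A y w :=
            Finset.sum_congr rfl fun w _ => h.symm.apply y w
          rw [e]
          exact (Finset.sum_le_sum_of_subset_of_nonneg (Finset.subset_univ _)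
            (fun w _ _ => A_nonneg h y w)).trans (h.deg y)
      _ = 16 * ∑ w ∈ shell ρ (r + 1), ‖Gr A W w o‖ ^ 2 := by
          rw [← Finset.mul_sum]; ring
  rw [outer_eq, Finset.sum_union (disjoint_shell_outer r), add_mul, one_mul]
  refine add_le_add le_rfl (hext.trans ?_)
  calc 1 / γ ^ 2 * ∑ w ∈ outer ρ (r + 1),
        ‖∑ y ∈ (outer ρ (r + 1))ᶜ, (A w y : ℂ) * Gr A W y o‖ ^ 2
      ≤ 1 / γ ^ 2 * (16 * ∑ w ∈ shell ρ (r + 1), ‖Gr A W w o‖ ^ 2) :=
        mul_le_mul_of_nonneg_left hsum (by positivity)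
    _ = 16 / γ ^ 2 * ∑ w ∈ shell ρ (r + 1), ‖Gr A W w o‖ ^ 2 := by ring

theorem flux_nonneg (r : ℕ) (c : ι → ℝ) : 0 ≤ flux A ρ o γ U ζ r c :=
  Finset.sum_nonneg fun _ _ => sq_nonneg _

theorem flux_sq_le (h : Planar A ρ o) (hγ : 0 < γ) (hζ : 0 < ζ.im) (r : ℕ) (c : ι → ℝ) :
    flux A ρ o γ U ζ r c ^ 2 ≤ (1 + 16 / γ ^ 2) ^ 2 * (4 * r + 6) *
      ∑ w ∈ shell ρ (r + 1), ‖GT A γ U ζ (inner ρ r) c o w‖ ^ 4 := by
  have h1 := flux_le_shell (U := U) h hγ hζ r c
  have h2 : (∑ w ∈ shell ρ (r + 1), ‖GT A γ U ζ (inner ρ r) c o w‖ ^ 2) ^ 2 ≤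
      (shell ρ (r + 1)).card * ∑ w ∈ shell ρ (r + 1),
        (‖GT A γ U ζ (inner ρ r) c o w‖ ^ 2) ^ 2 := sq_sum_le_card_mul_sum_sq
  have h3 : ∑ w ∈ shell ρ (r + 1), (‖GT A γ U ζ (inner ρ r) c o w‖ ^ 2) ^ 2 =
      ∑ w ∈ shell ρ (r + 1), ‖GT A γ U ζ (inner ρ r) c o w‖ ^ 4 :=
    Finset.sum_congr rfl fun w _ => by ring
  have h4 : ((shell ρ (r + 1)).card : ℝ) ≤ 4 * r + 6 := by
    have := h.card (r + 1)
    have h' : (shell ρ (r + 1)).card ≤ 4 * r + 6 := by
      unfold shell; omega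
    exact_mod_cast h'
  have h5 : 0 ≤ ∑ w ∈ shell ρ (r + 1), ‖GT A γ U ζ (inner ρ r) c o w‖ ^ 4 :=
    Finset.sum_nonneg fun _ _ => by (clear * -; positivity)
  rw [h3] at h2
  calc flux A ρ o γ U ζ r c ^ 2
      ≤ ((1 + 16 / γ ^ 2) * ∑ w ∈ shell ρ (r + 1), ‖GT A γ U ζ (inner ρ r) c o w‖ ^ 2) ^ 2 :=
        pow_le_pow_left₀ (flux_nonneg r c) h1 2
    _ = (1 + 16 / γ ^ 2) ^ 2 *
        (∑ w ∈ shell ρ (r + 1), ‖GT A γ U ζ (inner ρ r) c o w‖ ^ 2) ^ 2 := by ring
    _ ≤ (1 + 16 / γ ^ 2) ^ 2 * ((4 * r + 6) *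
        ∑ w ∈ shell ρ (r + 1), ‖GT A γ U ζ (inner ρ r) c o w‖ ^ 4) :=
        mul_le_mul_of_nonneg_left (h2.trans (mul_le_mul_of_nonneg_right h4 h5)) (sq_nonneg _)
    _ = _ := by ring

theorem univ_eq_union (h : Planar A ρ o) (r : ℕ) :
    (Finset.univ : Finset ι) = insert o (inner ρ r ∪ outer ρ r) := by
  ext x
  simp only [Finset.mem_univ, Finset.mem_insert, Finset.mem_union, inner, outer,
    Finset.mem_filter, true_and, true_iff]
  by_cases hx : x = o
  · exact Or.inl hx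
  · right
    have : ρ x ≠ 0 := fun h0 => hx ((h.root x).1 h0)
    omega

/-- flux balance at the root -/
theorem flux_balance (h : Planar A ρ o) (hγ : 0 < γ) (hζ : 0 < ζ.im) (r : ℕ) (c : ι → ℝ) :
    (GT A γ U ζ (inner ρ r) c o o).im =
      (γ + ζ.im) * ‖GT A γ U ζ (inner ρ r) c o o‖ ^ 2 + (γ + ζ.im) * flux A ρ o γ U ζ r c +
        ζ.im * ∑ w ∈ inner ρ r, ‖GT A γ U ζ (inner ρ r) c o w‖ ^ 2 := by
  have hsym : ∀ w, Gr A (Wt γ U ζ (inner ρ r) c) w o = GT A γ U ζ (inner ρ r) c o w :=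
    fun w => Gr_symm h.symm w o
  have hfl := Gr_flux (A := A) (W := Wt γ U ζ (inner ρ r) c) h.symm
    (fun x => Wt_im_neg hγ hζ _ c x) o
  simp only [hsym] at hfl
  rw [hfl, univ_eq_union h r, Finset.sum_insert, Finset.sum_union]
  · rw [Wt_im_abs _ c (root_notMem_inner h r)]
    have e1 : ∑ y ∈ inner ρ r, -(Wt γ U ζ (inner ρ r) c y).im *
        ‖GT A γ U ζ (inner ρ r) c o y‖ ^ 2 =
        ζ.im * ∑ w ∈ inner ρ r, ‖GT A γ U ζ (inner ρ r) c o w‖ ^ 2 := by
      rw [Finset.mul_sum]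
      refine Finset.sum_congr rfl fun y hy => ?_
      rw [Wt_im_mem _ c hy, neg_neg]
    have e2 : ∑ y ∈ outer ρ r, -(Wt γ U ζ (inner ρ r) c y).im *
        ‖GT A γ U ζ (inner ρ r) c o y‖ ^ 2 = (γ + ζ.im) * flux A ρ o γ U ζ r c := by
      unfold flux
      rw [Finset.mul_sum]
      refine Finset.sum_congr rfl fun y hy => ?_
      rw [Wt_im_abs _ c (outer_disj_inner hy), neg_neg]
    rw [e1, e2]
    ring
  · rw [Finset.disjoint_left]
    intro x hx hx'
    exact outer_disj_inner hx' hx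
  · rw [Finset.mem_union, not_or]
    exact ⟨root_notMem_inner h r, root_notMem_outer h r⟩

theorem norm_root_le (h : Planar A ρ o) (hγ : 0 < γ) (hζ : 0 < ζ.im) (T : Finset ι) (hT : o ∉ T)
    (c : ι → ℝ) : ‖GT A γ U ζ T c o o‖ ≤ 1 / γ := by
  have hfl := Gr_flux (A := A) (W := Wt γ U ζ T c) h.symm
    (fun x => Wt_im_neg hγ hζ _ c x) o
  have h1 : -(Wt γ U ζ T c o).im * ‖Gr A (Wt γ U ζ T c) o o‖ ^ 2 ≤
      (Gr A (Wt γ U ζ T c) o o).im := by
    rw [hfl]
    refine Finset.single_le_sum (f := fun y => -(Wt γ U ζ T c y).im *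
      ‖Gr A (Wt γ U ζ T c) y o‖ ^ 2) (fun y _ => ?_) (Finset.mem_univ o)
    exact mul_nonneg (by have := Wt_im_neg (U := U) hγ hζ T c y; linarith) (sq_nonneg _)
  rw [Wt_im_abs _ c hT, neg_neg] at h1
  have h2 : (Gr A (Wt γ U ζ T c) o o).im ≤ ‖Gr A (Wt γ U ζ T c) o o‖ :=
    (le_abs_self _).trans (Complex.abs_im_le_norm _)
  change ‖Gr A (Wt γ U ζ T c) o o‖ ≤ 1 / γ
  set g := ‖Gr A (Wt γ U ζ T c) o o‖ with hg
  have hg0 : 0 ≤ g := norm_nonneg _
  rw [le_div_iff₀ hγ]
  by_contra hcon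
  push Not at hcon
  have hgpos : 0 < g := by
    rcases hg0.eq_or_lt with h0 | h0
    · rw [← h0, zero_mul] at hcon; linarith only [hcon]
    · exact h0
  have h3 : γ * g ^ 2 ≤ g := by
    have : γ * g ^ 2 ≤ (γ + ζ.im) * g ^ 2 :=
      mul_le_mul_of_nonneg_right (by linarith) (sq_nonneg _)
    linarith
  have h4 : g * 1 < g * (g * γ) := mul_lt_mul_of_pos_left hcon hgpos
  linarith

theorem flux_le (h : Planar A ρ o) (hγ : 0 < γ) (hζ : 0 < ζ.im) (r : ℕ) (c : ι → ℝ) :
    flux A ρ o γ U ζ r c ≤ 1 / γ ^ 2 := by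
  have hb := flux_balance (U := U) h hγ hζ r c
  have hn := norm_root_le (U := U) h hγ hζ (inner ρ r) (root_notMem_inner h r) c
  have him : (GT A γ U ζ (inner ρ r) c o o).im ≤ ‖GT A γ U ζ (inner ρ r) c o o‖ :=
    (le_abs_self _).trans (Complex.abs_im_le_norm _)
  have hf := flux_nonneg (A := A) (ρ := ρ) (o := o) (γ := γ) (U := U) (ζ := ζ) r c
  have hs : 0 ≤ ∑ w ∈ inner ρ r, ‖GT A γ U ζ (inner ρ r) c o w‖ ^ 2 :=
    Finset.sum_nonneg fun _ _ => sq_nonneg _
  have h1 : γ * flux A ρ o γ U ζ r c ≤ 1 / γ := by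
    have a1 : 0 ≤ (γ + ζ.im) * ‖GT A γ U ζ (inner ρ r) c o o‖ ^ 2 := by (clear * - hγ hζ; positivity)
    have a2 : 0 ≤ ζ.im * ∑ w ∈ inner ρ r, ‖GT A γ U ζ (inner ρ r) c o w‖ ^ 2 :=
      mul_nonneg hζ.le hs
    have a3 : γ * flux A ρ o γ U ζ r c ≤ (γ + ζ.im) * flux A ρ o γ U ζ r c :=
      mul_le_mul_of_nonneg_right (by linarith only [hζ]) hf
    linarith
  rw [le_div_iff₀ (by positivity)]
  calc flux A ρ o γ U ζ r c * γ ^ 2 = (γ * flux A ρ o γ U ζ r c) * γ := by ring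
    _ ≤ (1 / γ) * γ := mul_le_mul_of_nonneg_right h1 hγ.le
    _ = 1 := by field_simp

end P365L
end

section

/-!
# P365L: the two-dimensional shell estimate in the mean.
-/

namespace P365L

open MeasureTheory ProbabilityTheory Complex
open scoped ENNReal NNReal Real

variable {ι : Type*} [Fintype ι] [DecidableEq ι]
variable {A : Matrix ι ι ℝ} {ρ : ι → ℕ} {o : ι} {γ : ℝ} {U : ι → ℝ} {ζ : ℂ}

/-! auxiliary facts -/

theorem s2_root_notMem (h : Planar A ρ o) (r : ℕ) : o ∉ inner ρ r := by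
  have := (h.root o).2 rfl
  simp only [inner, Finset.mem_filter, Finset.mem_univ, this, lt_self_iff_false, zero_le, and_true, and_false, not_false_eq_true]

theorem s2_union (ρ : ι → ℕ) (r : ℕ) : inner ρ r ∪ shell ρ (r + 1) = inner ρ (r + 1) := by
  ext x
  simp only [inner, shell, Finset.mem_union, Finset.mem_filter, Finset.mem_univ, true_and]
  omega

omit [DecidableEq ι] in
theorem s2_disj (ρ : ι → ℕ) (r : ℕ) : Disjoint (inner ρ r) (shell ρ (r + 1)) := by
  rw [Finset.disjoint_left]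
  intro x
  simp only [inner, shell, Finset.mem_filter, Finset.mem_univ, true_and]
  omega

theorem s2_int_pow (hA : A.IsSymm) (hγ : 0 < γ) (hζ : 0 < ζ.im) (T : Finset ι) (x y : ι)
    (n : ℕ) : Integrable (fun c => ‖GT A γ U ζ T c x y‖ ^ n) (mu ι) := by
  refine Integrable.of_bound ((measurable_GT T x y).norm.pow_const n).aestronglyMeasurable
    ((1 / ζ.im) ^ n) (Filter.Eventually.of_forall fun c => ?_)
  rw [Real.norm_of_nonneg (by positivity)]
  exact pow_le_pow_left₀ (norm_nonneg _) (norm_GT_le hA hγ hζ T c x y) n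

theorem s2_int (hA : A.IsSymm) (hγ : 0 < γ) (hζ : 0 < ζ.im) (T : Finset ι) (x y : ι) :
    Integrable (fun c => GT A γ U ζ T c x y) (mu ι) :=
  Integrable.of_bound (measurable_GT T x y).aestronglyMeasurable
    (1 / ζ.im) (Filter.Eventually.of_forall fun c => norm_GT_le hA hγ hζ T c x y)

theorem s2_int_im (hA : A.IsSymm) (hγ : 0 < γ) (hζ : 0 < ζ.im) (T : Finset ι) (x y : ι) :
    Integrable (fun c => (GT A γ U ζ T c x y).im) (mu ι) :=
  (s2_int hA hγ hζ T x y).im

theorem s2_meas_flux (r : ℕ) : Measurable fun c => flux A ρ o γ U ζ r c := by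
  unfold flux
  exact Finset.measurable_sum _ fun w _ => (measurable_GT _ o w).norm.pow_const 2

theorem s2_flux_nonneg (r : ℕ) (c : ι → ℝ) : 0 ≤ flux A ρ o γ U ζ r c :=
  Finset.sum_nonneg fun w _ => by positivity

theorem s2_int_flux_pow (h : Planar A ρ o) (hγ : 0 < γ) (hζ : 0 < ζ.im) (r n : ℕ) :
    Integrable (fun c => flux A ρ o γ U ζ r c ^ n) (mu ι) := by
  refine Integrable.of_bound ((s2_meas_flux r).pow_const n).aestronglyMeasurable
    ((1 / γ ^ 2) ^ n) (Filter.Eventually.of_forall fun c => ?_)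
  rw [Real.norm_of_nonneg (pow_nonneg (s2_flux_nonneg r c) n)]
  exact pow_le_pow_left₀ (s2_flux_nonneg r c) (flux_le h hγ hζ r c) n

theorem s2_int_flux (h : Planar A ρ o) (hγ : 0 < γ) (hζ : 0 < ζ.im) (r : ℕ) :
    Integrable (fun c => flux A ρ o γ U ζ r c) (mu ι) := by
  simpa only [pow_one] using s2_int_flux_pow (U := U) h hγ hζ r 1

theorem s2_root_sq_le (h : Planar A ρ o) (hγ : 0 < γ) (hζ : 0 < ζ.im) (T : Finset ι)
    (hT : o ∉ T) : ∫ c, ‖GT A γ U ζ T c o o‖ ^ 2 ∂(mu ι) ≤ 1 / γ ^ 2 := by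
  calc ∫ c, ‖GT A γ U ζ T c o o‖ ^ 2 ∂(mu ι) ≤ ∫ _c, (1 / γ ^ 2 : ℝ) ∂(mu ι) := by
        refine integral_mono (s2_int_pow h.symm hγ hζ T o o 2) (integrable_const _) fun c => ?_
        show ‖GT A γ U ζ T c o o‖ ^ 2 ≤ 1 / γ ^ 2
        calc ‖GT A γ U ζ T c o o‖ ^ 2 ≤ (1 / γ) ^ 2 :=
              pow_le_pow_left₀ (norm_nonneg _) (norm_root_le h hγ hζ T hT c) 2
          _ = 1 / γ ^ 2 := by rw [div_pow, one_pow]
    _ = 1 / γ ^ 2 := by simp

theorem s2_step (h : Planar A ρ o) (hγ : 0 < γ) (hζ : 0 < ζ.im) (r : ℕ) :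
    (∫ c, flux A ρ o γ U ζ r c ^ 2 ∂(mu ι)) / (4 * r + 6) ≤
      (1 + 16 / γ ^ 2) ^ 2 * (4 / γ ^ 2) *
        (∫ c, ‖GT A γ U ζ (inner ρ (r + 1)) c o o‖ ^ 2 ∂(mu ι) -
          ∫ c, ‖GT A γ U ζ (inner ρ r) c o o‖ ^ 2 ∂(mu ι)) := by
  have h1 : ∫ c, flux A ρ o γ U ζ r c ^ 2 ∂(mu ι) ≤ (1 + 16 / γ ^ 2) ^ 2 * (4 * r + 6) *
      ∑ w ∈ shell ρ (r + 1), ∫ c, ‖GT A γ U ζ (inner ρ r) c o w‖ ^ 4 ∂(mu ι) := by
    rw [← integral_finsetSum _ fun w _ => s2_int_pow h.symm hγ hζ _ o w 4, ← integral_const_mul]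
    refine integral_mono (s2_int_flux_pow h hγ hζ r 2) ?_ fun c => flux_sq_le h hγ hζ r c
    exact (integrable_finsetSum _ fun w _ => s2_int_pow h.symm hγ hζ _ o w 4).const_mul _
  have h2 := sq_union (U := U) h.symm hγ hζ (inner ρ r) (shell ρ (r + 1)) (s2_disj ρ r) o
  rw [s2_union] at h2
  have h3 : (0 : ℝ) < 4 * r + 6 := by (clear * -; positivity)
  rw [div_le_iff₀ h3]
  set S := ∑ w ∈ shell ρ (r + 1), ∫ c, ‖GT A γ U ζ (inner ρ r) c o w‖ ^ 4 ∂(mu ι) with hS
  have h4 : S ≤ (4 / γ ^ 2) * (∫ c, ‖GT A γ U ζ (inner ρ (r + 1)) c o o‖ ^ 2 ∂(mu ι) -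
          ∫ c, ‖GT A γ U ζ (inner ρ r) c o o‖ ^ 2 ∂(mu ι)) := by
    rw [div_mul_eq_mul_div, le_div_iff₀ (by positivity)]
    linarith only [h2]
  calc _ ≤ (1 + 16 / γ ^ 2) ^ 2 * (4 * r + 6) * S := h1
    _ ≤ (1 + 16 / γ ^ 2) ^ 2 * (4 * r + 6) * ((4 / γ ^ 2) *
        (∫ c, ‖GT A γ U ζ (inner ρ (r + 1)) c o o‖ ^ 2 ∂(mu ι) -
          ∫ c, ‖GT A γ U ζ (inner ρ r) c o o‖ ^ 2 ∂(mu ι))) :=
        mul_le_mul_of_nonneg_left h4 (by (clear * - hγ; positivity))
    _ = _ := by ring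

/-- the total variance bound -/
theorem sum_flux_sq (h : Planar A ρ o) (hγ : 0 < γ) (hζ : 0 < ζ.im) (R : ℕ) :
    ∑ r ∈ Finset.range R, (∫ c, flux A ρ o γ U ζ r c ^ 2 ∂(mu ι)) / (4 * r + 6) ≤ C1 γ := by
  have h1 : ∑ r ∈ Finset.range R, (∫ c, flux A ρ o γ U ζ r c ^ 2 ∂(mu ι)) / (4 * r + 6) ≤
      (1 + 16 / γ ^ 2) ^ 2 * (4 / γ ^ 2) *
        (∫ c, ‖GT A γ U ζ (inner ρ R) c o o‖ ^ 2 ∂(mu ι) -
          ∫ c, ‖GT A γ U ζ (inner ρ 0) c o o‖ ^ 2 ∂(mu ι)) := by
    rw [← Finset.sum_range_sub (fun r => ∫ c, ‖GT A γ U ζ (inner ρ r) c o o‖ ^ 2 ∂(mu ι)),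
      Finset.mul_sum]
    exact Finset.sum_le_sum fun r _ => s2_step h hγ hζ r
  refine h1.trans ?_
  have h2 := s2_root_sq_le (U := U) h hγ hζ (inner ρ R) (s2_root_notMem h R)
  have h3 : 0 ≤ ∫ c, ‖GT A γ U ζ (inner ρ 0) c o o‖ ^ 2 ∂(mu ι) :=
    integral_nonneg fun c => by positivity
  calc _ ≤ (1 + 16 / γ ^ 2) ^ 2 * (4 / γ ^ 2) * (1 / γ ^ 2) :=
        mul_le_mul_of_nonneg_left (by linarith only [h2, h3]) (by positivity)
    _ = C1 γ := by
        unfold C1
        field_simp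

theorem s2_jensen (h : Planar A ρ o) (hγ : 0 < γ) (hζ : 0 < ζ.im) (r : ℕ) :
    (∫ c, flux A ρ o γ U ζ r c ∂(mu ι)) ^ 2 ≤ ∫ c, flux A ρ o γ U ζ r c ^ 2 ∂(mu ι) := by
  set m := ∫ c, flux A ρ o γ U ζ r c ∂(mu ι) with hm
  have h1 : 0 ≤ ∫ c, (flux A ρ o γ U ζ r c - m) ^ 2 ∂(mu ι) :=
    integral_nonneg fun c => by (clear * -; positivity)
  have i2 := s2_int_flux_pow (U := U) h hγ hζ r 2
  have i1 := s2_int_flux (U := U) h hγ hζ r
  have h2 : ∫ c, (flux A ρ o γ U ζ r c - m) ^ 2 ∂(mu ι) =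
      ∫ c, flux A ρ o γ U ζ r c ^ 2 ∂(mu ι) - m ^ 2 := by
    have e : (fun c => (flux A ρ o γ U ζ r c - m) ^ 2) = fun c =>
        (flux A ρ o γ U ζ r c ^ 2 - 2 * m * flux A ρ o γ U ζ r c) + m ^ 2 := by
      funext c; ring
    have i3 : Integrable (fun c => flux A ρ o γ U ζ r c ^ 2 - 2 * m * flux A ρ o γ U ζ r c)
        (mu ι) := i2.sub (i1.const_mul _)
    rw [e, integral_add i3 (integrable_const _),
      integral_sub i2 (i1.const_mul _), integral_const_mul, ← hm]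
    simp only [integral_const, probReal_univ, smul_eq_mul, one_mul]
    ring
  linarith

theorem exists_small_flux (h : Planar A ρ o) (hγ : 0 < γ) (hζ : 0 < ζ.im) {R : ℕ} (hR : 0 < R) :
    ∃ r < R, ∫ c, flux A ρ o γ U ζ r c ∂(mu ι) ≤ Real.sqrt (C1 γ / HH R) := by
  by_contra hcon
  push Not at hcon
  have hH : 0 < HH R := by
    unfold HH
    exact Finset.sum_pos (fun r _ => by (clear * -; positivity)) ⟨0, Finset.mem_range.2 hR⟩
  have hC : 0 ≤ C1 γ := by unfold C1; (clear * - hγ; positivity)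
  have h1 : ∑ r ∈ Finset.range R, (C1 γ / HH R) * (1 / (4 * r + 6)) <
      ∑ r ∈ Finset.range R, (∫ c, flux A ρ o γ U ζ r c ^ 2 ∂(mu ι)) / (4 * r + 6) := by
    refine Finset.sum_lt_sum_of_nonempty ⟨0, Finset.mem_range.2 hR⟩ fun r hr => ?_
    have h2 := hcon r (Finset.mem_range.1 hr)
    have h3 : C1 γ / HH R < (∫ c, flux A ρ o γ U ζ r c ∂(mu ι)) ^ 2 := by
      have h4 : Real.sqrt (C1 γ / HH R) ^ 2 = C1 γ / HH R := Real.sq_sqrt (by positivity)
      rw [← h4]
      exact pow_lt_pow_left₀ h2 (Real.sqrt_nonneg _) two_ne_zero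
    have h5 := s2_jensen (U := U) h hγ hζ r
    rw [div_eq_mul_one_div (∫ c, flux A ρ o γ U ζ r c ^ 2 ∂(mu ι))]
    exact mul_lt_mul_of_pos_right (h3.trans_le h5) (by (clear * -; positivity))
  have h6 := sum_flux_sq (U := U) h hγ hζ R
  rw [← Finset.mul_sum] at h1
  have h7 : ∑ r ∈ Finset.range R, (1 : ℝ) / (4 * r + 6) = HH R := rfl
  rw [h7, div_mul_cancel₀ _ hH.ne'] at h1
  linarith only [h1, h6]

/-- main finite volume estimate: with an absorber at the root only, the normalised flux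
`Im M/γ - |M|²` is small in the mean -/
theorem finite_volume (h : Planar A ρ o) (hγ : 0 < γ) (hζ : 0 < ζ.im) {R : ℕ} (hR : 0 < R) :
    ∫ c, ((GT A γ U ζ (Finset.univ.erase o) c o o).im / γ -
        ‖GT A γ U ζ (Finset.univ.erase o) c o o‖ ^ 2) ∂(mu ι) ≤
      Real.sqrt (C1 γ / HH R) + ζ.im / γ ^ 3 * ((4 * R + 2) * R + 2) := by
  obtain ⟨r, hrR, hr⟩ := exists_small_flux (U := U) h hγ hζ hR
  set T := inner ρ r with hT
  have hoT : o ∉ T := s2_root_notMem h r
  have hsub : T ⊆ Finset.univ.erase o := by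
    intro x hx
    refine Finset.mem_erase.2 ⟨?_, Finset.mem_univ x⟩
    rintro rfl
    exact hoT hx
  have hmean := mean_eq (U := U) h.symm hγ hζ T (Finset.univ.erase o) hsub o o
  have hmono := sq_union (U := U) h.symm hγ hζ T (Finset.univ.erase o \ T)
    Finset.disjoint_sdiff o
  rw [Finset.union_sdiff_of_subset hsub] at hmono
  have hnn : 0 ≤ (γ ^ 2 / 4) * ∑ x ∈ Finset.univ.erase o \ T,
      ∫ c, ‖GT A γ U ζ T c o x‖ ^ 4 ∂(mu ι) := by
    refine mul_nonneg (by positivity) (Finset.sum_nonneg fun x _ => integral_nonneg fun c => ?_)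
    (clear * -; positivity)
  have him : ∀ T' : Finset ι, ∫ c, (GT A γ U ζ T' c o o).im ∂(mu ι) =
      (∫ c, GT A γ U ζ T' c o o ∂(mu ι)).im := fun T' =>
    integral_im (s2_int h.symm hγ hζ T' o o)
  have e1 : ∀ T' : Finset ι, ∫ c, ((GT A γ U ζ T' c o o).im / γ -
        ‖GT A γ U ζ T' c o o‖ ^ 2) ∂(mu ι) = (∫ c, (GT A γ U ζ T' c o o).im ∂(mu ι)) / γ -
        ∫ c, ‖GT A γ U ζ T' c o o‖ ^ 2 ∂(mu ι) := fun T' => by
    rw [integral_sub ((s2_int_im h.symm hγ hζ T' o o).div_const γ)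
      (s2_int_pow h.symm hγ hζ T' o o 2), integral_div]
  have hbal : ∫ c, (GT A γ U ζ T c o o).im ∂(mu ι) =
      (γ + ζ.im) * ∫ c, ‖GT A γ U ζ T c o o‖ ^ 2 ∂(mu ι) +
        (γ + ζ.im) * ∫ c, flux A ρ o γ U ζ r c ∂(mu ι) +
        ζ.im * ∑ w ∈ T, ∫ c, ‖GT A γ U ζ T c o w‖ ^ 2 ∂(mu ι) := by
    have i1 := (s2_int_pow (U := U) h.symm hγ hζ T o o 2).const_mul (γ + ζ.im)
    have i2 := (s2_int_flux (U := U) h hγ hζ r).const_mul (γ + ζ.im)
    have i3 := (integrable_finsetSum T fun w _ =>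
      s2_int_pow (U := U) h.symm hγ hζ T o w 2).const_mul ζ.im
    have i12 : Integrable (fun c => (γ + ζ.im) * ‖GT A γ U ζ T c o o‖ ^ 2 +
        (γ + ζ.im) * flux A ρ o γ U ζ r c) (mu ι) := i1.add i2
    rw [← integral_finsetSum _ fun w _ => s2_int_pow h.symm hγ hζ _ o w 2,
      ← integral_const_mul, ← integral_const_mul, ← integral_const_mul, ← integral_add i1 i2,
      ← integral_add i12 i3]
    exact integral_congr_ae (Filter.Eventually.of_forall fun c => flux_balance h hγ hζ r c)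
  have hroot := s2_root_sq_le (U := U) h hγ hζ T hoT
  have hfl : ∫ c, flux A ρ o γ U ζ r c ∂(mu ι) ≤ 1 / γ ^ 2 := by
    calc ∫ c, flux A ρ o γ U ζ r c ∂(mu ι) ≤ ∫ _c, (1 / γ ^ 2 : ℝ) ∂(mu ι) :=
          integral_mono (s2_int_flux h hγ hζ r) (integrable_const _) fun c => flux_le h hγ hζ r c
      _ = 1 / γ ^ 2 := by simp
  have hin : ∑ w ∈ T, ∫ c, ‖GT A γ U ζ T c o w‖ ^ 2 ∂(mu ι) ≤ ((4 * R + 2) * R) * (1 / γ ^ 2) := by
    have h1 : ∑ w ∈ T, ∫ c, ‖GT A γ U ζ T c o w‖ ^ 2 ∂(mu ι) ≤ ∑ _w ∈ T, (1 / γ ^ 2 : ℝ) :=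
      Finset.sum_le_sum fun w hw => inner_second_moment h.symm hγ hζ T hoT hw
    rw [Finset.sum_const, nsmul_eq_mul] at h1
    refine h1.trans (mul_le_mul_of_nonneg_right ?_ (by positivity))
    have h2 : (T.card : ℝ) ≤ ((4 * r + 2) * r : ℕ) := by exact_mod_cast card_inner_le h r
    have h3 : (((4 * r + 2) * r : ℕ) : ℝ) ≤ ((4 * R + 2) * R : ℕ) := by
      exact_mod_cast Nat.mul_le_mul (by omega) hrR.le
    have h4 := h2.trans h3
    push_cast at h4
    exact h4
  rw [e1, him, ← hmean, ← him, hbal]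
  set a := ∫ c, ‖GT A γ U ζ T c o o‖ ^ 2 ∂(mu ι) with ha
  set b := ∫ c, ‖GT A γ U ζ (Finset.univ.erase o) c o o‖ ^ 2 ∂(mu ι) with hb
  set f := ∫ c, flux A ρ o γ U ζ r c ∂(mu ι) with hf
  set s := ∑ w ∈ T, ∫ c, ‖GT A γ U ζ T c o w‖ ^ 2 ∂(mu ι) with hs
  have hab : a ≤ b := by linarith only [hnn, hmono]
  have key : ((γ + ζ.im) * a + (γ + ζ.im) * f + ζ.im * s) / γ - a =
      f + ζ.im / γ * (a + f + s) := by
    field_simp
    ring
  have hsum : a + f + s ≤ 1 / γ ^ 2 * ((4 * R + 2) * R + 2) := by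
    have : 1 / γ ^ 2 * ((4 * R + 2) * R + 2) = 1 / γ ^ 2 + 1 / γ ^ 2 +
        ((4 * R + 2) * R) * (1 / γ ^ 2) := by ring
    rw [this]
    linarith only [hroot, hfl, hin]
  have hmul : ζ.im / γ * (a + f + s) ≤ ζ.im / γ * (1 / γ ^ 2 * ((4 * R + 2) * R + 2)) :=
    mul_le_mul_of_nonneg_left hsum (by positivity)
  have hfin : ζ.im / γ * (1 / γ ^ 2 * ((4 * R + 2) * R + 2)) =
      ζ.im / γ ^ 3 * ((4 * R + 2) * R + 2) := by
    field_simp
  rw [← hfin]
  linarith only [hnn, hmono, hr, key, hmul]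

end P365L
end

section

/-!
# P365L: from the absorber at the root to a real potential at the root.
-/

namespace P365L

open MeasureTheory ProbabilityTheory Complex
open scoped ENNReal NNReal Real

/-- `M - M² tz = M / D` -/
theorem update_eq {γ : ℝ} (hγ : 0 < γ) {M : ℂ} (hM : γ * ‖M‖ ^ 2 < M.im) (t : ℝ) :
    M - M * M * tz γ M t = M / (1 + γ * ((t : ℂ) + I) * M) := by
  have h := den_ne_zero hγ hM t
  unfold tz
  rw [eq_div_iff h, sub_mul, mul_assoc (M * M), div_mul_cancel₀ _ h]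
  ring

theorem root_ne_zero {γ : ℝ} {M : ℂ} (hM : γ * ‖M‖ ^ 2 < M.im) : M ≠ 0 := by
  rintro rfl
  simp at hM

theorem im_update_eq {γ : ℝ} (hγ : 0 < γ) {M : ℂ} (hM : γ * ‖M‖ ^ 2 < M.im) (t : ℝ) :
    (M - M * M * tz γ M t).im =
      (M.im - γ * ‖M‖ ^ 2) * (‖(1 + γ * ((t : ℂ) + I) * M)⁻¹‖) ^ 2 := by
  have h := den_ne_zero hγ hM t
  rw [update_eq hγ hM t, norm_inv, ← Complex.normSq_eq_norm_sq, inv_pow,
    ← Complex.normSq_eq_norm_sq, Complex.div_im]
  have hD : Complex.normSq (1 + γ * ((t : ℂ) + I) * M) ≠ 0 := by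
    simpa only [ne_eq, map_eq_zero] using h
  field_simp
  simp only [Complex.normSq_apply, Complex.add_re, Complex.add_im, Complex.mul_re, Complex.mul_im,
    Complex.one_re, Complex.one_im, Complex.ofReal_re, Complex.ofReal_im, Complex.I_re,
    Complex.I_im]
  ring

theorem im_update_nonneg {γ : ℝ} (hγ : 0 < γ) {M : ℂ} (hM : γ * ‖M‖ ^ 2 < M.im) (t : ℝ) :
    0 ≤ (M - M * M * tz γ M t).im := by
  rw [im_update_eq hγ hM t]
  have : 0 ≤ M.im - γ * ‖M‖ ^ 2 := by linarith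
  positivity

theorem norm_inv_den_le {γ : ℝ} (hγ : 0 < γ) {M : ℂ} (hM : γ * ‖M‖ ^ 2 < M.im) (t : ℝ) :
    ‖(1 + γ * ((t : ℂ) + I) * M)⁻¹‖ ≤ 1 + γ * (1 + |t|) * ‖M - M * M * tz γ M t‖ := by
  have h := den_ne_zero hγ hM t
  have h1 : (1 + γ * ((t : ℂ) + I) * M)⁻¹ =
      1 - γ * ((t : ℂ) + I) * (M - M * M * tz γ M t) := by
    rw [update_eq hγ hM t]
    field_simp
    ring
  rw [h1]
  refine (norm_sub_le _ _).trans ?_
  rw [norm_one, norm_mul, norm_mul, Complex.norm_real, Real.norm_eq_abs, abs_of_pos hγ]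
  have h2 : ‖(t : ℂ) + I‖ ≤ 1 + |t| := by
    refine (norm_add_le _ _).trans ?_
    rw [Complex.norm_real, Complex.norm_I, Real.norm_eq_abs]
    linarith only []
  gcongr

/-- algebra: `G = M/(1+γ(t+i)M)` -/
theorem im_update_le {γ : ℝ} (hγ : 0 < γ) {M : ℂ} (hM : γ * ‖M‖ ^ 2 < M.im) (t : ℝ) :
    (M - M * M * tz γ M t).im ≤
      γ * (M.im / γ - ‖M‖ ^ 2) * (1 + γ * (1 + |t|) * ‖M - M * M * tz γ M t‖) ^ 2 := by
  have h1 : γ * (M.im / γ - ‖M‖ ^ 2) = M.im - γ * ‖M‖ ^ 2 := by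
    field_simp
  rw [h1, im_update_eq hγ hM t]
  have h2 : 0 ≤ M.im - γ * ‖M‖ ^ 2 := by linarith only [hM]
  have h3 := norm_inv_den_le hγ hM t
  rw [← im_update_eq hγ hM t]
  rw [im_update_eq hγ hM t]
  gcongr

/-- small ball estimate -/
theorem small_ball {γ : ℝ} (hγ : 0 < γ) {M : ℂ} (hM : γ * ‖M‖ ^ 2 < M.im) {K : ℝ} (hK : 0 < K) :
    nu {t | K < ‖M - M * M * tz γ M t‖} ≤ ENNReal.ofReal (2 / (γ * K)) := by
  have hsub : {t | K < ‖M - M * M * tz γ M t‖} ⊆
      Set.Icc ((-(M⁻¹).re - 1 / K) / γ) ((-(M⁻¹).re + 1 / K) / γ) := by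
    intro t ht
    have ht' : K < ‖M - M * M * tz γ M t‖ := ht
    have h := den_ne_zero hγ hM t
    have hM0 := root_ne_zero hM
    have h1 : (M - M * M * tz γ M t)⁻¹ = M⁻¹ + γ * ((t : ℂ) + I) := by
      rw [update_eq hγ hM t]
      field_simp
    have h2 : ‖M⁻¹ + γ * ((t : ℂ) + I)‖ < 1 / K := by
      rw [← h1, norm_inv, one_div]
      exact inv_strictAnti₀ hK ht'
    have h3 : |(M⁻¹ + γ * ((t : ℂ) + I)).re| < 1 / K := lt_of_le_of_lt (Complex.abs_re_le_norm _) h2
    have h4 : (M⁻¹ + γ * ((t : ℂ) + I)).re = (M⁻¹).re + γ * t := by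
      simp
    rw [h4, abs_lt] at h3
    constructor
    · rw [div_le_iff₀ hγ]
      linarith
    · rw [le_div_iff₀ hγ]
      nlinarith only [h3]
  refine (measure_mono hsub).trans ?_
  refine (nu_Icc_le _ _ ?_).trans ?_
  · have : 0 < 1 / K := by positivity
    gcongr
    linarith only [this]
  · apply ENNReal.ofReal_le_ofReal
    rw [← sub_div]
    apply le_of_eq
    field_simp
    ring

theorem measurable_update {γ : ℝ} (M : ℂ) : Measurable fun t => M - M * M * tz γ M t :=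
  measurable_const.sub (measurable_const.mul (measurable_tz γ M))

theorem tail_one {γ : ℝ} (hγ : 0 < γ) {ε : ℝ} (hε : 0 < ε) : ∃ C : ℝ, 0 < C ∧
    ∀ M : ℂ, γ * ‖M‖ ^ 2 < M.im →
      ∫ t, min ((M - M * M * tz γ M t).im) 1 ∂nu ≤ ε + C * (M.im / γ - ‖M‖ ^ 2) := by
  obtain ⟨T, hT, hTν⟩ := nu_tail (ε / 2) (by positivity)
  set K : ℝ := 4 / (γ * ε) with hKdef
  have hK : 0 < K := by positivity
  refine ⟨γ * (1 + γ * (1 + T) * K) ^ 2, by positivity, ?_⟩
  intro M hM
  set δ : ℝ := M.im / γ - ‖M‖ ^ 2 with hδdef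
  have hδ : 0 < δ := by
    rw [hδdef, sub_pos, lt_div_iff₀ hγ]
    linarith only [hM]
  set C : ℝ := γ * (1 + γ * (1 + T) * K) ^ 2 with hCdef
  have hC : 0 < C := by positivity
  set B : Set ℝ := {t | K < ‖M - M * M * tz γ M t‖} ∪ {t | T < |t|} with hB
  have hBm : MeasurableSet B := by
    refine MeasurableSet.union ?_ ?_
    · exact measurableSet_lt measurable_const (measurable_update M).norm
    · exact measurableSet_lt measurable_const measurable_id.norm
  have hBν : nu B ≤ ENNReal.ofReal ε := by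
    refine (measure_union_le _ _).trans ?_
    have h1 := small_ball hγ hM hK
    have h2 : 2 / (γ * K) = ε / 2 := by
      rw [hKdef]
      field_simp
      norm_num
    rw [h2] at h1
    refine (add_le_add h1 hTν).trans ?_
    rw [← ENNReal.ofReal_add (by positivity) (by positivity)]
    apply ENNReal.ofReal_le_ofReal
    linarith only []
  have hpt : ∀ t, min ((M - M * M * tz γ M t).im) 1 ≤ B.indicator (fun _ => (1 : ℝ)) t + C * δ := by
    intro t
    by_cases ht : t ∈ B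
    · rw [Set.indicator_of_mem ht]
      have : 0 ≤ C * δ := by positivity
      exact (min_le_right _ _).trans (by linarith only [this])
    · rw [Set.indicator_of_notMem ht, zero_add]
      refine (min_le_left _ _).trans ?_
      have ht1 : ‖M - M * M * tz γ M t‖ ≤ K := by
        by_contra hc
        exact ht (Or.inl (lt_of_not_ge hc))
      have ht2 : |t| ≤ T := by
        by_contra hc
        exact ht (Or.inr (lt_of_not_ge hc))
      refine (im_update_le hγ hM t).trans ?_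
      rw [hCdef]
      have h5 : 0 ≤ δ := hδ.le
      calc γ * δ * (1 + γ * (1 + |t|) * ‖M - M * M * tz γ M t‖) ^ 2
          ≤ γ * δ * (1 + γ * (1 + T) * K) ^ 2 := by (clear * - hγ ht2 ht1 hT hδ; gcongr)
        _ = γ * (1 + γ * (1 + T) * K) ^ 2 * δ := by ring
  have hint : Integrable (fun t => B.indicator (fun _ => (1 : ℝ)) t + C * δ) nu :=
    ((integrable_const (1 : ℝ)).indicator hBm).add (integrable_const _)
  have hmono : ∫ t, min ((M - M * M * tz γ M t).im) 1 ∂nu ≤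
      ∫ t, (B.indicator (fun _ => (1 : ℝ)) t + C * δ) ∂nu := by
    refine integral_mono_of_nonneg (Filter.Eventually.of_forall fun t => ?_) hint
      (Filter.Eventually.of_forall hpt)
    exact le_min (im_update_nonneg hγ hM t) zero_le_one
  refine hmono.trans ?_
  rw [integral_add ((integrable_const (1 : ℝ)).indicator hBm) (integrable_const _),
    integral_indicator hBm, integral_const, integral_const]
  have h6 : nu.real B ≤ ε := ENNReal.toReal_le_of_le_ofReal hε.le hBν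
  simp only [smul_eq_mul, mul_one, measureReal_restrict_apply_univ, probReal_univ, one_mul]
  linarith only [h6]

section
variable {ι : Type} [Fintype ι] [DecidableEq ι] {A : Matrix ι ι ℝ} {γ : ℝ} {U : ι → ℝ} {ζ : ℂ}

theorem integrable_GT_min (hA : A.IsSymm) (hγ : 0 < γ) (hζ : 0 < ζ.im) (T : Finset ι) (x : ι) :
    Integrable (fun c => min ((GT A γ U ζ T c x x).im) 1) (mu ι) := by
  have hm : Measurable fun c => min ((GT A γ U ζ T c x x).im) 1 :=
    (Complex.measurable_im.comp (measurable_GT T x x)).min measurable_const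
  refine Integrable.of_bound hm.aestronglyMeasurable (1 / ζ.im + 1)
    (Filter.Eventually.of_forall fun c => ?_)
  have h1 : |(GT A γ U ζ T c x x).im| ≤ 1 / ζ.im :=
    (Complex.abs_im_le_norm _).trans (norm_GT_le hA hγ hζ T c x x)
  have h0 : 0 < 1 / ζ.im := by positivity
  rw [Real.norm_eq_abs, abs_le]
  rw [abs_le] at h1
  constructor
  · refine le_min ?_ ?_
    · linarith only [h1]
    · linarith only [h0]
  · exact (min_le_right _ _).trans (by linarith only [h0])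

theorem integrable_GT_flux (hA : A.IsSymm) (hγ : 0 < γ) (hζ : 0 < ζ.im) (T : Finset ι) (x : ι) :
    Integrable (fun c => (GT A γ U ζ T c x x).im / γ - ‖GT A γ U ζ T c x x‖ ^ 2) (mu ι) := by
  have hg := measurable_GT (A := A) (γ := γ) (U := U) (ζ := ζ) T x x
  have hm : Measurable fun c => (GT A γ U ζ T c x x).im / γ - ‖GT A γ U ζ T c x x‖ ^ 2 :=
    ((Complex.measurable_im.comp hg).div_const γ).sub (hg.norm.pow_const 2)
  refine Integrable.of_bound hm.aestronglyMeasurable ((1 / ζ.im) / γ + (1 / ζ.im) ^ 2)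
    (Filter.Eventually.of_forall fun c => ?_)
  have h0 := norm_GT_le (U := U) hA hγ hζ T c x x
  have h1 : |(GT A γ U ζ T c x x).im| ≤ 1 / ζ.im := (Complex.abs_im_le_norm _).trans h0
  refine (norm_sub_le _ _).trans ?_
  rw [Real.norm_eq_abs, abs_div, abs_of_pos hγ, norm_pow, norm_norm]
  gcongr

end

theorem tail_bound {γ : ℝ} (hγ : 0 < γ) {ε : ℝ} (hε : 0 < ε) : ∃ C : ℝ, 0 < C ∧
    ∀ {ι : Type} [Fintype ι] [DecidableEq ι] (A : Matrix ι ι ℝ) (ρ : ι → ℕ) (o : ι),
      Planar A ρ o → ∀ (U : ι → ℝ) (ζ : ℂ), 0 < ζ.im →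
      ∫ c, min ((GT A γ U ζ Finset.univ c o o).im) 1 ∂(mu ι) ≤
        ε + C * ∫ c, ((GT A γ U ζ (Finset.univ.erase o) c o o).im / γ -
          ‖GT A γ U ζ (Finset.univ.erase o) c o o‖ ^ 2) ∂(mu ι) := by
  obtain ⟨C, hC, hmain⟩ := tail_one hγ hε
  refine ⟨C, hC, ?_⟩
  intro ι _ _ A ρ o h U ζ hζ
  have hA := h.symm
  have ho : o ∉ Finset.univ.erase o := Finset.notMem_erase o _
  have hins : insert o (Finset.univ.erase o) = (Finset.univ : Finset ι) :=
    Finset.insert_erase (Finset.mem_univ o)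
  have hkey : ∀ (c : ι → ℝ) (t : ℝ), GT A γ U ζ Finset.univ (Function.update c o t) o o =
      GT A γ U ζ (Finset.univ.erase o) c o o - GT A γ U ζ (Finset.univ.erase o) c o o *
        GT A γ U ζ (Finset.univ.erase o) c o o * tz γ (GT A γ U ζ (Finset.univ.erase o) c o o) t := by
    intro c t
    have := GT_insert (U := U) hA hγ hζ (Finset.univ.erase o) c ho t o o
    rwa [hins] at this
  rw [integral_resample o _ (integrable_GT_min hA hγ hζ Finset.univ o)]
  have hi := integrable_GT_flux (U := U) hA hγ hζ (Finset.univ.erase o) o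
  have h1 : ∀ c : ι → ℝ, ∫ t, min ((GT A γ U ζ Finset.univ (Function.update c o t) o o).im) 1 ∂nu ≤
      ε + C * ((GT A γ U ζ (Finset.univ.erase o) c o o).im / γ -
          ‖GT A γ U ζ (Finset.univ.erase o) c o o‖ ^ 2) := by
    intro c
    simp only [hkey]
    exact hmain _ (GT_diag hA hγ hζ _ c ho)
  have h2 : ∫ c, ∫ t, min ((GT A γ U ζ Finset.univ (Function.update c o t) o o).im) 1 ∂nu ∂(mu ι) ≤
      ∫ c, (ε + C * ((GT A γ U ζ (Finset.univ.erase o) c o o).im / γ -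
          ‖GT A γ U ζ (Finset.univ.erase o) c o o‖ ^ 2)) ∂(mu ι) := by
    refine integral_mono_of_nonneg (Filter.Eventually.of_forall fun c => ?_)
      ((integrable_const _).add (hi.const_mul C)) (Filter.Eventually.of_forall h1)
    refine integral_nonneg fun t => ?_
    simp only [hkey]
    exact le_min (im_update_nonneg hγ (GT_diag hA hγ hζ _ c ho) t) zero_le_one
  refine h2.trans ?_
  rw [integral_add (integrable_const _) (hi.const_mul C), integral_const, integral_const_mul]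
  simp only [probReal_univ, smul_eq_mul, one_mul, Std.le_refl]

/-- uniform smallness of the (truncated) local density of states in every planar finite volume -/
theorem uniform_small {γ : ℝ} (hγ : 0 < γ) {ε : ℝ} (hε : 0 < ε) : ∃ η₀ : ℝ, 0 < η₀ ∧
    ∀ {ι : Type} [Fintype ι] [DecidableEq ι] (A : Matrix ι ι ℝ) (ρ : ι → ℕ) (o : ι),
      Planar A ρ o → ∀ (U : ι → ℝ) (ζ : ℂ), 0 < ζ.im → ζ.im ≤ η₀ →
      ∫ c, min ((GT A γ U ζ Finset.univ c o o).im) 1 ∂(mu ι) ≤ ε := by
  obtain ⟨C, hC, hmain⟩ := tail_bound hγ (ε := ε / 2) (by positivity)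
  -- choose `R`
  have hlim : Filter.Tendsto (fun R => Real.sqrt (C1 γ / HH R)) Filter.atTop (nhds 0) := by
    have h1 : Filter.Tendsto (fun R => C1 γ / HH R) Filter.atTop (nhds 0) :=
      tendsto_HH.const_div_atTop _
    have h2 := h1.sqrt
    simpa only [Real.sqrt_zero] using h2
  have hev : ∀ᶠ R in Filter.atTop, Real.sqrt (C1 γ / HH R) < ε / (4 * C) :=
    hlim.eventually (gt_mem_nhds (by positivity))
  obtain ⟨R, hR1, hR2⟩ := (hev.and (Filter.eventually_gt_atTop 0)).exists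
  refine ⟨ε / (4 * C) * γ ^ 3 / ((4 * R + 2) * R + 2), by positivity, ?_⟩
  intro ι _ _ A ρ o h U ζ hζ hζ2
  refine (hmain A ρ o h U ζ hζ).trans ?_
  have hfv := finite_volume (U := U) h hγ hζ hR2
  have h3 : ζ.im / γ ^ 3 * ((4 * R + 2) * R + 2) ≤ ε / (4 * C) := by
    have hpos : (0 : ℝ) < (4 * R + 2) * R + 2 := by positivity
    rw [le_div_iff₀ hpos] at hζ2
    rw [div_mul_eq_mul_div, div_le_iff₀ (by positivity)]
    exact hζ2
  have h4 : C * ∫ c, ((GT A γ U ζ (Finset.univ.erase o) c o o).im / γ -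
          ‖GT A γ U ζ (Finset.univ.erase o) c o o‖ ^ 2) ∂(mu ι) ≤
      C * (ε / (4 * C) + ε / (4 * C)) := by
    gcongr
    exact hfv.trans (add_le_add hR1.le h3)
  have h5 : C * (ε / (4 * C) + ε / (4 * C)) = ε / 2 := by
    field_simp
    norm_num
  linarith only [h4, h5]

end P365L
end

section

/-!
# P365L: resolvents of `H_V` on `ℓ²(ℤ²)` and finite volume approximation.
-/

namespace P365L

open MeasureTheory Complex Filter Topology
open scoped ENNReal InnerProductSpace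

/-- the ℓ¹ ball -/
noncomputable def Lam (L : ℕ) : Finset Site :=
  ((Finset.Icc (-(L : ℤ)) L) ×ˢ (Finset.Icc (-(L : ℤ)) L)).filter
    fun p => p.1.natAbs + p.2.natAbs ≤ L

theorem mem_Lam (L : ℕ) (p : Site) : p ∈ Lam L ↔ p.1.natAbs + p.2.natAbs ≤ L := by
  simp only [Lam, Finset.mem_filter, Finset.mem_product, Finset.mem_Icc]
  constructor
  · exact fun h => h.2
  · intro h
    refine ⟨⟨⟨?_, ?_⟩, ⟨?_, ?_⟩⟩, h⟩ <;> omega

/-- adjacency of the square lattice -/
noncomputable def adj (p q : Site) : ℝ := if (p.1 - q.1).natAbs + (p.2 - q.2).natAbs = 1 then 1 else 0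

/-- adjacency matrix in the box -/
noncomputable def AL (L : ℕ) : Matrix (Lam L) (Lam L) ℝ := fun p q => adj p q

theorem AL_symm (L : ℕ) : (AL L).IsSymm := by
  ext p q
  simp only [Matrix.transpose_apply, AL, adj]
  have h1 : ((q : Site).1 - (p : Site).1).natAbs = ((p : Site).1 - (q : Site).1).natAbs := by
    omega
  have h2 : ((q : Site).2 - (p : Site).2).natAbs = ((p : Site).2 - (q : Site).2).natAbs := by
    omega
  rw [h1, h2]

/-- the root of the box -/
noncomputable def oL (L : ℕ) : Lam L := ⟨(0, 0), by rw [mem_Lam]; simp⟩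

/-- unit vector -/
noncomputable def dl (x : Site) : L2 := lp.single 2 x (1 : ℂ)

/-- potential shifted to the point `x` -/
def shift (x : Site) (V : Site → ℝ) : Site → ℝ := fun y => V (x + y)

/-- finite volume Green matrix with the real potential `V` -/
noncomputable def GV (L : ℕ) (V : Site → ℝ) (z : ℂ) : Matrix (Lam L) (Lam L) ℂ :=
  Gr (AL L) fun x => (V x : ℂ) - z

variable {V : Site → ℝ} {z : ℂ}

theorem L2_summable_sq (u : L2) : Summable fun x : Site => ‖u x‖ ^ 2 := by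
  have h := (lp.hasSum_inner (𝕜 := ℂ) u u).summable.norm
  refine h.congr fun x => ?_
  rw [inner_self_eq_norm_sq_to_K]
  simp only [coe_algebraMap, norm_pow, norm_real, norm_norm]

theorem L2_hasSum_sq (u : L2) : HasSum (fun x : Site => ‖u x‖ ^ 2) (‖u‖ ^ 2) := by
  have h := Complex.hasSum_re (lp.hasSum_inner (𝕜 := ℂ) u u)
  have h2 : (⟪u, u⟫_ℂ).re = ‖u‖ ^ 2 := by
    rw [inner_self_eq_norm_sq_to_K]
    norm_cast
  rw [h2] at h
  have h3 : (fun x : Site => ‖u x‖ ^ 2) = fun x => (⟪u x, u x⟫_ℂ).re := by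
    funext x
    rw [inner_self_eq_norm_sq_to_K]
    norm_cast
  rw [h3]
  exact h

/-- the correlation of `u` with its translate -/
theorem L2_summable_corr (u : L2) (e : Site) :
    Summable fun x : Site => (starRingEnd ℂ) (u (x + e)) * u x := by
  have h1 := L2_summable_sq u
  have h2 : Summable fun x : Site => ‖u (x + e)‖ ^ 2 :=
    (Equiv.addRight e).summable_iff.mpr h1
  refine Summable.of_norm_bounded (h2.add h1) fun x => ?_
  rw [norm_mul, RCLike.norm_conj]
  nlinarith only []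

theorem L2_corr_neg (u : L2) (e : Site) :
    ∑' x : Site, (starRingEnd ℂ) (u (x + -e)) * u x =
      (starRingEnd ℂ) (∑' x : Site, (starRingEnd ℂ) (u (x + e)) * u x) := by
  rw [Complex.conj_tsum]
  rw [← (Equiv.addRight e).tsum_eq (fun x : Site => (starRingEnd ℂ) (u (x + -e)) * u x)]
  refine tsum_congr fun x => ?_
  simp only [Equiv.coe_addRight, add_neg_cancel_right, mul_comm, map_mul, RingHomCompTriple.comp_apply, RingHom.id_apply]

theorem L2_hop_real (u : L2) :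
    Summable (fun x : Site => (starRingEnd ℂ) (hop (fun y => u y) x) * u x) ∧
      (∑' x : Site, (starRingEnd ℂ) (hop (fun y => u y) x) * u x).im = 0 := by
  have key : (fun x : Site => (starRingEnd ℂ) (hop (fun y => u y) x) * u x) =
      fun x : Site => ((starRingEnd ℂ) (u (x + (1, 0))) * u x +
        (starRingEnd ℂ) (u (x + -(1, 0))) * u x) +
        ((starRingEnd ℂ) (u (x + (0, 1))) * u x + (starRingEnd ℂ) (u (x + -(0, 1))) * u x) := by
    funext x
    obtain ⟨a, b⟩ := x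
    simp only [hop, map_add, Prod.mk_add_mk, add_zero, Prod.neg_mk, neg_zero, ← sub_eq_add_neg]
    ring
  have s1 := L2_summable_corr u (1, 0)
  have s2 := L2_summable_corr u (-(1, 0))
  have s3 := L2_summable_corr u (0, 1)
  have s4 := L2_summable_corr u (-(0, 1))
  rw [key]
  refine ⟨(s1.add s2).add (s3.add s4), ?_⟩
  rw [(s1.add s2).tsum_add (s3.add s4), s1.tsum_add s2, s3.tsum_add s4, L2_corr_neg, L2_corr_neg]
  simp only [add_im, conj_im, add_neg_cancel, add_zero]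

theorem resolvent_energy (hz : 0 < z.im) {ψ u : L2} (hu : IsResolvent V z ψ u) :
    (⟪ψ, u⟫_ℂ).im = z.im * ‖u‖ ^ 2 := by
  have h1 := lp.hasSum_inner (𝕜 := ℂ) ψ u
  obtain ⟨hs, h0⟩ := L2_hop_real u
  have h2 := h1.sub hs.hasSum
  have h3 := Complex.hasSum_im h2
  rw [Complex.sub_im, h0, sub_zero] at h3
  have h4 := (L2_hasSum_sq u).mul_left z.im
  refine h3.unique ?_
  have h5 : (fun x : Site => (⟪ψ x, u x⟫_ℂ - (starRingEnd ℂ) (hop (fun y => u y) x) * u x).im) =
      fun x => z.im * ‖u x‖ ^ 2 := by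
    funext x
    have h6 : ⟪ψ x, u x⟫_ℂ - (starRingEnd ℂ) (hop (fun y => u y) x) * u x =
        ((V x : ℂ) - (starRingEnd ℂ) z) * ((‖u x‖ ^ 2 : ℝ) : ℂ) := by
      rw [← hu x, RCLike.inner_apply]
      have h7 : (starRingEnd ℂ) (u x) * u x = ((‖u x‖ ^ 2 : ℝ) : ℂ) := by
        rw [mul_comm, Complex.mul_conj, Complex.normSq_eq_norm_sq]
      rw [← h7]
      simp only [map_add, map_mul, map_sub, Complex.conj_ofReal]
      ring
    rw [h6, Complex.im_mul_ofReal]
    simp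
  rw [h5]
  exact h4

theorem resolvent_unique (hz : 0 < z.im) {ψ u v : L2} (hu : IsResolvent V z ψ u)
    (hv : IsResolvent V z ψ v) : u = v := by
  have h : IsResolvent V z 0 (u - v) := by
    intro x
    have h1 := hu x
    have h2 := hv x
    simp only [hop, lp.coeFn_sub, Pi.sub_apply, lp.coeFn_zero, Pi.zero_apply] at *
    linear_combination h1 - h2
  have h1 := resolvent_energy hz h
  rw [inner_zero_left, Complex.zero_im] at h1
  have h2 : ‖u - v‖ ^ 2 = 0 := by
    rcases mul_eq_zero.mp h1.symm with h3 | h3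
    · exact absurd h3 hz.ne'
    · exact h3
  exact sub_eq_zero.mp (norm_eq_zero.mp (pow_eq_zero_iff two_ne_zero |>.mp h2))

theorem resolvent_norm_le (hz : 0 < z.im) {ψ u : L2} (hu : IsResolvent V z ψ u) :
    ‖u‖ ≤ ‖ψ‖ / z.im := by
  have h1 := resolvent_energy hz hu
  have h2 : z.im * ‖u‖ ^ 2 ≤ ‖ψ‖ * ‖u‖ := by
    rw [← h1]
    exact (Complex.abs_im_le_norm _ |> (le_abs_self _).trans).trans (norm_inner_le_norm ψ u)
  rw [le_div_iff₀ hz]
  rcases (norm_nonneg u).eq_or_lt with h3 | h3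
  · rw [← h3, zero_mul]
    exact norm_nonneg ψ
  · have h4 : (‖u‖ * z.im) * ‖u‖ ≤ ‖ψ‖ * ‖u‖ := by linarith
    exact le_of_mul_le_mul_right h4 h3

end P365L
end

section

/-!
# P365L: existence of resolvents and finite volume approximation.
-/

namespace P365L

open MeasureTheory Complex Filter Topology
open scoped ENNReal InnerProductSpace

variable {V : Site → ℝ} {z : ℂ}

/-- the four neighbours of a site -/
def nb (x : Site) : Finset Site :=
  {(x.1 + 1, x.2), (x.1 - 1, x.2), (x.1, x.2 + 1), (x.1, x.2 - 1)}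

theorem mem_nb {x y : Site} : y ∈ nb x ↔ (x.1 - y.1).natAbs + (x.2 - y.2).natAbs = 1 := by
  simp only [nb, Finset.mem_insert, Finset.mem_singleton, Prod.ext_iff]
  omega

theorem hop_eq (u : Site → ℂ) (x : Site) : hop u x = ∑ y ∈ nb x, u y := by
  unfold hop nb
  rw [Finset.sum_insert, Finset.sum_insert, Finset.sum_insert, Finset.sum_singleton]
  · ring
  all_goals
    simp only [Finset.mem_insert, Finset.mem_singleton, Prod.ext_iff]
    omega

/-- extension by zero -/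
noncomputable def ex {L : ℕ} (f : Lam L → ℂ) (x : Site) : ℂ := if h : x ∈ Lam L then f ⟨x, h⟩ else 0

theorem ex_coe {L : ℕ} (f : Lam L → ℂ) (x : Lam L) : ex f x = f x := by
  unfold ex
  rw [dif_pos x.2]

theorem ex_out {L : ℕ} (f : Lam L → ℂ) {x : Site} (h : x ∉ Lam L) : ex f x = 0 := by
  unfold ex
  rw [dif_neg h]

theorem sum_adj {L : ℕ} (f : Lam L → ℂ) (x : Site) :
    ∑ y : Lam L, ((adj x y : ℝ) : ℂ) * f y = hop (ex f) x := by
  have h1 : ∑ y : Lam L, ((adj x y : ℝ) : ℂ) * f y =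
      ∑ y ∈ Lam L, ((adj x y : ℝ) : ℂ) * ex f y := by
    rw [← Finset.sum_coe_sort (Lam L) fun y => ((adj x y : ℝ) : ℂ) * ex f y]
    exact Finset.sum_congr rfl fun y _ => by rw [ex_coe]
  have h2 : ∀ y ∈ Lam L, ((adj x y : ℝ) : ℂ) * ex f y = if y ∈ nb x then ex f y else 0 := by
    intro y _
    unfold adj
    by_cases h : y ∈ nb x
    · rw [if_pos h, if_pos (mem_nb.1 h)]
      simp
    · rw [if_neg h, if_neg fun h' => h (mem_nb.2 h')]
      simp
  rw [h1, Finset.sum_congr rfl h2, ← Finset.sum_filter, hop_eq]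
  refine Finset.sum_subset ?_ ?_
  · intro y hy
    exact (Finset.mem_filter.1 hy).2
  · intro y hy hy'
    refine ex_out f fun h => hy' (Finset.mem_filter.2 ⟨h, hy⟩)

section finite

variable {ι : Type*} [Fintype ι] [DecidableEq ι] {A : Matrix ι ι ℝ} {W : ι → ℂ}

theorem Kmat_mulVec_R (u : ι → ℂ) (x : ι) :
    (Kmat A W).mulVec u x = (∑ y, (A x y : ℂ) * u y) + W x * u x := by
  unfold Kmat
  rw [Matrix.add_mulVec, Pi.add_apply, Matrix.mulVec_diagonal]
  rfl

/-- norm bound for the solutions of the finite system -/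
theorem solve_le (hA : A.IsSymm) {η : ℝ} (hη : 0 < η) (hW : ∀ x, (W x).im ≤ -η) {u b : ι → ℂ}
    (h : (Kmat A W).mulVec u = b) : ∑ x, ‖u x‖ ^ 2 ≤ 1 / η ^ 2 * ∑ x, ‖b x‖ ^ 2 := by
  have h0 := im_quadratic (W := W) hA u
  rw [h] at h0
  set S := ∑ x, ‖u x‖ ^ 2 with hS
  set B := ∑ x, ‖b x‖ ^ 2 with hB
  have hS0 : 0 ≤ S := Finset.sum_nonneg fun x _ => by (clear * -; positivity)
  have hB0 : 0 ≤ B := Finset.sum_nonneg fun x _ => by (clear * -; positivity)
  have h1 : ∑ x, (W x).im * ‖u x‖ ^ 2 ≤ -η * S := by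
    rw [hS, Finset.mul_sum]
    exact Finset.sum_le_sum fun x _ => mul_le_mul_of_nonneg_right (hW x) (by (clear * -; positivity))
  have h2 : η * S ≤ ∑ x, ‖u x‖ * ‖b x‖ := by
    have h3 : η * S ≤ -(∑ x, (starRingEnd ℂ) (u x) * b x).im := by linarith only [h0, h1]
    refine h3.trans ((neg_le_abs _).trans ((Complex.abs_im_le_norm _).trans
      ((norm_sum_le _ _).trans (le_of_eq ?_))))
    exact Finset.sum_congr rfl fun x _ => by rw [norm_mul, RCLike.norm_conj]
  have h4 : (∑ x, ‖u x‖ * ‖b x‖) ^ 2 ≤ S * B := Finset.sum_mul_sq_le_sq_mul_sq _ _ _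
  have h5 : (η * S) ^ 2 ≤ S * B :=
    (pow_le_pow_left₀ (by (clear * - hη; positivity)) h2 2).trans h4
  rcases hS0.eq_or_lt with h6 | h6
  · rw [← h6]
    (clear * - hη; positivity)
  · have h7 : η ^ 2 * S ≤ B := by
      refine le_of_mul_le_mul_left ?_ h6
      calc S * (η ^ 2 * S) = (η * S) ^ 2 := by ring
        _ ≤ S * B := h5
    rw [one_div, ← div_eq_inv_mul, le_div_iff₀ (by positivity)]
    linarith only [h7]

end finite

theorem im_pot (V : Site → ℝ) (z : ℂ) (x : Site) : ((V x : ℂ) - z).im = -z.im := by simp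

/-- the finite volume solution -/
theorem GV_solve (L : ℕ) (V : Site → ℝ) (hz : 0 < z.im) (b : Lam L → ℂ) :
    (Kmat (AL L) fun x => (V x : ℂ) - z).mulVec ((GV L V z).mulVec b) = b := by
  have h := det_ne_zero (AL_symm L) (W := fun x : Lam L => (V x : ℂ) - z) (fun x => by
    rw [im_pot]
    linarith)
  rw [Matrix.mulVec_mulVec]
  unfold GV Gr
  rw [Matrix.mul_nonsing_inv _ (isUnit_iff_ne_zero.2 h), Matrix.one_mulVec]

theorem GV_inj (L : ℕ) (V : Site → ℝ) (hz : 0 < z.im) (u : Lam L → ℂ) :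
    (GV L V z).mulVec ((Kmat (AL L) fun x => (V x : ℂ) - z).mulVec u) = u := by
  have h := det_ne_zero (AL_symm L) (W := fun x : Lam L => (V x : ℂ) - z) (fun x => by
    rw [im_pot]
    linarith only [hz])
  rw [Matrix.mulVec_mulVec]
  unfold GV Gr
  rw [Matrix.nonsing_inv_mul _ (isUnit_iff_ne_zero.2 h), Matrix.one_mulVec]

theorem summable_sq (u : L2) : Summable fun x : Site => ‖u x‖ ^ 2 := by
  have h := (lp.memℓp u).summable (by simp)
  simpa only [ENNReal.toReal_ofNat, Real.rpow_ofNat] using h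

theorem sum_sq_le (u : L2) (F : Finset Site) : ∑ x ∈ F, ‖u x‖ ^ 2 ≤ ‖u‖ ^ 2 := by
  have h := lp.sum_rpow_le_norm_rpow (by simp) u F
  simpa only [ge_iff_le, ENNReal.toReal_ofNat, Real.rpow_ofNat] using h

theorem norm_sq_L2 (u : L2) : ‖u‖ ^ 2 = ∑' x : Site, ‖u x‖ ^ 2 := by
  have h := lp.norm_rpow_eq_tsum (by simp) u
  simpa only [ENNReal.toReal_ofNat, Real.rpow_ofNat] using h

theorem resolvent_exists (V : Site → ℝ) (hz : 0 < z.im) (ψ : L2) :
    ∃ u : L2, IsResolvent V z ψ u := by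
  classical
  set C : ℝ := 1 / z.im ^ 2 * ‖ψ‖ ^ 2 with hC
  have hC0 : 0 ≤ C := by positivity
  let g : ∀ L : ℕ, Lam L → ℂ := fun L => (GV L V z).mulVec fun y => ψ y
  let U : ℕ → Site → ℂ := fun L => ex (g L)
  have hg : ∀ L, ∑ x, ‖g L x‖ ^ 2 ≤ C := by
    intro L
    refine (solve_le (AL_symm L) hz (fun x => (im_pot V z x).le) (GV_solve L V hz _)).trans ?_
    refine mul_le_mul_of_nonneg_left ?_ (by positivity)
    rw [Finset.sum_coe_sort (Lam L) fun y => ‖ψ y‖ ^ 2]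
    exact sum_sq_le ψ _
  have hU : ∀ L (F : Finset Site), ∑ x ∈ F, ‖U L x‖ ^ 2 ≤ C := by
    intro L F
    refine le_trans ?_ (hg L)
    have h1 : ∑ x, ‖g L x‖ ^ 2 = ∑ x ∈ Lam L, ‖U L x‖ ^ 2 := by
      rw [← Finset.sum_coe_sort (Lam L) fun y => ‖U L y‖ ^ 2]
      exact Finset.sum_congr rfl fun y _ => by simp only [U]; rw [ex_coe]
    rw [h1, ← Finset.sum_filter_add_sum_filter_not F (fun x => x ∈ Lam L)]
    have h2 : ∑ x ∈ F.filter (fun x => x ∉ Lam L), ‖U L x‖ ^ 2 = 0 := by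
      refine Finset.sum_eq_zero fun x hx => ?_
      simp only [U]
      rw [ex_out _ (Finset.mem_filter.1 hx).2]
      simp
    rw [h2, add_zero]
    exact Finset.sum_le_sum_of_subset_of_nonneg (fun x hx => (Finset.mem_filter.1 hx).2)
      fun _ _ _ => by (clear * -; positivity)
  have hU1 : ∀ L x, U L x ∈ Metric.closedBall (0 : ℂ) (Real.sqrt C) := by
    intro L x
    rw [mem_closedBall_zero_iff]
    have h := hU L {x}
    rw [Finset.sum_singleton] at h
    exact Real.le_sqrt_of_sq_le h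
  have hlim : ∀ x, ∃ a : ℂ, Tendsto (fun L => U L x) (hyperfilter ℕ : Filter ℕ) (𝓝 a) := by
    intro x
    obtain ⟨a, -, ha⟩ := (isCompact_closedBall (0 : ℂ) (Real.sqrt C)).ultrafilter_le_nhds'
      ((hyperfilter ℕ).map fun L => U L x) (by
        rw [Ultrafilter.mem_map]
        exact Filter.Eventually.of_forall fun L => hU1 L x)
    exact ⟨a, ha⟩
  choose u hu using hlim
  have hsum : ∀ F : Finset Site, ∑ x ∈ F, ‖u x‖ ^ 2 ≤ C := by
    intro F
    have h1 : Tendsto (fun L => ∑ x ∈ F, ‖U L x‖ ^ 2) (hyperfilter ℕ : Filter ℕ)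
        (𝓝 (∑ x ∈ F, ‖u x‖ ^ 2)) := tendsto_finsetSum _ fun x _ => ((hu x).norm.pow 2)
    exact le_of_tendsto h1 (Filter.Eventually.of_forall fun L => hU L F)
  have hmem : Memℓp u 2 := by
    refine memℓp_gen ?_
    have h1 : Summable fun x : Site => ‖u x‖ ^ 2 :=
      summable_of_sum_le (fun x => by (clear * -; positivity)) hsum
    simpa using h1
  refine ⟨⟨u, hmem⟩, fun x => ?_⟩
  have h1 : Tendsto (fun L => hop (U L) x + ((V x : ℂ) - z) * U L x) (hyperfilter ℕ : Filter ℕ)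
      (𝓝 (hop u x + ((V x : ℂ) - z) * u x)) := by
    refine Tendsto.add ?_ ((hu x).const_mul _)
    exact (((hu _).add (hu _)).add (hu _)).add (hu _)
  have h2 : ∀ᶠ L in (hyperfilter ℕ : Filter ℕ),
      hop (U L) x + ((V x : ℂ) - z) * U L x = ψ x := by
    have h3 : ∀ᶠ L in (hyperfilter ℕ : Filter ℕ), x.1.natAbs + x.2.natAbs ≤ L :=
      (Nat.hyperfilter_le_atTop) (eventually_ge_atTop _)
    filter_upwards [h3] with L hL
    have hx : x ∈ Lam L := (mem_Lam L x).2 hL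
    have h4 := congrFun (GV_solve L V hz fun y => ψ y) ⟨x, hx⟩
    rw [Kmat_mulVec_R] at h4
    have h5 := sum_adj (g L) x
    have h6 : U L x = g L ⟨x, hx⟩ := ex_coe (g L) ⟨x, hx⟩
    rw [h6]
    simp only [U]
    rw [← h5]
    exact h4
  have h3 : Tendsto (fun L => hop (U L) x + ((V x : ℂ) - z) * U L x) (hyperfilter ℕ : Filter ℕ)
      (𝓝 (ψ x)) := tendsto_const_nhds.congr' (h2.mono fun L h => h.symm)
  exact tendsto_nhds_unique h1 h3

theorem Lam_tendsto : Tendsto Lam atTop atTop := by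
  refine tendsto_atTop_finset_of_monotone ?_ ?_
  · intro L K hLK x hx
    rw [mem_Lam] at hx ⊢
    exact hx.trans hLK
  · intro x
    exact ⟨x.1.natAbs + x.2.natAbs, (mem_Lam _ _).2 le_rfl⟩

theorem norm_hop_sq (w : Site → ℂ) (y : Site) :
    ‖hop w y‖ ^ 2 ≤ 4 * (‖w (y.1 + 1, y.2)‖ ^ 2 + ‖w (y.1 - 1, y.2)‖ ^ 2 +
      ‖w (y.1, y.2 + 1)‖ ^ 2 + ‖w (y.1, y.2 - 1)‖ ^ 2) := by
  unfold hop
  generalize w (y.1 + 1, y.2) = a
  generalize w (y.1 - 1, y.2) = b
  generalize w (y.1, y.2 + 1) = c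
  generalize w (y.1, y.2 - 1) = d
  have h1 : ‖a + b + c + d‖ ≤ ‖a‖ + ‖b‖ + ‖c‖ + ‖d‖ :=
    (norm_add_le _ _).trans (add_le_add_left ((norm_add_le _ _).trans
      (add_le_add_left (norm_add_le _ _) _)) _)
  have h2 := pow_le_pow_left₀ (norm_nonneg _) h1 2
  refine h2.trans ?_
  nlinarith only [sq_nonneg (‖a‖ - ‖d‖), sq_nonneg (‖b‖ - ‖c‖), sq_nonneg (‖b‖ - ‖d‖), sq_nonneg (‖c‖ - ‖d‖)]

theorem sum_hop_sq {w : Site → ℂ} {T : ℝ} (hT : ∀ F : Finset Site, ∑ y ∈ F, ‖w y‖ ^ 2 ≤ T)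
    (F : Finset Site) : ∑ y ∈ F, ‖hop w y‖ ^ 2 ≤ 16 * T := by
  have key : ∀ e : Site → Site, Function.Injective e → ∑ y ∈ F, ‖w (e y)‖ ^ 2 ≤ T := by
    intro e he
    have h := hT (F.map ⟨e, he⟩)
    rw [Finset.sum_map] at h
    exact h
  have h1 := key (fun y => (y.1 + 1, y.2)) fun a b h => by
    simp only [Prod.mk.injEq] at h
    exact Prod.ext (by omega) h.2
  have h2 := key (fun y => (y.1 - 1, y.2)) fun a b h => by
    simp only [Prod.mk.injEq] at h
    exact Prod.ext (by omega) h.2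
  have h3 := key (fun y => (y.1, y.2 + 1)) fun a b h => by
    simp only [Prod.mk.injEq] at h
    exact Prod.ext h.1 (by omega)
  have h4 := key (fun y => (y.1, y.2 - 1)) fun a b h => by
    simp only [Prod.mk.injEq] at h
    exact Prod.ext h.1 (by omega)
  refine (Finset.sum_le_sum fun y _ => norm_hop_sq w y).trans ?_
  rw [← Finset.mul_sum, Finset.sum_add_distrib, Finset.sum_add_distrib, Finset.sum_add_distrib]
  linarith

theorem dl_apply (x y : Site) : (dl x) y = if y = x then 1 else 0 := by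
  unfold dl
  by_cases h : y = x
  · subst h
    rw [if_pos rfl]
    simp
  · rw [if_neg h]
    simp [h]

/-- finite volume approximation of the diagonal Green function at a general point -/
theorem tendsto_GV (hz : 0 < z.im) (x : Site) {u : L2} (hu : IsResolvent V z (dl x) u) :
    Tendsto (fun L => GV L (shift x V) z (oL L) (oL L)) atTop (𝓝 (u x)) := by
  set v : Site → ℂ := fun y => u (x + y) with hv
  have heq : ∀ y, hop v y + ((shift x V y : ℂ) - z) * v y = if y = 0 then 1 else 0 := by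
    intro y
    have h1 := hu (x + y)
    rw [dl_apply] at h1
    have h2 : hop v y = hop (fun y => u y) (x + y) := by
      unfold hop
      simp only [hv]
      have e1 : x + (y.1 + 1, y.2) = ((x + y).1 + 1, (x + y).2) :=
        Prod.ext (by simp [add_assoc]) rfl
      have e2 : x + (y.1 - 1, y.2) = ((x + y).1 - 1, (x + y).2) :=
        Prod.ext (by simp only [Prod.fst_add, add_sub_assoc]) rfl
      have e3 : x + (y.1, y.2 + 1) = ((x + y).1, (x + y).2 + 1) :=
        Prod.ext rfl (by simp [add_assoc])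
      have e4 : x + (y.1, y.2 - 1) = ((x + y).1, (x + y).2 - 1) :=
        Prod.ext rfl (by simp only [Prod.snd_add, add_sub_assoc])
      rw [e1, e2, e3, e4]
    have h3 : (if x + y = x then (1 : ℂ) else 0) = if y = 0 then 1 else 0 := by
      by_cases h : y = 0 <;> simp [h]
    rw [h2, ← h3]
    exact h1
  have hsv : Summable fun y : Site => ‖v y‖ ^ 2 :=
    ((Equiv.addLeft x).summable_iff (f := fun y : Site => ‖u y‖ ^ 2)).2 (summable_sq u)
  set T : ℕ → ℝ := fun L => (∑' y, ‖v y‖ ^ 2) - ∑ y ∈ Lam L, ‖v y‖ ^ 2 with hT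
  have hT0 : Tendsto T atTop (𝓝 0) := by
    have h1 := (hsv.hasSum.comp Lam_tendsto).const_sub (∑' y, ‖v y‖ ^ 2)
    rw [sub_self] at h1
    exact h1
  set w : ℕ → Site → ℂ := fun L y => if y ∈ Lam L then 0 else v y with hw
  have hwT : ∀ L (F : Finset Site), ∑ y ∈ F, ‖w L y‖ ^ 2 ≤ T L := by
    intro L F
    have h1 : ∑ y ∈ F, ‖w L y‖ ^ 2 = ∑ y ∈ F.filter (fun y => y ∉ Lam L), ‖v y‖ ^ 2 := by
      rw [Finset.sum_filter]
      refine Finset.sum_congr rfl fun y _ => ?_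
      simp only [hw]
      by_cases h : y ∈ Lam L <;> simp [h]
    have h2 : Disjoint (F.filter (fun y => y ∉ Lam L)) (Lam L) :=
      Finset.disjoint_left.2 fun y hy => (Finset.mem_filter.1 hy).2
    have h3 := Finset.sum_union (f := fun y => ‖v y‖ ^ 2) h2
    have h4 := hsv.sum_le_tsum (F.filter (fun y => y ∉ Lam L) ∪ Lam L) fun y _ => by (clear * -; positivity)
    simp only [hT]
    rw [h1]
    linarith
  have hmain : ∀ L, ‖GV L (shift x V) z (oL L) (oL L) - u x‖ ^ 2 ≤ 1 / z.im ^ 2 * (16 * T L) := by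
    intro L
    set b : Lam L → ℂ := fun y => hop (w L) y with hb
    have h1 : (Kmat (AL L) fun y => (shift x V y : ℂ) - z).mulVec (fun y : Lam L => v y) =
        Pi.single (oL L) 1 - b := by
      funext y
      rw [Kmat_mulVec_R]
      have h2 : ∑ y' : Lam L, ((AL L y y' : ℝ) : ℂ) * v y' = hop (ex fun y : Lam L => v y) y :=
        sum_adj (fun y : Lam L => v y) y
      rw [h2, Pi.sub_apply]
      have h3 : hop (ex fun y : Lam L => v y) y = hop v y - b y := by
        have h4 : ∀ y', ex (fun y : Lam L => v y) y' = v y' - w L y' := by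
          intro y'
          unfold ex
          simp only [hw]
          by_cases h : y' ∈ Lam L <;> simp [h]
        simp only [hb]
        unfold hop
        rw [h4, h4, h4, h4]
        ring
      have h5 : (Pi.single (oL L) (1 : ℂ) : Lam L → ℂ) y = if (y : Site) = 0 then 1 else 0 := by
        by_cases h : (y : Site) = 0
        · have h' : y = oL L := Subtype.ext h
          rw [if_pos h, h', Pi.single_eq_same]
        · have h' : y ≠ oL L := fun h' => h (by rw [h']; rfl)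
          rw [if_neg h, Pi.single_eq_of_ne h']
      rw [h3, h5, ← heq y]
      ring
    have h2 := congrFun (GV_inj L (shift x V) hz fun y : Lam L => v y) (oL L)
    rw [h1, Matrix.mulVec_sub, Pi.sub_apply, Matrix.mulVec_single_one] at h2
    have h3 : v (oL L) = u x := by
      simp only [hv]
      have : x + (oL L : Site) = x := Prod.ext (by simp [oL]) (by simp [oL])
      rw [this]
    have h4 : GV L (shift x V) z (oL L) (oL L) - u x = (GV L (shift x V) z).mulVec b (oL L) := by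
      have h5 : GV L (shift x V) z (oL L) (oL L) - (GV L (shift x V) z).mulVec b (oL L) =
        v (oL L) := h2
      rw [← h3, ← h5]
      ring
    rw [h4]
    have h6 := solve_le (AL_symm L) hz (fun y => (im_pot (shift x V) z y).le)
      (GV_solve L (shift x V) hz b)
    have h7 : ‖(GV L (shift x V) z).mulVec b (oL L)‖ ^ 2 ≤
        ∑ y, ‖(GV L (shift x V) z).mulVec b y‖ ^ 2 :=
      Finset.single_le_sum (f := fun y => ‖(GV L (shift x V) z).mulVec b y‖ ^ 2)
        (fun y _ => by (clear * -; positivity)) (Finset.mem_univ (oL L))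
    have h8 : ∑ y, ‖b y‖ ^ 2 ≤ 16 * T L := by
      have h9 := sum_hop_sq (hwT L) (Lam L)
      rw [← Finset.sum_coe_sort (Lam L) fun y => ‖hop (w L) y‖ ^ 2] at h9
      exact h9
    have h10 : 1 / z.im ^ 2 * ∑ y, ‖b y‖ ^ 2 ≤ 1 / z.im ^ 2 * (16 * T L) :=
      mul_le_mul_of_nonneg_left h8 (by positivity)
    exact h7.trans (h6.trans h10)
  have h0 : Tendsto (fun L => ‖GV L (shift x V) z (oL L) (oL L) - u x‖ ^ 2) atTop (𝓝 0) := by
    refine squeeze_zero (fun L => by (clear * -; positivity)) hmain ?_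
    have := (hT0.const_mul 16).const_mul (1 / z.im ^ 2)
    simpa only [one_div, mul_zero] using this
  rw [tendsto_iff_norm_sub_tendsto_zero]
  have h1 := h0.sqrt
  simpa only [norm_nonneg, Real.sqrt_sq, Real.sqrt_zero] using h1

end P365L
end

section

/-!
# P365L: existence of spectral measures.
-/

set_option linter.all false

namespace P365L

open MeasureTheory Complex Filter Topology
open scoped ENNReal InnerProductSpace

namespace ExistAux

/-- finite dimensional spectral theorem, with a tail bound -/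
theorem fin_spec {E : Type*} [NormedAddCommGroup E] [InnerProductSpace ℂ E]
    [FiniteDimensional ℂ E] (T : E →ₗ[ℂ] E) (hT : T.IsSymmetric) (p : E) :
    ∃ μ : FiniteMeasure ℝ, (μ.mass : ℝ) = ‖p‖ ^ 2 ∧
      (∀ z : ℂ, 0 < z.im → ∃ u : E, T u - z • u = p ∧ ‖u‖ ≤ ‖p‖ / z.im ∧
        ⟪p, u⟫_ℂ = ∫ t : ℝ, ((t : ℂ) - z)⁻¹ ∂(μ : Measure ℝ)) ∧
      (∀ q : E, ∀ M : ℝ, 0 < M →
        (μ {t | M < |t|} : ℝ) ≤ 2 * ‖T q‖ ^ 2 / M ^ 2 + 2 * ‖p - q‖ ^ 2) := by
  classical
  set b := hT.eigenvectorBasis (n := Module.finrank ℂ E) rfl with hb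
  set lam := hT.eigenvalues (n := Module.finrank ℂ E) rfl with hlam
  have hTb : ∀ i, T (b i) = (lam i : ℂ) • b i := fun i => hT.apply_eigenvectorBasis rfl i
  set c : Fin (Module.finrank ℂ E) → ℝ := fun i => ‖⟪b i, p⟫_ℂ‖ ^ 2 with hc
  have hc0 : ∀ i, 0 ≤ c i := fun i => by positivity
  set μ : Measure ℝ := ∑ i, ENNReal.ofReal (c i) • Measure.dirac (lam i) with hμ
  have hfin : IsFiniteMeasure μ := by
    constructor
    rw [hμ, Measure.finsetSum_apply]
    exact ENNReal.sum_lt_top.2 fun i _ => by simp only [Measure.smul_apply, measure_univ, smul_eq_mul, mul_one, ENNReal.ofReal_lt_top]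
  have hset : ∀ s : Set ℝ, MeasurableSet s →
      (μ s).toReal = ∑ i, c i * (if lam i ∈ s then 1 else 0) := by
    intro s hs
    rw [hμ, Measure.finsetSum_apply, ENNReal.toReal_sum]
    · refine Finset.sum_congr rfl fun i _ => ?_
      rw [Measure.smul_apply, Measure.dirac_apply' _ hs, smul_eq_mul, ENNReal.toReal_mul,
        ENNReal.toReal_ofReal (hc0 i)]
      by_cases h : lam i ∈ s <;> simp [h]
    · intro i _
      rw [Measure.smul_apply, smul_eq_mul]
      exact ENNReal.mul_ne_top ENNReal.ofReal_ne_top (measure_ne_top _ _)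
  have hint : ∀ f : ℝ → ℂ, ∫ t, f t ∂μ = ∑ i, (c i : ℂ) * f (lam i) := by
    intro f
    rw [hμ, integral_finsetSum_measure]
    · refine Finset.sum_congr rfl fun i _ => ?_
      rw [integral_smul_measure, integral_dirac, ENNReal.toReal_ofReal (hc0 i)]
      simp
    · intro i _
      exact (integrable_dirac (by finiteness)).smul_measure ENNReal.ofReal_ne_top
  obtain ⟨ν, hν⟩ : ∃ ν : FiniteMeasure ℝ, (ν : Measure ℝ) = μ := ⟨⟨μ, hfin⟩, rfl⟩
  have hνs : ∀ s : Set ℝ, ((ν s : NNReal) : ℝ) = (μ s).toReal := by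
    intro s
    rw [← hν]
    rfl
  refine ⟨ν, ?_, ?_, ?_⟩
  · have h1 := hset Set.univ MeasurableSet.univ
    have h2 : (ν.mass : ℝ) = (μ Set.univ).toReal := hνs Set.univ
    rw [h2, h1]
    simp only [Set.mem_univ, if_true, mul_one, hc]
    exact b.sum_sq_norm_inner_right p
  · intro z hz
    have hne : ∀ i, ((lam i : ℂ) - z) ≠ 0 := by
      intro i h
      have := congrArg Complex.im h
      simp at this
      exact hz.ne' this
    set u : E := ∑ i, (⟪b i, p⟫_ℂ / ((lam i : ℂ) - z)) • b i with hu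
    have hTu : T u - z • u = p := by
      rw [hu, map_sum, Finset.smul_sum, ← Finset.sum_sub_distrib]
      conv_rhs => rw [← b.sum_repr' p]
      refine Finset.sum_congr rfl fun i _ => ?_
      rw [map_smul, hTb, smul_smul, smul_smul, ← sub_smul]
      congr 1
      have := hne i
      field_simp
    refine ⟨u, hTu, ?_, ?_⟩
    · have h1 : ⟪u, p⟫_ℂ = ⟪u, T u⟫_ℂ - z * ⟪u, u⟫_ℂ := by
        rw [← inner_smul_right, ← inner_sub_right, hTu]
      have h2 : (⟪u, T u⟫_ℂ).im = 0 := by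
        have h3 := hT u u
        have h4 : (starRingEnd ℂ) ⟪u, T u⟫_ℂ = ⟪u, T u⟫_ℂ := by
          rw [inner_conj_symm, h3]
        exact Complex.conj_eq_iff_im.1 h4
      have h5 : (⟪u, p⟫_ℂ).im = - (z.im * ‖u‖ ^ 2) := by
        rw [h1, Complex.sub_im, h2, inner_self_eq_norm_sq_to_K]
        have h9 : (((‖u‖ : ℝ) : ℂ) ^ 2) = ((‖u‖ ^ 2 : ℝ) : ℂ) := by push_cast; rfl
        have h10 : ((RCLike.ofReal ‖u‖ : ℂ) ^ 2) = ((‖u‖ ^ 2 : ℝ) : ℂ) := by
          rw [← h9]; rfl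
        rw [h10]
        simp only [Complex.mul_im, Complex.ofReal_im, Complex.ofReal_re]
        ring
      have h6 : z.im * ‖u‖ ^ 2 ≤ ‖u‖ * ‖p‖ := by
        have h7 := Complex.abs_im_le_norm ⟪u, p⟫_ℂ
        have h8 := norm_inner_le_norm (𝕜 := ℂ) u p
        rw [h5, abs_neg, abs_of_nonneg (by (clear * - hz; positivity))] at h7
        exact h7.trans h8
      rcases eq_or_lt_of_le (norm_nonneg u) with h0 | h0
      · rw [← h0]; (clear * - hz; positivity)
      · rw [le_div_iff₀ hz]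
        nlinarith only [h6, h0]
    · rw [hν, hint, hu, inner_sum]
      refine Finset.sum_congr rfl fun i _ => ?_
      rw [inner_smul_right, div_mul_eq_mul_div, div_eq_mul_inv]
      congr 1
      have : ⟪p, b i⟫_ℂ = (starRingEnd ℂ) ⟪b i, p⟫_ℂ := (inner_conj_symm _ _).symm
      rw [this, Complex.mul_conj, Complex.normSq_eq_norm_sq]
  · intro q M hM
    have hs : MeasurableSet {t : ℝ | M < |t|} := by
      exact measurableSet_lt measurable_const (measurable_id.abs)
    rw [hνs, hset _ hs]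
    have hq : ∀ i, ‖⟪b i, T q⟫_ℂ‖ ^ 2 = lam i ^ 2 * ‖⟪b i, q⟫_ℂ‖ ^ 2 := by
      intro i
      have := hT (b i) q
      rw [← this, hTb, inner_smul_left]
      simp [mul_pow]
    have h3 : ∑ i, ‖⟪b i, T q⟫_ℂ‖ ^ 2 = ‖T q‖ ^ 2 := b.sum_sq_norm_inner_right _
    have h4 : ∑ i, ‖⟪b i, p - q⟫_ℂ‖ ^ 2 = ‖p - q‖ ^ 2 := b.sum_sq_norm_inner_right _
    rw [← h3, ← h4, Finset.mul_sum, Finset.mul_sum, Finset.sum_div, ← Finset.sum_add_distrib]
    refine Finset.sum_le_sum fun i _ => ?_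
    have h5 : ‖⟪b i, p⟫_ℂ‖ ≤ ‖⟪b i, q⟫_ℂ‖ + ‖⟪b i, p - q⟫_ℂ‖ := by
      have : ⟪b i, p⟫_ℂ = ⟪b i, q⟫_ℂ + ⟪b i, p - q⟫_ℂ := by
        rw [← inner_add_right]; congr 1; abel
      rw [this]; exact norm_add_le _ _
    rw [hq]
    have hpos : 0 ≤ 2 * (lam i ^ 2 * ‖⟪b i, q⟫_ℂ‖ ^ 2) / M ^ 2 + 2 * ‖⟪b i, p - q⟫_ℂ‖ ^ 2 := by
      (clear * - hM; positivity)
    split_ifs with h
    · have h6 : M ^ 2 ≤ lam i ^ 2 := by
        have : M < |lam i| := h
        rw [← sq_abs (lam i)]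
        exact pow_le_pow_left₀ hM.le this.le 2
      have h7 : ‖⟪b i, q⟫_ℂ‖ ^ 2 ≤ (lam i ^ 2 * ‖⟪b i, q⟫_ℂ‖ ^ 2) / M ^ 2 := by
        rw [le_div_iff₀ (by positivity), mul_comm]
        exact mul_le_mul_of_nonneg_right h6 (by (clear * -; positivity))
      have h8 : c i ≤ 2 * ‖⟪b i, q⟫_ℂ‖ ^ 2 + 2 * ‖⟪b i, p - q⟫_ℂ‖ ^ 2 := by
        have h9 : c i ≤ (‖⟪b i, q⟫_ℂ‖ + ‖⟪b i, p - q⟫_ℂ‖) ^ 2 :=
          pow_le_pow_left₀ (norm_nonneg _) h5 2
        nlinarith only [h9, sq_nonneg (‖⟪b i, q⟫_ℂ‖ - ‖⟪b i, p - q⟫_ℂ‖)]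
      rw [mul_one]
      refine h8.trans ?_
      have : 2 * (lam i ^ 2 * ‖⟪b i, q⟫_ℂ‖ ^ 2) / M ^ 2
          = 2 * ((lam i ^ 2 * ‖⟪b i, q⟫_ℂ‖ ^ 2) / M ^ 2) := by ring
      rw [this]
      linarith only [h7]
    · rw [mul_zero]; exact hpos

/-- matrix of the Anderson operator -/
noncomputable def aM (V : Site → ℝ) (x y : Site) : ℂ :=
  (if y = (x.1 + 1, x.2) then 1 else 0) + (if y = (x.1 - 1, x.2) then 1 else 0)
  + (if y = (x.1, x.2 + 1) then 1 else 0) + (if y = (x.1, x.2 - 1) then 1 else 0)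
  + (if y = x then (V x : ℂ) else 0)

theorem aM_symm (V : Site → ℝ) (x y : Site) :
    (starRingEnd ℂ) (aM V y x) = aM V x y := by
  have h1 : (x = (y.1 + 1, y.2)) ↔ (y = (x.1 - 1, x.2)) := by
    rw [Prod.ext_iff, Prod.ext_iff]; constructor <;> rintro ⟨h, h'⟩ <;> constructor <;>
      simp only at * <;> omega
  have h2 : (x = (y.1 - 1, y.2)) ↔ (y = (x.1 + 1, x.2)) := by
    rw [Prod.ext_iff, Prod.ext_iff]; constructor <;> rintro ⟨h, h'⟩ <;> constructor <;>
      simp only at * <;> omega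
  have h3 : (x = (y.1, y.2 + 1)) ↔ (y = (x.1, x.2 - 1)) := by
    rw [Prod.ext_iff, Prod.ext_iff]; constructor <;> rintro ⟨h, h'⟩ <;> constructor <;>
      simp only at * <;> omega
  have h4 : (x = (y.1, y.2 - 1)) ↔ (y = (x.1, x.2 + 1)) := by
    rw [Prod.ext_iff, Prod.ext_iff]; constructor <;> rintro ⟨h, h'⟩ <;> constructor <;>
      simp only at * <;> omega
  unfold aM
  simp only [map_add, apply_ite (starRingEnd ℂ), map_one, map_zero, Complex.conj_ofReal]
  simp only [h1, h2, h3, h4]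
  by_cases h : x = y
  · subst h; simp only [if_true]; ring
  · have h' : ¬ (y = x) := fun h' => h h'.symm
    rw [if_neg h, if_neg h']
    ring

theorem sum_aM (V : Site → ℝ) (S : Finset Site) (F : Site → ℂ) (hF : ∀ y ∉ S, F y = 0)
    (x : Site) (hx : x ∈ S) :
    ∑ y ∈ S, aM V x y * F y = hop F x + V x * F x := by
  have key : ∀ (a : Site), ∑ y ∈ S, (if y = a then (1 : ℂ) else 0) * F y = F a := by
    intro a
    simp only [ite_mul, one_mul, zero_mul, Finset.sum_ite_eq']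
    split_ifs with h
    · rfl
    · exact (hF a h).symm
  unfold aM hop
  simp only [add_mul, Finset.sum_add_distrib, key]
  congr 1
  simp only [ite_mul, zero_mul, Finset.sum_ite_eq', hx, if_true]

theorem box_spec (V : Site → ℝ) (S : Finset Site) (P : Site → ℂ) :
    ∃ μ : FiniteMeasure ℝ, (μ.mass : ℝ) = ∑ x ∈ S, ‖P x‖ ^ 2 ∧
      (∀ z : ℂ, 0 < z.im → ∃ U : L2, (∀ y ∉ S, U y = 0) ∧
        (∀ x ∈ S, hop (fun y => U y) x + ((V x : ℂ) - z) * U x = P x) ∧
        ‖U‖ ≤ √(∑ x ∈ S, ‖P x‖ ^ 2) / z.im ∧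
        ∑ x ∈ S, (starRingEnd ℂ) (P x) * U x = ∫ t : ℝ, ((t : ℂ) - z)⁻¹ ∂(μ : Measure ℝ)) ∧
      (∀ Q : Site → ℂ, (∀ y ∉ S, Q y = 0) → ∀ M : ℝ, 0 < M →
        (μ {t | M < |t|} : ℝ) ≤ 2 * (∑ x ∈ S, ‖hop Q x + V x * Q x‖ ^ 2) / M ^ 2
          + 2 * ∑ x ∈ S, ‖P x - Q x‖ ^ 2) := by
  classical
  set A : Matrix S S ℂ := fun x y => aM V x y with hA
  have hAh : A.IsHermitian := by
    ext x y
    rw [Matrix.conjTranspose_apply]
    exact aM_symm V x y
  set T := Matrix.toEuclideanLin A with hTdef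
  have hT : T.IsSymmetric := Matrix.isSymmetric_toEuclideanLin_iff.2 hAh
  have hTapp : ∀ (F : Site → ℂ), (∀ y ∉ S, F y = 0) → ∀ x : S,
      (T (WithLp.toLp 2 (fun y : S => F y))) x = hop F x + V x * F x := by
    intro F hF x
    rw [← sum_aM V S F hF x x.2, ← Finset.sum_coe_sort]
    rfl
  have hnorm : ∀ (w : EuclideanSpace ℂ S), ‖w‖ ^ 2 = ∑ x : S, ‖w x‖ ^ 2 := fun w =>
    EuclideanSpace.norm_sq_eq w
  obtain ⟨μ, h1, h2, h3⟩ := fin_spec T hT (WithLp.toLp 2 (fun y : S => P y))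
  have hPn : ‖(WithLp.toLp 2 (fun y : S => P y) : EuclideanSpace ℂ S)‖ ^ 2
      = ∑ x ∈ S, ‖P x‖ ^ 2 := by
    rw [hnorm, ← Finset.sum_coe_sort S (fun x => ‖P x‖ ^ 2)]
  refine ⟨μ, ?_, ?_, ?_⟩
  · rw [h1, hPn]
  · intro z hz
    obtain ⟨u, hu1, hu2, hu3⟩ := h2 z hz
    set F : Site → ℂ := fun y => if h : y ∈ S then u ⟨y, h⟩ else 0 with hF
    have hF0 : ∀ y ∉ S, F y = 0 := fun y hy => by simp [hF, hy]
    have hFS : ∀ y : S, F y = u y := fun y => by simp [hF]
    have hFu : (WithLp.toLp 2 (fun y : S => F y) : EuclideanSpace ℂ S) = u := by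
      ext y
      exact hFS y
    set U : L2 := ∑ x ∈ S, lp.single 2 x (F x) with hU
    have hUF : ∀ y, U y = F y := by
      intro y
      rw [hU, lp.coeFn_sum, Finset.sum_apply]
      simp only [lp.coeFn_single]
      rw [Finset.sum_pi_single]
      split_ifs with h
      · rfl
      · exact (hF0 y h).symm
    refine ⟨U, fun y hy => by rw [hUF]; exact hF0 y hy, ?_, ?_, ?_⟩
    · intro x hx
      have h4 := congrArg (fun w : EuclideanSpace ℂ S => w ⟨x, hx⟩) hu1
      simp only at h4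
      rw [← hFu] at h4
      have h5 := hTapp F hF0 ⟨x, hx⟩
      have h6 : (fun y => U y) = F := funext hUF
      rw [h6, hUF]
      have h7 : (T (WithLp.toLp 2 (fun y : S => F y)) - z • (WithLp.toLp 2 (fun y : S => F y)
        : EuclideanSpace ℂ S)) ⟨x, hx⟩ = (T (WithLp.toLp 2 (fun y : S => F y))) ⟨x, hx⟩
          - z * F x := rfl
      rw [h7, h5] at h4
      linear_combination h4
    · have h4 : ‖U‖ ^ 2 = ‖u‖ ^ 2 := by
        have h5 := lp.norm_sum_single (p := 2) (E := fun _ : Site => ℂ) (by simp) F S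
        simp only [ENNReal.toReal_ofNat, Real.rpow_two] at h5
        rw [hU, h5, hnorm, ← Finset.sum_coe_sort]
        exact Finset.sum_congr rfl fun x _ => by rw [hFS]
      have h5 : ‖U‖ = ‖u‖ := by
        exact (pow_left_inj₀ (norm_nonneg _) (norm_nonneg _) two_ne_zero).1 h4
      rw [h5]
      refine hu2.trans ?_
      rw [← hPn, Real.sqrt_sq (norm_nonneg _)]
    · rw [← hu3, EuclideanSpace.inner_eq_star_dotProduct, ← Finset.sum_coe_sort]
      simp only [dotProduct]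
      refine Finset.sum_congr rfl fun x _ => ?_
      rw [hUF, hFS]
      simp only [Pi.star_apply]
      rw [mul_comm]
      rfl
  · intro Q hQ M hM
    refine (h3 (WithLp.toLp 2 (fun y : S => Q y)) M hM).trans (le_of_eq ?_)
    have e1 : ∑ x : S, ‖(T (WithLp.toLp 2 (fun y : S => Q y))) x‖ ^ 2
        = ∑ x ∈ S, ‖hop Q x + V x * Q x‖ ^ 2 := by
      rw [← Finset.sum_coe_sort S (fun x => ‖hop Q x + V x * Q x‖ ^ 2)]
      exact Finset.sum_congr rfl fun x _ => by rw [hTapp Q hQ x]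
    have e2 : ∑ x : S, ‖((WithLp.toLp 2 (fun y : S => P y) : EuclideanSpace ℂ S)
        - WithLp.toLp 2 (fun y : S => Q y)) x‖ ^ 2 = ∑ x ∈ S, ‖P x - Q x‖ ^ 2 := by
      rw [← Finset.sum_coe_sort S (fun x => ‖P x - Q x‖ ^ 2)]
      rfl
    rw [hnorm, hnorm, e1, e2]

theorem weak_lim (F : Ultrafilter ℕ) (W : ℕ → L2) (B : ℝ) (hW : ∀ L, ‖W L‖ ≤ B) :
    ∃ u : L2, ∀ φ : L2, Tendsto (fun L => ⟪φ, W L⟫_ℂ) F (𝓝 ⟪φ, u⟫_ℂ) := by
  set D : ℕ → WeakDual ℂ L2 := fun L =>
    StrongDual.toWeakDual (InnerProductSpace.toDual ℂ L2 (W L)) with hD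
  have hmem : ∀ L, D L ∈ WeakDual.toStrongDual ⁻¹'
      Metric.closedBall (0 : StrongDual ℂ L2) B := by
    intro L
    have : WeakDual.toStrongDual (D L) = InnerProductSpace.toDual ℂ L2 (W L) := rfl
    rw [Set.mem_preimage, this, mem_closedBall_zero_iff, LinearIsometryEquiv.norm_map]
    exact hW L
  obtain ⟨l, -, hl⟩ := (WeakDual.isCompact_closedBall (0 : StrongDual ℂ L2) B).ultrafilter_le_nhds'
    (F.map D) (Ultrafilter.mem_map.2 (Filter.univ_mem' hmem))
  have hl' : Tendsto D F (𝓝 l) := hl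
  refine ⟨(InnerProductSpace.toDual ℂ L2).symm (WeakDual.toStrongDual l), fun φ => ?_⟩
  have h1 : Tendsto (fun L => D L φ) F (𝓝 (l φ)) :=
    ((WeakDual.eval_continuous φ).tendsto l).comp hl'
  have h2 : ∀ L, (starRingEnd ℂ) (D L φ) = ⟪φ, W L⟫_ℂ := by
    intro L
    have : D L φ = ⟪W L, φ⟫_ℂ := rfl
    rw [this, inner_conj_symm]
  have h3 : (starRingEnd ℂ) (l φ)
      = ⟪φ, (InnerProductSpace.toDual ℂ L2).symm (WeakDual.toStrongDual l)⟫_ℂ := by
    rw [← inner_conj_symm, InnerProductSpace.toDual_symm_apply]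
    rfl
  rw [← h3]
  simp_rw [← h2]
  exact (Complex.continuous_conj.tendsto _).comp h1

/-- boxes -/
noncomputable def bx (L : ℕ) : Finset Site := Finset.Icc (-(L : ℤ)) L ×ˢ Finset.Icc (-(L : ℤ)) L

theorem mem_bx {L : ℕ} {x : Site} :
    x ∈ bx L ↔ (-(L : ℤ) ≤ x.1 ∧ x.1 ≤ L) ∧ (-(L : ℤ) ≤ x.2 ∧ x.2 ≤ L) := by
  unfold bx
  rw [Finset.mem_product, Finset.mem_Icc, Finset.mem_Icc]

theorem bx_mono : Monotone bx := by
  intro L L' h x hx
  rw [mem_bx] at hx ⊢
  have : (L : ℤ) ≤ L' := by exact_mod_cast h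
  omega

theorem exists_mem_bx (x : Site) : ∃ L, x ∈ bx L := by
  refine ⟨x.1.natAbs + x.2.natAbs, ?_⟩
  rw [mem_bx]
  simp only [Nat.cast_add]
  omega

theorem tendsto_bx : Tendsto bx atTop atTop :=
  tendsto_atTop_finset_of_monotone bx_mono exists_mem_bx

theorem hop_eq_zero {Q : Site → ℂ} {m : ℕ} (hQ : ∀ y ∉ bx m, Q y = 0) {x : Site}
    (hx : x ∉ bx (m + 1)) : hop Q x = 0 := by
  unfold hop
  rw [mem_bx] at hx
  push_cast at hx
  rw [hQ _ (by rw [mem_bx]; omega), hQ _ (by rw [mem_bx]; omega), hQ _ (by rw [mem_bx]; omega),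
    hQ _ (by rw [mem_bx]; omega)]
  ring

end ExistAux

open ExistAux in
/-- every real potential and every vector have a spectral measure, of mass `‖ψ‖²` -/
theorem exists_spectralMeasure (V : Site → ℝ) (ψ : L2) :
    ∃ μ : Measure ℝ, IsSpectralMeasure V ψ μ ∧ μ.real Set.univ = ‖ψ‖ ^ 2 := by
  classical
  choose μ hmass htr htight using fun L : ℕ => box_spec V (bx L) (fun x => ψ x)
  set a : ℕ → ℝ := fun m => ∑ x ∈ bx m, ‖ψ x‖ ^ 2 with ha
  have hhas : HasSum (fun x => ‖ψ x‖ ^ 2) (‖ψ‖ ^ 2) := by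
    have := lp.hasSum_norm (p := 2) (by simp) ψ
    simpa only [ENNReal.toReal_ofNat, Real.rpow_ofNat] using this
  have ha_tend : Tendsto a atTop (𝓝 (‖ψ‖ ^ 2)) := hhas.comp tendsto_bx
  have ha_le : ∀ m, a m ≤ ‖ψ‖ ^ 2 := fun m =>
    sum_le_hasSum _ (fun _ _ => by (clear * -; positivity)) hhas
  set Q : ℕ → Site → ℂ := fun m x => if x ∈ bx m then ψ x else 0 with hQdef
  have hQ0 : ∀ m, ∀ y ∉ bx m, Q m y = 0 := fun m y hy => by simp [hQdef, hy]
  set C : ℕ → ℝ := fun m => ∑ x ∈ bx (m + 1), ‖hop (Q m) x + V x * Q m x‖ ^ 2 with hC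
  have hC0 : ∀ m, 0 ≤ C m := fun m => Finset.sum_nonneg fun _ _ => by (clear * -; positivity)
  set C' : ℕ → ℝ := fun m => ∑ k ∈ Finset.range (m + 1), C k with hC'
  have hC'0 : ∀ m, 0 ≤ C' m := fun m => Finset.sum_nonneg fun _ _ => hC0 _
  have hCle : ∀ k L, ∑ x ∈ bx L, ‖hop (Q k) x + V x * Q k x‖ ^ 2 ≤ C k := by
    intro k L
    have h1 : ∑ x ∈ (bx L).filter (fun x => x ∈ bx (k + 1)), ‖hop (Q k) x + V x * Q k x‖ ^ 2
        = ∑ x ∈ bx L, ‖hop (Q k) x + V x * Q k x‖ ^ 2 := by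
      refine Finset.sum_filter_of_ne fun x _ hx => ?_
      by_contra hx'
      apply hx
      rw [hop_eq_zero (hQ0 k) hx', hQ0 k x (fun h => hx' (bx_mono (Nat.le_succ k) h))]
      simp
    rw [← h1]
    refine Finset.sum_le_sum_of_subset_of_nonneg ?_ fun _ _ _ => by (clear * -; positivity)
    intro x hx
    exact (Finset.mem_filter.1 hx).2
  have hdiff : ∀ k L, k ≤ L → ∑ x ∈ bx L, ‖ψ x - Q k x‖ ^ 2 = a L - a k := by
    intro k L hkL
    have h1 : ∀ x, ‖ψ x - Q k x‖ ^ 2 = ‖ψ x‖ ^ 2 - (if x ∈ bx k then ‖ψ x‖ ^ 2 else 0) := by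
      intro x
      by_cases h : x ∈ bx k <;> simp [hQdef, h]
    simp only [h1, Finset.sum_sub_distrib, Finset.sum_ite_mem]
    rw [Finset.inter_eq_right.2 (bx_mono hkL)]
  have htight' : ∀ L m : ℕ, ∀ M : ℝ, 0 < M →
      (μ L {t | M < |t|} : ℝ) ≤ 2 * C' m / M ^ 2 + 2 * (‖ψ‖ ^ 2 - a m) := by
    intro L m M hM
    have hk : min L m ≤ L := min_le_left _ _
    have h1 := htight L (Q (min L m))
      (fun y hy => hQ0 _ y (fun h => hy (bx_mono hk h))) M hM
    refine h1.trans ?_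
    have h2 := hCle (min L m) L
    have h3 : C (min L m) ≤ C' m :=
      Finset.single_le_sum (f := C) (fun k _ => hC0 k)
        (Finset.mem_range.2 (Nat.lt_succ_of_le (min_le_right _ _)))
    have h4 := hdiff (min L m) L hk
    rw [h4]
    have h5 : a L - a (min L m) ≤ ‖ψ‖ ^ 2 - a m := by
      rcases le_total L m with h | h
      · rw [min_eq_left h]
        linarith only [ha_le m]
      · rw [min_eq_right h]
        linarith only [ha_le L]
    have h7 : 2 * (∑ x ∈ bx L, ‖hop (Q (min L m)) x + V x * Q (min L m) x‖ ^ 2) / M ^ 2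
        ≤ 2 * C' m / M ^ 2 := by
      gcongr
      exact h2.trans h3
    linarith only [h5, h7]
  set Mm : ℕ → ℝ := fun m => ((m : ℝ) + 1) * (1 + C' m) with hMm
  have hMm0 : ∀ m, 0 < Mm m := fun m => by have := hC'0 m; (clear * -; positivity)
  set um : ℕ → ℝ := fun m => 2 * (1 / ((m : ℝ) + 1)) + 2 * (‖ψ‖ ^ 2 - a m) with hum
  have hum_tend : Tendsto um atTop (𝓝 0) := by
    have h1 : Tendsto (fun m : ℕ => 1 / ((m : ℝ) + 1)) atTop (𝓝 0) :=
      tendsto_one_div_add_atTop_nhds_zero_nat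
    have h2 := (h1.const_mul 2).add ((ha_tend.const_sub (‖ψ‖ ^ 2)).const_mul 2)
    simpa only [hum, one_div, mul_zero, sub_self, add_zero] using h2
  have hbound : ∀ L m : ℕ, (μ L {t | Mm m < |t|} : ℝ) ≤ um m := by
    intro L m
    refine (htight' L m (Mm m) (hMm0 m)).trans ?_
    have h1 : 2 * C' m / Mm m ^ 2 ≤ 2 * (1 / ((m : ℝ) + 1)) := by
      rw [mul_div_assoc]
      apply mul_le_mul_of_nonneg_left _ (by norm_num)
      rw [div_le_div_iff₀ (by have := hMm0 m; (clear * -; positivity)) (by (clear * -; positivity))]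
      simp only [hMm]
      have h2 := hC'0 m
      have h3 : (0 : ℝ) ≤ m := Nat.cast_nonneg m
      have h4 : C' m ≤ (1 + C' m) ^ 2 := by nlinarith only []
      have h5 : ((m : ℝ) + 1) ≤ ((m : ℝ) + 1) ^ 2 := by nlinarith only []
      calc C' m * ((m : ℝ) + 1) ≤ (1 + C' m) ^ 2 * ((m : ℝ) + 1) ^ 2 :=
            mul_le_mul h4 h5 (by (clear * -; positivity)) (by (clear * -; positivity))
        _ = 1 * (((m : ℝ) + 1) * (1 + C' m)) ^ 2 := by ring
    linarith
  set K : ℕ → Set ℝ := fun m => Metric.closedBall 0 (Mm m) with hK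
  have hKc : ∀ m, (K m)ᶜ = {t | Mm m < |t|} := by
    intro m
    ext t
    simp only [hK, Set.mem_compl_iff, Metric.mem_closedBall, dist_zero_right, Real.norm_eq_abs, not_le, Set.mem_ofPred_eq]
  have hcomp := isCompact_setOfPred_finiteMeasure_mass_le_compl_isCompact_le
    (E := ℝ) (u := fun m => (um m).toNNReal) (K := K) (‖ψ‖ ^ 2).toNNReal
    (by
      have := (continuous_real_toNNReal.tendsto 0).comp hum_tend
      rw [Real.toNNReal_zero] at this
      exact this)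
    (fun m => isCompact_closedBall _ _) (Or.inl inferInstance)
  set F : Ultrafilter ℕ := hyperfilter ℕ with hF
  have hFle : (F : Filter ℕ) ≤ atTop := Nat.hyperfilter_le_atTop
  obtain ⟨ν, hν, hlim⟩ := hcomp.ultrafilter_le_nhds' (F.map μ) (by
    refine Ultrafilter.mem_map.2 (Filter.univ_mem' fun L => ?_)
    refine ⟨?_, fun m => ?_⟩
    · apply NNReal.le_toNNReal_of_coe_le
      rw [hmass]
      exact ha_le L
    · apply NNReal.le_toNNReal_of_coe_le
      rw [hKc]
      exact hbound L m)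
  have hlim' : Tendsto μ F (𝓝 ν) := hlim
  have hνmass : (ν.mass : ℝ) = ‖ψ‖ ^ 2 := by
    have h1 : Tendsto (fun L => ((μ L).mass : ℝ)) F (𝓝 (ν.mass : ℝ)) :=
      (NNReal.continuous_coe.tendsto _).comp
        ((FiniteMeasure.continuous_mass.tendsto _).comp hlim')
    have h2 : Tendsto (fun L => ((μ L).mass : ℝ)) F (𝓝 (‖ψ‖ ^ 2)) := by
      simp_rw [hmass]
      exact ha_tend.mono_left hFle
    exact tendsto_nhds_unique h1 h2
  refine ⟨(ν : Measure ℝ), ⟨inferInstance, ?_⟩, ?_⟩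
  · intro z hz
    choose U hU0 hUeq hUn hUin using fun L => htr L z hz
    have hUB : ∀ L, ‖U L‖ ≤ ‖ψ‖ / z.im := by
      intro L
      refine (hUn L).trans ?_
      gcongr
      rw [Real.sqrt_le_left (norm_nonneg _)]
      exact ha_le L
    obtain ⟨u, hu⟩ := weak_lim F U _ hUB
    have hpt : ∀ x, Tendsto (fun L => U L x) F (𝓝 (u x)) := by
      intro x
      have h1 := hu (lp.single 2 x (1 : ℂ))
      simp only [lp.inner_single_left] at h1
      simpa only [RCLike.inner_apply, map_one, mul_one] using h1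
    refine ⟨u, ?_, ?_⟩
    · intro x
      have h1 : Tendsto (fun L => hop (fun y => U L y) x + ((V x : ℂ) - z) * U L x) F
          (𝓝 (hop (fun y => u y) x + ((V x : ℂ) - z) * u x)) := by
        unfold hop
        exact ((((hpt _).add (hpt _)).add (hpt _)).add (hpt _)).add ((hpt x).const_mul _)
      have h2 : Tendsto (fun L => hop (fun y => U L y) x + ((V x : ℂ) - z) * U L x) F
          (𝓝 (ψ x)) := by
        obtain ⟨L₀, hL₀⟩ := exists_mem_bx x
        refine (tendsto_const_nhds (x := ψ x)).congr' ?_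
        refine hFle ?_
        filter_upwards [eventually_ge_atTop L₀] with L hL
        exact (hUeq L x (bx_mono hL hL₀)).symm
      exact tendsto_nhds_unique h1 h2
    · have h1 : Tendsto (fun L => ⟪ψ, U L⟫_ℂ) F (𝓝 ⟪ψ, u⟫_ℂ) := hu ψ
      have h2 : ∀ L, ⟪ψ, U L⟫_ℂ = ∫ t : ℝ, ((t : ℂ) - z)⁻¹ ∂(μ L : Measure ℝ) := by
        intro L
        rw [← hUin L, lp.inner_eq_tsum, tsum_eq_sum (s := bx L)]
        · refine Finset.sum_congr rfl fun x _ => ?_
          rw [RCLike.inner_apply, mul_comm]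
        · intro x hx
          rw [hU0 L x hx, inner_zero_right]
      have hne : ∀ t : ℝ, (t : ℂ) - z ≠ 0 := by
        intro t h
        have := congrArg Complex.im h
        simp at this
        exact hz.ne' this
      have hcont : Continuous (fun t : ℝ => ((t : ℂ) - z)⁻¹) :=
        (Complex.continuous_ofReal.sub continuous_const).inv₀ hne
      have hbd : ∀ t : ℝ, ‖((t : ℂ) - z)⁻¹‖ ≤ z.im⁻¹ := by
        intro t
        rw [norm_inv]
        apply inv_anti₀ hz
        have := Complex.abs_im_le_norm ((t : ℂ) - z)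
        simp only [sub_im, ofReal_im, zero_sub, abs_neg] at this
        exact (le_abs_self _).trans this
      have h3 := (FiniteMeasure.tendsto_iff_forall_integral_rclike_tendsto ℂ).1 hlim'
        (BoundedContinuousFunction.ofNormedAddCommGroup _ hcont _ hbd)
      simp only [BoundedContinuousFunction.coe_ofNormedAddCommGroup] at h3
      simp_rw [← h2] at h3
      exact tendsto_nhds_unique h1 h3
  · exact hνmass

end P365L
end

section

/-!
# P365L: Poisson transforms and singularity of measures on the line.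
-/

namespace P365L

open MeasureTheory Complex Filter Topology
open scoped ENNReal InnerProductSpace

lemma poisson_le (E t : ℝ) {η : ℝ} (hη : 0 < η) : η / ((t - E) ^ 2 + η ^ 2) ≤ 1 / η := by
  rw [div_le_div_iff₀ (by (clear * - hη; positivity)) hη]
  nlinarith [sq_nonneg (t - E)]

lemma poisson_nonneg (E t : ℝ) {η : ℝ} (hη : 0 < η) : 0 ≤ η / ((t - E) ^ 2 + η ^ 2) := by
  positivity

lemma poisson_integrable {μ : Measure ℝ} [IsFiniteMeasure μ] (E : ℝ) {η : ℝ} (hη : 0 < η) :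
    Integrable (fun t : ℝ => η / ((t - E) ^ 2 + η ^ 2)) μ := by
  have hm : Measurable (fun t : ℝ => η / ((t - E) ^ 2 + η ^ 2)) := by fun_prop
  refine Integrable.of_bound (C := 1 / η) hm.aestronglyMeasurable (ae_of_all _ fun t => ?_)
  rw [Real.norm_of_nonneg (poisson_nonneg E t hη)]
  exact poisson_le E t hη

/-- imaginary part of the Borel transform -/
theorem im_transform {μ : Measure ℝ} [IsFiniteMeasure μ] (E : ℝ) {η : ℝ} (hη : 0 < η) :
    (∫ t : ℝ, ((t : ℂ) - (E + η * I))⁻¹ ∂μ).im = ∫ t, η / ((t - E) ^ 2 + η ^ 2) ∂μ := by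
  have hint : Integrable (fun t : ℝ => ((t : ℂ) - (E + η * I))⁻¹) μ := by
    refine Integrable.of_bound (C := 1 / η) (by (clear * -; fun_prop)) (ae_of_all _ fun t => ?_)
    rw [norm_inv, one_div]
    refine inv_anti₀ hη ?_
    have h := Complex.abs_im_le_norm ((t : ℂ) - (E + η * I))
    have h2 : ((t : ℂ) - (E + η * I)).im = - η := by simp
    rw [h2, abs_neg, abs_of_pos hη] at h
    exact h
  have h1 : (∫ t : ℝ, ((t : ℂ) - (E + η * I))⁻¹ ∂μ).im =
      ∫ t : ℝ, (((t : ℂ) - (E + η * I))⁻¹).im ∂μ :=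
    (integral_im hint).symm
  rw [h1]
  refine integral_congr_ae (ae_of_all _ fun t => ?_)
  simp only [Complex.inv_im]
  have h2 : ((t : ℂ) - (E + η * I)).im = - η := by simp
  have h3 : ((t : ℂ) - (E + η * I)).re = t - E := by simp
  rw [Complex.normSq_apply, h2, h3]
  congr 1
  · ring
  · ring

lemma lintegral_poisson_one (t : ℝ) {η : ℝ} (hη : 0 < η) :
    ∫⁻ E : ℝ, ENNReal.ofReal (η / ((t - E) ^ 2 + η ^ 2)) = ENNReal.ofReal Real.pi := by
  have hne : η.toNNReal ≠ 0 := (Real.toNNReal_pos.2 hη).ne'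
  have h1 := ProbabilityTheory.lintegral_cauchyPDF_eq_one t hne
  have h2 : ∀ E : ℝ, ENNReal.ofReal (η / ((t - E) ^ 2 + η ^ 2)) =
      ENNReal.ofReal Real.pi * ProbabilityTheory.cauchyPDF t η.toNNReal E := by
    intro E
    rw [ProbabilityTheory.cauchyPDF_def, ProbabilityTheory.cauchyPDFReal_def,
      ← ENNReal.ofReal_mul Real.pi_pos.le]
    congr 1
    have hp := Real.pi_pos.ne'
    rw [Real.coe_toNNReal η hη.le, sub_sq_comm t E]
    (clear * - hp hη; field_simp)
  simp only [h2]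
  rw [lintegral_const_mul' _ _ ENNReal.ofReal_ne_top, h1, mul_one]

/-- total integral of the Poisson transform -/
theorem lintegral_poisson {μ : Measure ℝ} [IsFiniteMeasure μ] {η : ℝ} (hη : 0 < η) :
    ∫⁻ E : ℝ, ENNReal.ofReal (∫ t, η / ((t - E) ^ 2 + η ^ 2) ∂μ) ≤
      ENNReal.ofReal Real.pi * μ Set.univ := by
  have h1 : ∀ E : ℝ, ENNReal.ofReal (∫ t, η / ((t - E) ^ 2 + η ^ 2) ∂μ) =
      ∫⁻ t, ENNReal.ofReal (η / ((t - E) ^ 2 + η ^ 2)) ∂μ := fun E =>
    ofReal_integral_eq_lintegral_ofReal (poisson_integrable E hη)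
      (ae_of_all _ fun t => poisson_nonneg E t hη)
  simp only [h1]
  rw [lintegral_lintegral_swap]
  · simp only [lintegral_poisson_one _ hη]
    rw [lintegral_const]
  · refine Measurable.aemeasurable ?_
    fun_prop

lemma ball_le_poisson {μ : Measure ℝ} [IsFiniteMeasure μ] (E : ℝ) {η : ℝ} (hη : 0 < η) :
    μ.real (Metric.closedBall E η) / (2 * η) ≤ ∫ t, η / ((t - E) ^ 2 + η ^ 2) ∂μ := by
  have h1 : ∫ t, (Metric.closedBall E η).indicator (fun _ => 1 / (2 * η)) t ∂μ ≤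
      ∫ t, η / ((t - E) ^ 2 + η ^ 2) ∂μ := by
    refine integral_mono ?_ (poisson_integrable E hη) ?_
    · exact (integrable_const _).indicator Metric.isClosed_closedBall.measurableSet
    · intro t
      simp only
      by_cases ht : t ∈ Metric.closedBall E η
      · rw [Set.indicator_of_mem ht]
        rw [Metric.mem_closedBall, Real.dist_eq] at ht
        have h2 : (t - E) ^ 2 ≤ η ^ 2 := by
          rw [← sq_abs (t - E)]
          exact pow_le_pow_left₀ (abs_nonneg _) ht 2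
        rw [div_le_div_iff₀ (by positivity) (by positivity)]
        linarith
      · rw [Set.indicator_of_notMem ht]
        exact poisson_nonneg E t hη
  rw [integral_indicator_const _ Metric.isClosed_closedBall.measurableSet] at h1
  rw [smul_eq_mul] at h1
  calc μ.real (Metric.closedBall E η) / (2 * η)
      = μ.real (Metric.closedBall E η) * (1 / (2 * η)) := by ring
    _ ≤ _ := h1

/-- if the Poisson transforms vanish a.e. in the liminf along a sequence then the measure is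
singular -/
theorem singular_of_poisson {μ : Measure ℝ} [IsFiniteMeasure μ] (η : ℕ → ℝ) (hη : ∀ k, 0 < η k)
    (hη0 : Tendsto η atTop (𝓝 0))
    (h : ∀ᵐ E : ℝ, ∀ ε > 0, ∃ᶠ k in atTop, ∫ t, η k / ((t - E) ^ 2 + η k ^ 2) ∂μ < ε) :
    μ ⟂ₘ (volume : Measure ℝ) := by
  rw [← Measure.rnDeriv_eq_zero]
  filter_upwards [h, Besicovitch.ae_tendsto_rnDeriv μ (volume : Measure ℝ)] with E hE hlim
  have hη1 : Tendsto η atTop (𝓝[>] 0) :=
    tendsto_nhdsWithin_iff.2 ⟨hη0, Eventually.of_forall hη⟩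
  have h2 := hlim.comp hη1
  rw [Pi.zero_apply]
  by_contra hne
  have hpos : 0 < μ.rnDeriv volume E := pos_iff_ne_zero.2 hne
  obtain ⟨δ, hδ0, hδ⟩ : ∃ δ : ℝ, 0 < δ ∧ ENNReal.ofReal δ < μ.rnDeriv volume E := by
    obtain ⟨q, hq0, hq⟩ := ENNReal.lt_iff_exists_real_btwn.1 hpos
    exact ⟨q, by simpa using hq.1, hq.2⟩
  have h3 : ∀ᶠ k in atTop, ENNReal.ofReal δ <
      μ (Metric.closedBall E (η k)) / volume (Metric.closedBall E (η k)) :=
    h2.eventually (lt_mem_nhds hδ)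
  obtain ⟨k, hk1, hk2⟩ := ((hE δ hδ0).and_eventually h3).exists
  have h4 := (ball_le_poisson (μ := μ) E (hη k)).trans_lt hk1
  rw [Real.volume_closedBall] at hk2
  have h5 : μ (Metric.closedBall E (η k)) = ENNReal.ofReal (μ.real (Metric.closedBall E (η k))) :=
    (ENNReal.ofReal_toReal (measure_ne_top _ _)).symm
  rw [h5, ← ENNReal.ofReal_div_of_pos (by linarith only [hη k]),
    ENNReal.ofReal_lt_ofReal_iff_of_nonneg hδ0.le] at hk2
  linarith only [hk2, h4]

end P365L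
end

section

/-!
# P365L: criterion for singular spectrum in terms of the sites.
-/

namespace P365L

open MeasureTheory Complex Filter Topology
open scoped ENNReal InnerProductSpace

variable {V : Site → ℝ} {z : ℂ}

theorem isResolvent_add {ψ φ u v : L2} (hu : IsResolvent V z ψ u) (hv : IsResolvent V z φ v) :
    IsResolvent V z (ψ + φ) (u + v) := by
  intro x
  have h1 := hu x
  have h2 := hv x
  simp only [hop, lp.coeFn_add, Pi.add_apply] at *
  linear_combination h1 + h2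

theorem isResolvent_smul (c : ℂ) {ψ u : L2} (hu : IsResolvent V z ψ u) :
    IsResolvent V z (c • ψ) (c • u) := by
  intro x
  have h1 := hu x
  simp only [hop, lp.coeFn_smul, Pi.smul_apply, smul_eq_mul] at *
  linear_combination c * h1

theorem isResolvent_zero : IsResolvent V z 0 0 := by
  intro x
  simp only [hop, ZeroMemClass.coe_zero, PreLp.zero_apply, add_zero, mul_zero]

theorem isResolvent_sum (F : Finset Site) (c : Site → ℂ) {ψ u : Site → L2}
    (h : ∀ x, IsResolvent V z (ψ x) (u x)) :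
    IsResolvent V z (∑ x ∈ F, c x • ψ x) (∑ x ∈ F, c x • u x) := by
  classical
  induction F using Finset.induction_on with
  | empty => simpa using isResolvent_zero
  | insert a s ha ih =>
    rw [Finset.sum_insert ha, Finset.sum_insert ha]
    exact isResolvent_add (isResolvent_smul _ (h a)) ih

theorem poisson_eq {ψ : L2} {μ : Measure ℝ} (hμ : IsSpectralMeasure V ψ μ) (E : ℝ) {η : ℝ}
    (hη : 0 < η) {u : L2} (hu : IsResolvent V (E + η * I) ψ u) :
    ∫ t, η / ((t - E) ^ 2 + η ^ 2) ∂μ = η * ‖u‖ ^ 2 := by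
  have := hμ.finite
  have hz : 0 < ((E : ℂ) + η * I).im := by simpa using hη
  obtain ⟨v, hv, hv2⟩ := hμ.transform _ hz
  have h := resolvent_unique hz hu hv
  subst h
  rw [← im_transform E hη, ← hv2, resolvent_energy hz hu]
  simp only [add_im, ofReal_im, mul_im, ofReal_re, I_im, mul_one, I_re, mul_zero, add_zero, zero_add]

theorem measurable_poisson (μ : Measure ℝ) [IsFiniteMeasure μ] (η : ℝ) :
    Measurable fun E : ℝ => ∫ t, η / ((t - E) ^ 2 + η ^ 2) ∂μ := by
  have h : StronglyMeasurable (Function.uncurry fun E t : ℝ => η / ((t - E) ^ 2 + η ^ 2)) := by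
    apply Measurable.stronglyMeasurable
    unfold Function.uncurry
    fun_prop
  exact (h.integral_prod_right (ν := μ)).measurable

theorem inner_dl (x : Site) (u : L2) : ⟪dl x, u⟫_ℂ = u x := by
  unfold dl
  rw [lp.inner_single_left]
  simp only [RCLike.inner_apply, map_one, mul_one]

/-- the energies of finitely supported vectors vanish with those of the sites -/
theorem energy_finite (η : ℕ → ℝ) (hη : ∀ k, 0 < η k) (E : ℝ) (F : Finset Site) (c : Site → ℂ)
    (h : ∀ x : Site, ∀ u : ℕ → L2,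
      (∀ k, IsResolvent V (E + η k * I) (dl x) (u k)) →
        Tendsto (fun k => (u k x).im) atTop (𝓝 0)) :
    ∃ u : ℕ → L2, (∀ k, IsResolvent V (E + η k * I) (∑ x ∈ F, c x • dl x) (u k)) ∧
      Tendsto (fun k => η k * ‖u k‖ ^ 2) atTop (𝓝 0) := by
  have hz : ∀ k, 0 < ((E : ℂ) + η k * I).im := fun k => by simpa using hη k
  have hex : ∀ (x : Site) (k : ℕ), ∃ u : L2, IsResolvent V (E + η k * I) (dl x) u :=
    fun x k => resolvent_exists V (hz k) (dl x)
  choose u hu using hex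
  have h1 : ∀ x, Tendsto (fun k => η k * ‖u x k‖ ^ 2) atTop (𝓝 0) := by
    intro x
    refine (h x (u x) (hu x)).congr fun k => ?_
    have h2 := resolvent_energy (hz k) (hu x k)
    rw [inner_dl] at h2
    rw [h2]
    simp only [add_im, ofReal_im, mul_im, ofReal_re, I_im, mul_one, I_re, mul_zero, add_zero, zero_add]
  refine ⟨fun k => ∑ x ∈ F, c x • u x k, fun k => isResolvent_sum F c fun x => hu x k, ?_⟩
  have h3 : Tendsto (fun k => (F.card : ℝ) * ∑ x ∈ F, ‖c x‖ ^ 2 * (η k * ‖u x k‖ ^ 2)) atTop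
      (𝓝 0) := by
    have h4 : Tendsto (fun k => (F.card : ℝ) * ∑ x ∈ F, ‖c x‖ ^ 2 * (η k * ‖u x k‖ ^ 2)) atTop
        (𝓝 ((F.card : ℝ) * ∑ x ∈ F, ‖c x‖ ^ 2 * 0)) :=
      (tendsto_finsetSum _ fun x _ => (h1 x).const_mul _).const_mul _
    simpa only [mul_zero, Finset.sum_const_zero] using h4
  refine squeeze_zero (fun k => mul_nonneg (hη k).le (by (clear * -; positivity))) (fun k => ?_) h3
  have h4 : ‖∑ x ∈ F, c x • u x k‖ ≤ ∑ x ∈ F, ‖c x‖ * ‖u x k‖ :=
    (norm_sum_le _ _).trans (le_of_eq (Finset.sum_congr rfl fun x _ => norm_smul _ _))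
  have h5 : (∑ x ∈ F, ‖c x‖ * ‖u x k‖) ^ 2 ≤ (F.card : ℝ) * ∑ x ∈ F, (‖c x‖ * ‖u x k‖) ^ 2 :=
    sq_sum_le_card_mul_sum_sq
  have h6 : ‖∑ x ∈ F, c x • u x k‖ ^ 2 ≤ (F.card : ℝ) * ∑ x ∈ F, (‖c x‖ * ‖u x k‖) ^ 2 :=
    (pow_le_pow_left₀ (norm_nonneg _) h4 2).trans h5
  calc η k * ‖∑ x ∈ F, c x • u x k‖ ^ 2
      ≤ η k * ((F.card : ℝ) * ∑ x ∈ F, (‖c x‖ * ‖u x k‖) ^ 2) :=
        mul_le_mul_of_nonneg_left h6 (hη k).le
    _ = (F.card : ℝ) * ∑ x ∈ F, ‖c x‖ ^ 2 * (η k * ‖u x k‖ ^ 2) := by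
        rw [Finset.mul_sum, Finset.mul_sum, Finset.mul_sum]
        exact Finset.sum_congr rfl fun x _ => by ring

/-- if the local densities of states vanish a.e. along a sequence at all sites, all spectral
measures are singular -/
theorem singular_of_sites (V : Site → ℝ) (η : ℕ → ℝ) (hη : ∀ k, 0 < η k)
    (hη0 : Tendsto η atTop (𝓝 0))
    (h : ∀ x : Site, ∀ᵐ E : ℝ, ∀ u : ℕ → L2,
      (∀ k, IsResolvent V (E + η k * I) (dl x) (u k)) →
        Tendsto (fun k => (u k x).im) atTop (𝓝 0))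
    (ψ : L2) (μ : Measure ℝ) (hμ : IsSpectralMeasure V ψ μ) : μ ⟂ₘ (volume : Measure ℝ) := by
  have := hμ.finite
  refine singular_of_poisson η hη hη0 ?_
  set P : ℕ → ℝ → ℝ≥0∞ := fun k E =>
    ENNReal.ofReal (∫ t, η k / ((t - E) ^ 2 + η k ^ 2) ∂μ) with hP
  have hPm : ∀ k, Measurable (P k) := fun k => (measurable_poisson μ (η k)).ennreal_ofReal
  have hz : ∀ (E : ℝ) (k : ℕ), 0 < ((E : ℂ) + η k * I).im := fun E k => by simpa using hη k
  have key : ∀ δ : ℝ, 0 < δ → ∫⁻ E, liminf (fun k => P k E) atTop ≤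
      2 * (ENNReal.ofReal Real.pi * ENNReal.ofReal (δ ^ 2)) := by
    intro δ hδ
    have hs := lp.hasSum_single (p := 2) (by simp) ψ
    obtain ⟨F, hF⟩ := (Metric.tendsto_nhds.1 hs δ hδ).exists
    set φ : L2 := ∑ x ∈ F, ψ x • dl x with hφ
    have hφ' : φ = ∑ x ∈ F, lp.single 2 x (ψ x) := by
      refine Finset.sum_congr rfl fun x _ => ?_
      unfold dl
      rw [← lp.single_smul, smul_eq_mul, mul_one]
    rw [← hφ', dist_comm, dist_eq_norm] at hF
    obtain ⟨ν, hν, hmass⟩ := exists_spectralMeasure V (ψ - φ)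
    have := hν.finite
    set Q : ℕ → ℝ → ℝ≥0∞ := fun k E =>
      ENNReal.ofReal (∫ t, η k / ((t - E) ^ 2 + η k ^ 2) ∂ν) with hQ
    have hQm : ∀ k, Measurable (Q k) := fun k => (measurable_poisson ν (η k)).ennreal_ofReal
    have h1 : ∀ᵐ E : ℝ, liminf (fun k => P k E) atTop ≤ 2 * liminf (fun k => Q k E) atTop := by
      filter_upwards [ae_all_iff.2 h] with E hE
      obtain ⟨u, hu, hu0⟩ := energy_finite η hη E F (fun x => ψ x) hE
      choose v hv using fun k => resolvent_exists V (hz E k) (ψ - φ)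
      have h2 : ∀ k, P k E ≤ ENNReal.ofReal (2 * (η k * ‖u k‖ ^ 2)) + 2 * Q k E := by
        intro k
        have h3 : IsResolvent V (E + η k * I) ψ (u k + v k) := by
          have := isResolvent_add (hu k) (hv k)
          rwa [← hφ, add_sub_cancel] at this
        have h4 := poisson_eq hμ E (hη k) h3
        have h5 := poisson_eq hν E (hη k) (hv k)
        have h6 : ‖u k + v k‖ ^ 2 ≤ 2 * ‖u k‖ ^ 2 + 2 * ‖v k‖ ^ 2 := by
          have := pow_le_pow_left₀ (norm_nonneg _) (norm_add_le (u k) (v k)) 2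
          nlinarith only [this, sq_nonneg (‖u k‖ - ‖v k‖)]
        simp only [hP, hQ]
        rw [h4, h5]
        have h7 : (2 : ℝ≥0∞) * ENNReal.ofReal (η k * ‖v k‖ ^ 2) =
            ENNReal.ofReal (2 * (η k * ‖v k‖ ^ 2)) := by
          rw [ENNReal.ofReal_mul (p := 2) (by norm_num)]
          simp only [ENNReal.ofReal_ofNat]
        rw [h7, ← ENNReal.ofReal_add]
        · refine ENNReal.ofReal_le_ofReal ?_
          have := mul_le_mul_of_nonneg_left h6 (hη k).le
          linarith only [this]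
        · have := (hη k).le
          (clear * - this; positivity)
        · have := (hη k).le
          (clear * - this; positivity)
      have h3 : Tendsto (fun k => ENNReal.ofReal (2 * (η k * ‖u k‖ ^ 2))) atTop (𝓝 0) := by
        have := ENNReal.tendsto_ofReal (hu0.const_mul 2)
        simpa only [Nat.ofNat_nonneg, ENNReal.ofReal_mul, ENNReal.ofReal_ofNat, mul_zero, ENNReal.ofReal_zero] using     this
      refine ENNReal.le_of_forall_pos_le_add fun ε hε hfin => ?_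
      set L := liminf (fun k => Q k E) atTop with hL
      have hLfin : L ≠ ⊤ := by
        intro hL'
        rw [hL'] at hfin
        simp at hfin
      have hε4 : (0 : ℝ≥0∞) < (ε : ℝ≥0∞) / 4 := ENNReal.div_pos (by simpa using hε.ne') (by simp)
      have h5 : ∃ᶠ k in atTop, Q k E < L + (ε : ℝ≥0∞) / 4 :=
        frequently_lt_of_liminf_lt (by isBoundedDefault)
          (by rw [← hL]; exact ENNReal.lt_add_right hLfin hε4.ne')
      have h6 : ∀ᶠ k in atTop, ENNReal.ofReal (2 * (η k * ‖u k‖ ^ 2)) ≤ (ε : ℝ≥0∞) / 2 :=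
        h3.eventually_le_const (ENNReal.div_pos (by simpa using hε.ne') (by simp))
      refine liminf_le_of_frequently_le' ((h5.and_eventually h6).mono fun k hk => ?_)
      refine (h2 k).trans ((add_le_add hk.2 (mul_le_mul_right hk.1.le 2)).trans (le_of_eq ?_))
      rw [mul_add, add_left_comm]
      congr 1
      have h7 : (2 : ℝ≥0∞) * ((ε : ℝ≥0∞) / 4) = (ε : ℝ≥0∞) / 2 := by
        rw [div_eq_mul_inv, div_eq_mul_inv, mul_left_comm]
        congr 1
        have : (4 : ℝ≥0∞) = 2 * 2 := by norm_num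
        rw [this, ENNReal.mul_inv (by simp) (by simp), ← mul_assoc, ENNReal.mul_inv_cancel
          (by simp) (by simp), one_mul]
      rw [h7, ENNReal.add_halves]
    calc ∫⁻ E, liminf (fun k => P k E) atTop
        ≤ ∫⁻ E, 2 * liminf (fun k => Q k E) atTop := lintegral_mono_ae h1
      _ = 2 * ∫⁻ E, liminf (fun k => Q k E) atTop :=
          lintegral_const_mul _ (Measurable.liminf hQm)
      _ ≤ 2 * liminf (fun k => ∫⁻ E, Q k E) atTop := by
          gcongr
          exact lintegral_liminf_le hQm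
      _ ≤ 2 * (ENNReal.ofReal Real.pi * ENNReal.ofReal (δ ^ 2)) := by
          gcongr
          refine (liminf_le_liminf (v := fun _ => ENNReal.ofReal Real.pi * ν Set.univ)
            (Eventually.of_forall fun k => lintegral_poisson (hη k))).trans ?_
          rw [liminf_const]
          gcongr
          rw [← ENNReal.ofReal_toReal (measure_ne_top ν Set.univ)]
          refine ENNReal.ofReal_le_ofReal ?_
          have : (ν Set.univ).toReal = ‖ψ - φ‖ ^ 2 := hmass
          rw [this]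
          exact pow_le_pow_left₀ (norm_nonneg _) hF.le 2
  have h0 : ∫⁻ E, liminf (fun k => P k E) atTop = 0 := by
    refine le_antisymm ?_ zero_le
    have h1 : Tendsto (fun n : ℕ => 2 * (ENNReal.ofReal Real.pi *
        ENNReal.ofReal ((1 / ((n : ℝ) + 1)) ^ 2))) atTop (𝓝 0) := by
      have h2 : Tendsto (fun n : ℕ => (1 / ((n : ℝ) + 1)) ^ 2) atTop (𝓝 0) := by
        have := (tendsto_one_div_add_atTop_nhds_zero_nat (𝕜 := ℝ)).pow 2
        simpa only [one_div, inv_pow, ne_eq, OfNat.ofNat_ne_zero, not_false_eq_true, zero_pow] using this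
      have h3 := ENNReal.tendsto_ofReal h2
      have h4 := ENNReal.Tendsto.const_mul (a := 2) (ENNReal.Tendsto.const_mul
        (a := ENNReal.ofReal Real.pi) h3 (Or.inr ENNReal.ofReal_ne_top)) (Or.inr (by simp))
      simpa only [one_div, inv_pow, ENNReal.ofReal_zero, mul_zero] using h4
    exact ge_of_tendsto' h1 fun n => key _ (by (clear * -; positivity))
  have h1 := (lintegral_eq_zero_iff (Measurable.liminf hPm)).1 h0
  filter_upwards [h1] with E hE ε hε
  have h2 : liminf (fun k => P k E) atTop < ENNReal.ofReal ε := by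
    rw [hE]
    simpa only [Pi.zero_apply, ENNReal.ofReal_pos, gt_iff_lt] using hε
  exact (frequently_lt_of_liminf_lt (by isBoundedDefault) h2).mono fun k hk =>
    (ENNReal.ofReal_lt_ofReal_iff hε).1 hk

end P365L
end

section

/-!
# P365L: almost sure absence of absolutely continuous spectrum.
-/

namespace P365L

open MeasureTheory ProbabilityTheory Complex Filter Topology
open scoped ENNReal InnerProductSpace

/-- radius in the box -/
noncomputable def rhoL (L : ℕ) (p : Lam L) : ℕ := (p : Site).1.natAbs + (p : Site).2.natAbs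

theorem adj_eq_one_or (p q : Site) : adj p q = 0 ∨ adj p q = 1 := by
  unfold adj; split_ifs <;> simp

theorem adj_ne_zero {p q : Site} (h : adj p q ≠ 0) :
    (p.1 - q.1).natAbs + (p.2 - q.2).natAbs = 1 := by
  unfold adj at h
  by_contra hc
  simp [hc] at h

/-- the four neighbours -/
noncomputable def nbr (x : Site) : Finset Site :=
  {(x.1 + 1, x.2), (x.1 - 1, x.2), (x.1, x.2 + 1), (x.1, x.2 - 1)}

theorem mem_nbr_of_adj {p q : Site} (h : adj p q ≠ 0) : q ∈ nbr p := by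
  have h1 := adj_ne_zero h
  obtain ⟨a, b⟩ := p
  obtain ⟨c, d⟩ := q
  simp only [nbr, Finset.mem_insert, Finset.mem_singleton, Prod.mk.injEq] at *
  omega

theorem card_nbr (x : Site) : (nbr x).card ≤ 4 := by
  unfold nbr
  exact Finset.card_le_four

theorem planar_box (L : ℕ) : Planar (AL L) (rhoL L) (oL L) where
  symm := AL_symm L
  zero_one := fun x y => adj_eq_one_or _ _
  root := by
    rintro ⟨⟨a, b⟩, h⟩
    simp only [rhoL, oL, Subtype.mk.injEq, Prod.mk.injEq]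
    omega
  lip := by
    rintro ⟨⟨a, b⟩, h⟩ ⟨⟨c, d⟩, h'⟩ hh
    have h1 := adj_ne_zero hh
    simp only [rhoL] at *
    omega
  deg := by
    intro x
    have h1 : ∑ y : Lam L, AL L x y = ∑ y ∈ (Finset.univ.filter fun y : Lam L => (y : Site) ∈ nbr x),
        AL L x y := by
      rw [Finset.sum_filter]
      refine Finset.sum_congr rfl fun y _ => ?_
      split_ifs with h
      · rfl
      · by_contra hc
        exact h (mem_nbr_of_adj hc)
    rw [h1]
    have h2 : ∑ y ∈ (Finset.univ.filter fun y : Lam L => (y : Site) ∈ nbr x), AL L x y ≤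
        ∑ y ∈ (Finset.univ.filter fun y : Lam L => (y : Site) ∈ nbr x), (1 : ℝ) := by
      refine Finset.sum_le_sum fun y _ => ?_
      rcases adj_eq_one_or (x : Site) y with h | h
      · show adj _ _ ≤ 1
        rw [h]; norm_num
      · show adj _ _ ≤ 1
        rw [h]
    refine h2.trans ?_
    rw [Finset.sum_const, nsmul_eq_mul, mul_one]
    have h3 : (Finset.univ.filter fun y : Lam L => (y : Site) ∈ nbr x).card ≤ (nbr (x : Site)).card := by
      refine Finset.card_le_card_of_injOn (fun y => (y : Site)) ?_ ?_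
      · intro y hy
        simpa only [SetLike.mem_coe, Finset.univ_eq_attach, Finset.coe_filter, Finset.mem_attach, true_and,     Set.mem_ofPred_eq] using hy
      · intro a _ b _ hab
        exact Subtype.ext hab
    have h4 := h3.trans (card_nbr x)
    exact_mod_cast h4
  card := by
    intro r
    have h1 : (Finset.univ.filter fun x : Lam L => rhoL L x = r).card ≤
        ((Finset.Icc (-(r : ℤ)) r) ×ˢ (Finset.univ : Finset Bool)).card := by
      refine Finset.card_le_card_of_injOn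
        (fun y => ((y : Site).1, decide (0 ≤ (y : Site).2))) ?_ ?_
      · rintro ⟨⟨a, b⟩, h⟩ hy
        have hy := (Finset.mem_filter.mp (Finset.mem_coe.mp hy)).2
        simp only [rhoL] at hy
        simp only [Finset.coe_product, Set.mem_prod, Finset.mem_coe, Finset.mem_Icc,
          Finset.mem_univ, and_true]
        omega
      · rintro ⟨⟨a, b⟩, h⟩ hy ⟨⟨c, d⟩, h'⟩ hy' hab
        have hy := (Finset.mem_filter.mp (Finset.mem_coe.mp hy)).2
        have hy' := (Finset.mem_filter.mp (Finset.mem_coe.mp hy')).2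
        simp only [rhoL] at hy hy'
        simp only [Prod.mk.injEq, decide_eq_decide] at hab
        simp only [Subtype.mk.injEq, Prod.mk.injEq]
        omega
    refine h1.trans ?_
    rw [Finset.card_product, Int.card_Icc]
    simp only [Finset.card_univ, Fintype.card_bool]
    omega

variable {Ω : Type*} [MeasurableSpace Ω] {P : Measure Ω} [IsProbabilityMeasure P]

/-- the box Green matrix is measurable in the potential and the energy -/
theorem measurable_GV {Ω' : Type*} [MeasurableSpace Ω'] (L : ℕ) (V : Ω' → Site → ℝ) (z : Ω' → ℂ)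
    (hV : ∀ x, Measurable fun ω => V ω x) (hz : Measurable z) (a b : Lam L) :
    Measurable fun ω => GV L (V ω) (z ω) a b := by
  unfold GV
  refine measurable_Gr (fun ω (x : Lam L) => ((V ω x : ℝ) : ℂ) - z ω) (fun x => ?_) a b
  exact (Complex.measurable_ofReal.comp (hV x)).sub hz

/-- comparison of the two notations for the fully revealed Green matrix -/
theorem GV_eq_GT (L : ℕ) (γ : ℝ) (U c : Site → ℝ) (z : ℂ) :
    GV L (fun y => U y + γ * c y) z =
      GT (AL L) γ (fun y : Lam L => U y) z Finset.univ (fun y : Lam L => c y) := by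
  unfold GV GT
  congr 1
  funext x
  simp only [ofReal_add, ofReal_mul, Wt, Finset.univ_eq_attach, Finset.mem_attach, ↓reduceIte]

/-- expectation of the truncated finite volume density of states -/
theorem expect_small {γ : ℝ} (hγ : 0 < γ) {ε : ℝ} (hε : 0 < ε) : ∃ η₀ : ℝ, 0 < η₀ ∧
    ∀ {Ω : Type*} [MeasurableSpace Ω] {P : Measure Ω} [IsProbabilityMeasure P]
      (U c : Site → Ω → ℝ), (∀ x, Measurable (U x)) → (∀ x, Measurable (c x)) →
      iIndepFun c P → (∀ x, P.map (c x) = cauchyMeasure 0 1) →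
      IndepFun (fun ω x => U x ω) (fun ω x => c x ω) P →
      ∀ (x : Site) (L : ℕ) (z : ℂ), 0 < z.im → z.im ≤ η₀ →
        ∫⁻ ω, ENNReal.ofReal (min ((GV L (shift x fun y => U y ω + γ * c y ω) z
          (oL L) (oL L)).im) 1) ∂P ≤ ENNReal.ofReal ε := by
  obtain ⟨η₀, hη₀, H⟩ := uniform_small hγ hε
  refine ⟨η₀, hη₀, ?_⟩
  intro Ω _ P _ U c hU hc hci hcl hUc x L z hz hzη
  -- the two random vectors in the box
  set U' : Ω → (Lam L → ℝ) := fun ω y => U (x + y) ω with hU'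
  set c' : Ω → (Lam L → ℝ) := fun ω y => c (x + y) ω with hc'
  have hU'm : Measurable U' := measurable_pi_lambda _ fun y => hU _
  have hc'm : Measurable c' := measurable_pi_lambda _ fun y => hc _
  have hinj : Function.Injective (fun y : Lam L => x + (y : Site)) := by
    intro a b hab
    exact Subtype.ext (add_left_cancel hab)
  have hci' : iIndepFun (fun y : Lam L => c (x + y)) P := hci.precomp hinj
  have hlaw : P.map c' = mu (Lam L) := by
    have h1 := (iIndepFun_iff_map_fun_eq_pi_map (fun y : Lam L => (hc (x + y)).aemeasurable)).mp hci'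
    rw [hc', h1]
    simp only [hcl]
  have hind : IndepFun U' c' P := by
    have h1 : Measurable (fun (v : Site → ℝ) (y : Lam L) => v (x + y)) :=
      measurable_pi_lambda _ fun y => measurable_pi_apply _
    exact hUc.comp h1 h1
  have hprod : P.map (fun ω => (U' ω, c' ω)) = (P.map U').prod (mu (Lam L)) := by
    rw [(indepFun_iff_map_prod_eq_prod_map_map hU'm.aemeasurable hc'm.aemeasurable).mp hind, hlaw]
  -- rewrite the integrand
  set F : (Lam L → ℝ) × (Lam L → ℝ) → ℝ≥0∞ := fun p =>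
    ENNReal.ofReal (min ((GT (AL L) γ p.1 z Finset.univ p.2 (oL L) (oL L)).im) 1) with hF
  have hFm : Measurable F := by
    have h1 : Measurable fun p : (Lam L → ℝ) × (Lam L → ℝ) =>
        GT (AL L) γ p.1 z Finset.univ p.2 (oL L) (oL L) := by
      unfold GT
      refine measurable_Gr (fun (p : (Lam L → ℝ) × (Lam L → ℝ)) => Wt γ p.1 z Finset.univ p.2)
        (fun y => ?_) _ _
      simp only [Wt, Finset.mem_univ, if_true]
      have h2 : Measurable fun p : (Lam L → ℝ) × (Lam L → ℝ) => p.1 y :=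
        (measurable_pi_apply y).comp measurable_fst
      have h3 : Measurable fun p : (Lam L → ℝ) × (Lam L → ℝ) => p.2 y :=
        (measurable_pi_apply y).comp measurable_snd
      exact ((Complex.measurable_ofReal.comp h2).add
        ((Complex.measurable_ofReal.comp h3).const_mul _)).sub_const _
    exact ENNReal.measurable_ofReal.comp ((Complex.measurable_im.comp h1).min measurable_const)
  have hrew : ∀ ω, ENNReal.ofReal (min ((GV L (shift x fun y => U y ω + γ * c y ω) z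
      (oL L) (oL L)).im) 1) = F (U' ω, c' ω) := by
    intro ω
    have h1 : (shift x fun y => U y ω + γ * c y ω) =
        fun y => (fun y => U (x + y) ω) y + γ * (fun y => c (x + y) ω) y := rfl
    rw [h1, GV_eq_GT]
  simp_rw [hrew]
  have h2 : ∫⁻ ω, F (U' ω, c' ω) ∂P = ∫⁻ p, F p ∂((P.map U').prod (mu (Lam L))) := by
    rw [← hprod, lintegral_map hFm (hU'm.prodMk hc'm)]
  rw [h2, lintegral_prod _ hFm.aemeasurable]
  have : IsProbabilityMeasure (P.map U') := Measure.isProbabilityMeasure_map hU'm.aemeasurable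
  have h3 : ∀ u : Lam L → ℝ, ∫⁻ v, F (u, v) ∂(mu (Lam L)) ≤ ENNReal.ofReal ε := by
    intro u
    have hb : ∀ v, 0 ≤ min ((GT (AL L) γ u z Finset.univ v (oL L) (oL L)).im) 1 := by
      intro v
      refine le_min ?_ zero_le_one
      unfold GT
      rw [Gr_flux (AL_symm L) (Wt_im_neg hγ hz _ _)]
      refine Finset.sum_nonneg fun y _ => mul_nonneg ?_ (by (clear * -; positivity))
      have := Wt_im_neg (U := u) hγ hz Finset.univ v y
      linarith only [this]
    have hint : Integrable (fun v => min ((GT (AL L) γ u z Finset.univ v (oL L) (oL L)).im) 1)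
        (mu (Lam L)) := by
      refine Integrable.mono' (integrable_const (1 : ℝ)) ?_ ?_
      · exact ((Complex.measurable_im.comp (measurable_GT Finset.univ (oL L) (oL L))).min
          measurable_const).aestronglyMeasurable
      · refine Eventually.of_forall fun v => ?_
        rw [Real.norm_of_nonneg (hb v)]
        exact min_le_right _ _
    rw [hF]
    simp only
    rw [← ofReal_integral_eq_lintegral_ofReal hint (Eventually.of_forall hb)]
    exact ENNReal.ofReal_le_ofReal (H (AL L) (rhoL L) (oL L) (planar_box L) u z hz hzη)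
  calc ∫⁻ u, ∫⁻ v, F (u, v) ∂(mu (Lam L)) ∂(P.map U') ≤ ∫⁻ _, ENNReal.ofReal ε ∂(P.map U') :=
        lintegral_mono h3
    _ = ENNReal.ofReal ε := by simp

theorem inner_dl_M (x : Site) (u : L2) : ⟪dl x, u⟫_ℂ = u x := by
  unfold dl
  rw [lp.inner_single_left]
  simp only [RCLike.inner_apply, map_one, mul_one]

theorem resolvent_im_nonneg {V : Site → ℝ} {z : ℂ} (hz : 0 < z.im) {x : Site} {u : L2}
    (hu : IsResolvent V z (dl x) u) : 0 ≤ (u x).im := by
  have h := resolvent_energy hz hu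
  rw [inner_dl_M] at h
  rw [h]
  positivity

theorem ae_sites {γ : ℝ} (hγ : 0 < γ) (U c : Site → Ω → ℝ) (hU : ∀ x, Measurable (U x))
    (hc : ∀ x, Measurable (c x)) (hci : iIndepFun c P)
    (hcl : ∀ x, P.map (c x) = cauchyMeasure 0 1)
    (hUc : IndepFun (fun ω x => U x ω) (fun ω x => c x ω) P) :
    ∃ η : ℕ → ℝ, (∀ k, 0 < η k) ∧ Tendsto η atTop (𝓝 0) ∧
      ∀ᵐ ω ∂P, ∀ x : Site, ∀ᵐ E : ℝ, ∀ u : ℕ → L2,
        (∀ k, IsResolvent (fun y => U y ω + γ * c y ω) (E + η k * I) (dl x) (u k)) →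
          Tendsto (fun k => (u k x).im) atTop (𝓝 0) := by
  have hεpos : ∀ k : ℕ, (0 : ℝ) < (1 / 2) ^ k := fun k => by positivity
  choose η₀ hη₀ H using fun k : ℕ => expect_small hγ (hεpos k)
  set η : ℕ → ℝ := fun k => min (η₀ k) (1 / ((k : ℝ) + 1)) with hη
  have hηpos : ∀ k, 0 < η k := fun k => lt_min (hη₀ k) (by (clear * -; positivity))
  have hηle : ∀ k, η k ≤ η₀ k := fun k => min_le_left _ _
  refine ⟨η, hηpos, ?_, ?_⟩
  · refine squeeze_zero (fun k => (hηpos k).le) (fun k => min_le_right _ _)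
      tendsto_one_div_add_atTop_nhds_zero_nat
  rw [ae_all_iff]
  intro x
  -- the truncated finite volume densities
  set X : ℕ → ℕ → Ω × ℝ → ℝ≥0∞ := fun k L p =>
    ENNReal.ofReal (min ((GV L (shift x fun y => U y p.1 + γ * c y p.1) (p.2 + η k * I)
      (oL L) (oL L)).im) 1) with hX
  have hXm : ∀ k L, Measurable (X k L) := by
    intro k L
    have h1 : Measurable fun p : Ω × ℝ =>
        GV L (shift x fun y => U y p.1 + γ * c y p.1) (p.2 + η k * I) (oL L) (oL L) := by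
      refine measurable_GV L (fun p : Ω × ℝ => shift x fun y => U y p.1 + γ * c y p.1)
        (fun p => (p.2 : ℂ) + η k * I) (fun y => ?_) ?_ _ _
      · exact ((hU (x + y)).comp measurable_fst).add
          (((hc (x + y)).comp measurable_fst).const_mul γ)
      · exact (Complex.measurable_ofReal.comp measurable_snd).add_const _
    exact ENNReal.measurable_ofReal.comp ((Complex.measurable_im.comp h1).min measurable_const)
  have hXle : ∀ k L, ∫⁻ p, X k L p ∂(P.prod nu) ≤ ENNReal.ofReal ((1 / 2) ^ k) := by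
    intro k L
    rw [lintegral_prod_symm _ (hXm k L).aemeasurable]
    calc ∫⁻ E, ∫⁻ ω, X k L (ω, E) ∂P ∂nu ≤ ∫⁻ _, ENNReal.ofReal ((1 / 2) ^ k) ∂nu := by
          refine lintegral_mono fun E => ?_
          refine H k U c hU hc hci hcl hUc x L (E + η k * I) ?_ ?_
          · simpa using hηpos k
          · simpa only [add_im, ofReal_im, mul_im, ofReal_re, I_im, mul_one, I_re, mul_zero, add_zero, zero_add] using     hηle k
      _ = ENNReal.ofReal ((1 / 2) ^ k) := by simp only [one_div, inv_pow, Nat.ofNat_pos, pow_pos, ENNReal.ofReal_inv_of_pos, Nat.ofNat_nonneg, ENNReal.ofReal_pow, ENNReal.ofReal_ofNat, lintegral_const, measure_univ, mul_one]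
  set Y : ℕ → Ω × ℝ → ℝ≥0∞ := fun k p => liminf (fun L => X k L p) atTop with hY
  have hYm : ∀ k, Measurable (Y k) := fun k => Measurable.liminf (hXm k)
  have hYle : ∀ k, ∫⁻ p, Y k p ∂(P.prod nu) ≤ ENNReal.ofReal ((1 / 2) ^ k) := by
    intro k
    refine (lintegral_liminf_le (hXm k)).trans ?_
    refine (liminf_le_liminf (Eventually.of_forall (hXle k))).trans ?_
    simp only [one_div, inv_pow, Nat.ofNat_pos, pow_pos, ENNReal.ofReal_inv_of_pos, Nat.ofNat_nonneg, ENNReal.ofReal_pow, ENNReal.ofReal_ofNat, liminf_const, Std.le_refl]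
  have hsum : ∫⁻ p, ∑' k, Y k p ∂(P.prod nu) ≠ ∞ := by
    rw [lintegral_tsum fun k => (hYm k).aemeasurable]
    have h1 : ∑' k, ∫⁻ p, Y k p ∂(P.prod nu) ≤ ∑' k : ℕ, ENNReal.ofReal ((1 / 2) ^ k) :=
      ENNReal.tsum_le_tsum hYle
    refine ne_top_of_le_ne_top ?_ h1
    rw [← ENNReal.ofReal_tsum_of_nonneg (fun k => (hεpos k).le)
      (summable_geometric_of_lt_one (by norm_num) (by norm_num))]
    exact ENNReal.ofReal_ne_top
  have hae : ∀ᵐ p ∂(P.prod nu), ∑' k, Y k p < ∞ :=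
    ae_lt_top (Measurable.tsum hYm) hsum
  have hae2 := Measure.ae_ae_of_ae_prod hae
  filter_upwards [hae2] with ω hω
  have hω' : ∀ᵐ E : ℝ, ∑' k, Y k (ω, E) < ∞ := volume_ac_nu.ae_le hω
  filter_upwards [hω'] with E hE u hu
  have hz : ∀ k, 0 < ((E : ℂ) + η k * I).im := fun k => by simpa using hηpos k
  have hYk : ∀ k, Y k (ω, E) = ENNReal.ofReal (min (u k x).im 1) := by
    intro k
    have h1 := tendsto_GV (hz k) x (hu k)
    have h2 : Tendsto (fun L => X k L (ω, E)) atTop (𝓝 (ENNReal.ofReal (min (u k x).im 1))) := by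
      refine ENNReal.tendsto_ofReal ?_
      refine Tendsto.min ?_ tendsto_const_nhds
      exact (Complex.continuous_im.tendsto _).comp h1
    exact h2.liminf_eq
  have h0 : Tendsto (fun k => Y k (ω, E)) atTop (𝓝 0) :=
    ENNReal.tendsto_atTop_zero_of_tsum_ne_top hE.ne
  simp_rw [hYk] at h0
  have h1 : Tendsto (fun k => (ENNReal.ofReal (min (u k x).im 1)).toReal) atTop (𝓝 0) := by
    have := (ENNReal.tendsto_toReal ENNReal.zero_ne_top).comp h0
    simpa only [Function.comp_def, ENNReal.toReal_zero] using this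
  have hnn : ∀ k, 0 ≤ (u k x).im := fun k => resolvent_im_nonneg (hz k) (hu k)
  have h2 : Tendsto (fun k => min (u k x).im 1) atTop (𝓝 0) := by
    refine h1.congr fun k => ?_
    exact ENNReal.toReal_ofReal (le_min (hnn k) zero_le_one)
  -- eventually `min a 1 = a`
  have h3 : ∀ᶠ k in atTop, min (u k x).im 1 < 1 := h2.eventually (gt_mem_nhds one_pos)
  refine h2.congr' ?_
  filter_upwards [h3] with k hk
  rcases min_lt_iff.mp hk with h | h
  · exact min_eq_left h.le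
  · exact absurd h (lt_irrefl _)

/-- **Main theorem.** On `ℤ²`, for an arbitrary random background `U`, and independent iid
standard Cauchy variables `c`, for every `γ > 0` almost surely all spectral measures of
`Δ + U + γ c` are singular. -/
theorem no_ac {γ : ℝ} (hγ : 0 < γ) (U c : Site → Ω → ℝ) (hU : ∀ x, Measurable (U x))
    (hc : ∀ x, Measurable (c x)) (hci : iIndepFun c P)
    (hcl : ∀ x, P.map (c x) = cauchyMeasure 0 1)
    (hUc : IndepFun (fun ω x => U x ω) (fun ω x => c x ω) P) :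
    ∀ᵐ ω ∂P, ∀ (ψ : L2) (μ : Measure ℝ),
      IsSpectralMeasure (fun y => U y ω + γ * c y ω) ψ μ → μ ⟂ₘ (volume : Measure ℝ) := by
  obtain ⟨η, h1, h2, h3⟩ := ae_sites hγ U c hU hc hci hcl hUc
  filter_upwards [h3] with ω hω ψ μ hμ
  exact singular_of_sites _ η h1 h2 hω ψ μ hμ

end P365L
end

section

/-!
# P365L: the law `Unif[-1,1] * Cauchy(κ)` is close to the uniform law in total variation.
-/

namespace P365L

open MeasureTheory ProbabilityTheory Filter Topology
open scoped ENNReal NNReal Real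

/-- the uniform law on `[-1,1]` -/
noncomputable def unif : Measure ℝ := ProbabilityTheory.cond volume (Set.Icc (-1) 1)

theorem unif_eq : unif = (2 : ℝ≥0∞)⁻¹ • (volume : Measure ℝ).restrict (Set.Icc (-1) 1) := by
  unfold unif ProbabilityTheory.cond
  rw [Real.volume_Icc]
  norm_num

theorem unif_apply {B : Set ℝ} (hB : MeasurableSet B) :
    unif B = (2 : ℝ≥0∞)⁻¹ * volume (B ∩ Set.Icc (-1) 1) := by
  rw [unif_eq, Measure.smul_apply, Measure.restrict_apply hB, smul_eq_mul]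

instance isProbabilityMeasure_unif : IsProbabilityMeasure unif := by
  constructor
  rw [unif_apply MeasurableSet.univ, Set.univ_inter, Real.volume_Icc]
  have h : ((1 : ℝ) - -1) = 2 := by norm_num
  rw [h, ENNReal.ofReal_ofNat]
  exact ENNReal.inv_mul_cancel (by norm_num) (by norm_num)

theorem unif_shift_le {B : Set ℝ} (hB : MeasurableSet B) (s : ℝ) :
    unif {x | x + s ∈ B} ≤ unif B + ENNReal.ofReal |s| := by
  have hBs : MeasurableSet {x | x + s ∈ B} := hB.preimage (measurable_id.add_const s)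
  rw [unif_apply hBs, unif_apply hB]
  -- translate
  have h1 : volume ({x | x + s ∈ B} ∩ Set.Icc (-1) 1) = volume (B ∩ Set.Icc (-1 + s) (1 + s)) := by
    have h2 : {x | x + s ∈ B} ∩ Set.Icc (-1) 1 = (fun x => x + s) ⁻¹' (B ∩ Set.Icc (-1 + s) (1 + s)) := by
      ext x
      simp only [Set.mem_inter_iff, Set.mem_ofPred_eq, Set.mem_Icc, Set.preimage_inter, Set.preimage_add_const_Icc, add_sub_cancel_right, Set.mem_preimage]
    rw [h2, measure_preimage_add_right]
  rw [h1]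
  have h3 : B ∩ Set.Icc (-1 + s) (1 + s) ⊆ (B ∩ Set.Icc (-1) 1) ∪
      (Set.Icc (-1 - |s|) (-1) ∪ Set.Icc 1 (1 + |s|)) := by
    rintro x ⟨hx, hx1, hx2⟩
    by_cases h : x ∈ Set.Icc (-1 : ℝ) 1
    · exact Or.inl ⟨hx, h⟩
    · right
      rw [Set.mem_Icc, not_and_or, not_le, not_le] at h
      rcases h with h | h
      · left
        refine ⟨?_, h.le⟩
        have := neg_abs_le s
        linarith only [hx1, this]
      · right
        refine ⟨h.le, ?_⟩
        have := le_abs_self s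
        linarith only [hx2, this]
  have h4 : volume (B ∩ Set.Icc (-1 + s) (1 + s)) ≤
      volume (B ∩ Set.Icc (-1) 1) + (ENNReal.ofReal |s| + ENNReal.ofReal |s|) := by
    refine (measure_mono h3).trans ((measure_union_le _ _).trans ?_)
    refine add_le_add le_rfl ((measure_union_le _ _).trans ?_)
    rw [Real.volume_Icc, Real.volume_Icc]
    refine add_le_add (ENNReal.ofReal_le_ofReal ?_) (ENNReal.ofReal_le_ofReal ?_) <;> linarith
  calc (2 : ℝ≥0∞)⁻¹ * volume (B ∩ Set.Icc (-1 + s) (1 + s))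
      ≤ 2⁻¹ * (volume (B ∩ Set.Icc (-1) 1) + (ENNReal.ofReal |s| + ENNReal.ofReal |s|)) := by
        gcongr
    _ = 2⁻¹ * volume (B ∩ Set.Icc (-1) 1) + ENNReal.ofReal |s| := by
        rw [mul_add, ← two_mul, ← mul_assoc, ENNReal.inv_mul_cancel (by norm_num) (by norm_num),
          one_mul]

/-- one-sided bound -/
theorem conv_le {ε : ℝ} (hε : 0 < ε) : ∃ κ₀ : ℝ, 0 < κ₀ ∧
    ∀ {Ω : Type*} [MeasurableSpace Ω] (P : Measure Ω) [IsProbabilityMeasure P] (w c : Ω → ℝ),
      Measurable w → Measurable c → IndepFun w c P → P.map w = unif →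
      P.map c = cauchyMeasure 0 1 → ∀ κ : ℝ, 0 < κ → κ ≤ κ₀ → ∀ B : Set ℝ, MeasurableSet B →
        P {ω | w ω + κ * c ω ∈ B} ≤ unif B + ENNReal.ofReal ε := by
  obtain ⟨T, hT, hTε⟩ := nu_tail (ε / 2) (by positivity)
  refine ⟨ε / (2 * T), by positivity, ?_⟩
  intro Ω _ P _ w c hw hc hind hwl hcl κ hκ hκ0 B hB
  have hprod : P.map (fun ω => (w ω, c ω)) = unif.prod nu := by
    rw [(indepFun_iff_map_prod_eq_prod_map_map hw.aemeasurable hc.aemeasurable).mp hind, hwl, hcl]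
  have hset : MeasurableSet {p : ℝ × ℝ | p.1 + κ * p.2 ∈ B} :=
    hB.preimage (measurable_fst.add (measurable_snd.const_mul κ))
  have h1 : P {ω | w ω + κ * c ω ∈ B} = (unif.prod nu) {p : ℝ × ℝ | p.1 + κ * p.2 ∈ B} := by
    rw [← hprod, Measure.map_apply (hw.prodMk hc) hset]
    rfl
  rw [h1, Measure.prod_apply_symm hset]
  have h2 : ∀ t : ℝ, unif ((fun x => (x, t)) ⁻¹' {p : ℝ × ℝ | p.1 + κ * p.2 ∈ B}) ≤
      (unif B + ENNReal.ofReal (ε / 2)) + Set.indicator {t : ℝ | T < |t|} 1 t := by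
    intro t
    by_cases ht : T < |t|
    · have h3 : Set.indicator {t : ℝ | T < |t|} (1 : ℝ → ℝ≥0∞) t = 1 :=
        Set.indicator_of_mem (s := {t : ℝ | T < |t|}) ht _
      rw [h3]
      exact prob_le_one.trans (le_add_self)
    · have h3 : Set.indicator {t : ℝ | T < |t|} (1 : ℝ → ℝ≥0∞) t = 0 :=
        Set.indicator_of_notMem (s := {t : ℝ | T < |t|}) ht _
      rw [h3, add_zero]
      refine (unif_shift_le hB (κ * t)).trans ?_
      refine add_le_add le_rfl (ENNReal.ofReal_le_ofReal ?_)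
      rw [abs_mul, abs_of_pos hκ]
      have h4 : |t| ≤ T := not_lt.mp ht
      calc κ * |t| ≤ ε / (2 * T) * T := by (clear * - hκ0 h4 hε hT; gcongr)
        _ = ε / 2 := by field_simp
  refine (lintegral_mono h2).trans ?_
  have hTm : MeasurableSet {t : ℝ | T < |t|} := measurableSet_lt measurable_const continuous_abs.measurable
  rw [lintegral_add_left measurable_const, lintegral_const, measure_univ, mul_one,
    lintegral_indicator_one hTm, add_assoc]
  refine add_le_add le_rfl ((add_le_add le_rfl hTε).trans ?_)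
  rw [← ENNReal.ofReal_add (by positivity) (by positivity), add_halves]

/-- closeness in total variation -/
theorem tv_close {ε : ℝ} (hε : 0 < ε) : ∃ κ₀ : ℝ, 0 < κ₀ ∧
    ∀ {Ω : Type*} [MeasurableSpace Ω] (P : Measure Ω) [IsProbabilityMeasure P] (w c : Ω → ℝ),
      Measurable w → Measurable c → IndepFun w c P → P.map w = unif →
      P.map c = cauchyMeasure 0 1 → ∀ κ : ℝ, 0 < κ → κ ≤ κ₀ → ∀ B : Set ℝ, MeasurableSet B →
        |P.real {ω | w ω + κ * c ω ∈ B} - unif.real B| ≤ ε := by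
  obtain ⟨κ₀, hκ₀, H⟩ := conv_le hε
  refine ⟨κ₀, hκ₀, ?_⟩
  intro Ω _ P _ w c hw hc hind hwl hcl κ hκ hκ0 B hB
  have hset : ∀ B : Set ℝ, MeasurableSet B → MeasurableSet {ω | w ω + κ * c ω ∈ B} :=
    fun B hB => hB.preimage (hw.add (hc.const_mul κ))
  have key : ∀ B : Set ℝ, MeasurableSet B → P.real {ω | w ω + κ * c ω ∈ B} ≤ unif.real B + ε := by
    intro B hB
    have h1 := H P w c hw hc hind hwl hcl κ hκ hκ0 B hB
    have h2 := ENNReal.toReal_mono (by finiteness) h1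
    rwa [ENNReal.toReal_add (by finiteness) (by finiteness), ENNReal.toReal_ofReal hε.le] at h2
  have h1 := key B hB
  have h2 := key Bᶜ hB.compl
  have h3 : P.real {ω | w ω + κ * c ω ∈ Bᶜ} = 1 - P.real {ω | w ω + κ * c ω ∈ B} := by
    have : {ω | w ω + κ * c ω ∈ Bᶜ} = {ω | w ω + κ * c ω ∈ B}ᶜ := rfl
    rw [this, probReal_compl_eq_one_sub (hset B hB)]
  have h4 : unif.real Bᶜ = 1 - unif.real B := probReal_compl_eq_one_sub hB
  rw [h3, h4] at h2
  rw [abs_le]
  constructor <;> linarith only [h1, h2]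

end P365L
end
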